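import Vale.Agent.P233.MathlibUsed
import Vale.Agent.P233.Stmt

set_option linter.all false

section

section

open MeasureTheory Filter Topology
open scoped ENNReal NNReal InnerProductSpace

universe u

namespace Vale.Agent.P233

/-! ### A first order calculus: Sobolev functions, carre du champ, bounded Lipschitz functions -/

/-- `W` is the set of Sobolev functions, `Γ f g = ⟨∇f,∇g⟩`, and `B` is the set of the
bounded Lipschitz functions. -/
structure Calc {M : Type*} [MeasurableSpace M] (m : Measure M) where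
  W : Set (M →ₘ[m] ℝ)
  Γ : (M →ₘ[m] ℝ) → (M →ₘ[m] ℝ) → (M →ₘ[m] ℝ)
  B : Set (M →ₘ[m] ℝ)

namespace Calc

variable {M : Type*} [MeasurableSpace M] {m : Measure M} (C : Calc m)

/-- `h = Δf`. -/
def IsLap (f h : M →ₘ[m] ℝ) : Prop :=
  f ∈ C.W ∧ MemLp h 2 m ∧ ∀ g ∈ C.W, ∫ x, C.Γ f g x ∂m = -∫ x, (h * g) x ∂m

open Classical in
/-- `Δf`. -/
noncomputable def lap (f : M →ₘ[m] ℝ) : M →ₘ[m] ℝ :=
  if h : ∃ h, C.IsLap f h then h.choose else 0

/-- `Test(M)`: `f ∈ D(Δ)` is bounded and Lipschitz and `Δf ∈ W`. -/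
def Test : Set (M →ₘ[m] ℝ) := {f | f ∈ C.B ∧ ∃ h, C.IsLap f h ∧ h ∈ C.W}

/-- The weak Bochner inequality `BE(K,N)`. -/
def BE (K N : ℝ) : Prop :=
  ∀ f h φ ψ : M →ₘ[m] ℝ, C.IsLap f h → h ∈ C.W → C.IsLap φ ψ → 0 ≤ φ → MemLp φ ∞ m →
    MemLp ψ ∞ m →
    ∫ x, (φ * (C.Γ f h + K • C.Γ f f + N⁻¹ • h ^ 2)) x ∂m ≤ ∫ x, ((2 : ℝ)⁻¹ • (C.Γ f f * ψ)) x ∂m

/-- `X ∈ TestV(M)`, where the list of the pairs `(a_j, b_j)` stands for `∑ a_j ∇b_j`. -/
def IsTestV (X : List ((M →ₘ[m] ℝ) × (M →ₘ[m] ℝ))) : Prop :=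
  ∀ p ∈ X, p.1 ∈ C.Test ∧ p.2 ∈ C.Test

/-- `⟨X,Y⟩`. -/
noncomputable def ip (X Y : List ((M →ₘ[m] ℝ) × (M →ₘ[m] ℝ))) : M →ₘ[m] ℝ :=
  (X.map fun p => (Y.map fun q => p.1 * q.1 * C.Γ p.2 q.2).sum).sum

/-- `div X`. -/
noncomputable def dv (X : List ((M →ₘ[m] ℝ) × (M →ₘ[m] ℝ))) : M →ₘ[m] ℝ :=
  (X.map fun p => C.Γ p.1 p.2 + p.1 * C.lap p.2).sum

/-- `Hess b (∇g, ∇h)`. -/
noncomputable def hess (b g h : M →ₘ[m] ℝ) : M →ₘ[m] ℝ :=
  (2 : ℝ)⁻¹ • (C.Γ g (C.Γ b h) + C.Γ h (C.Γ b g) - C.Γ b (C.Γ g h))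

/-- `⟨∇_X Y, Z⟩`, where `⟨∇_X (c ∇d), Z⟩ = ⟨X,∇c⟩ ⟨∇d,Z⟩ + c Hess d (X, Z)`. -/
noncomputable def nab (X Y Z : List ((M →ₘ[m] ℝ) × (M →ₘ[m] ℝ))) : M →ₘ[m] ℝ :=
  (X.map fun p => (Y.map fun q => (Z.map fun r =>
    p.1 * r.1 * (C.Γ p.2 q.1 * C.Γ q.2 r.2 + q.1 * C.hess q.2 p.2 r.2)).sum).sum).sum

/-- `f X`. -/
def mulV (f : M →ₘ[m] ℝ) (X : List ((M →ₘ[m] ℝ) × (M →ₘ[m] ℝ))) :
    List ((M →ₘ[m] ℝ) × (M →ₘ[m] ℝ)) := X.map fun p => (f * p.1, p.2)

variable {H : Type*} [NormedAddCommGroup H] [InnerProductSpace ℝ H]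
  (ι : List ((M →ₘ[m] ℝ) × (M →ₘ[m] ℝ)) → H)

/-- `H`, with the map `ι`, is the Hilbert space `L²(TM)`: the completion of `TestV(M)`
with respect to `∫ ⟨X,Y⟩ dm`. -/
def IsL2TM : Prop :=
  (∀ X Y, C.IsTestV X → C.IsTestV Y → ⟪ι X, ι Y⟫_ℝ = ∫ x, C.ip X Y x ∂m) ∧
    Dense {v | ∃ X, C.IsTestV X ∧ ι X = v}

/-- `V = ∇_X Y` in `L²(TM)`. -/
def IsCov (X Y : List ((M →ₘ[m] ℝ) × (M →ₘ[m] ℝ))) (V : H) : Prop :=
  ∀ Z, C.IsTestV Z → ⟪V, ι Z⟫_ℝ = ∫ x, C.nab X Y Z x ∂m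

/-- `V ∈ L²(TM)` is the vector field with `⟨V, X⟩ = ⟨∇_X Y, Z⟩`. -/
def IsCovT (Y Z : List ((M →ₘ[m] ℝ) × (M →ₘ[m] ℝ))) (V : H) : Prop :=
  ∀ X, C.IsTestV X → ⟪V, ι X⟫_ℝ = ∫ x, C.nab X Y Z x ∂m

open Classical in
/-- `∇_X Y ∈ L²(TM)`. -/
noncomputable def cov (X Y : List ((M →ₘ[m] ℝ) × (M →ₘ[m] ℝ))) : H :=
  if h : ∃ V, C.IsCov ι X Y V then h.choose else 0

open Classical in
/-- The field `V ∈ L²(TM)` with `⟨V, X⟩ = ⟨∇_X Y, Z⟩`. -/
noncomputable def covT (Y Z : List ((M →ₘ[m] ℝ) × (M →ₘ[m] ℝ))) : H :=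
  if h : ∃ V, C.IsCovT ι Y Z V then h.choose else 0

/-- Gigli's curvature functional `R(X,Y,Z,W)(f)`. -/
noncomputable def curv (X Y Z W : List ((M →ₘ[m] ℝ) × (M →ₘ[m] ℝ))) (f : M →ₘ[m] ℝ) : ℝ :=
  -⟪C.cov ι X (mulV f W), C.cov ι Y Z⟫_ℝ - ∫ x, (f * C.nab Y Z W * C.dv X) x ∂m
    + ⟪C.cov ι Y (mulV f W), C.cov ι X Z⟫_ℝ + ∫ x, (f * C.nab X Z W * C.dv Y) x ∂m
    - ⟪C.cov ι X Y - C.cov ι Y X, C.covT ι Z (mulV f W)⟫_ℝ

end Calc

/-! ### The Sobolev calculus of a metric measure space -/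

section Metric

variable {M : Type*} [MetricSpace M] [MeasurableSpace M] {m : Measure M}

/-- The local Lipschitz constant `limsup_{y → x} |f y - f x| / d(y,x)`. -/
noncomputable def lipAt (f : M → ℝ) (x : M) : ℝ≥0∞ :=
  limsup (fun y => ENNReal.ofReal (|f y - f x| / dist y x)) (𝓝[≠] x)

/-- `G ∈ L²` is a relaxed slope of `f ∈ L²`: there are Lipschitz `u k ∈ L²` with
`u k → f` in `L²` and `g k ∈ L²` with `lip (u k) ≤ g k` a.e. and `g k → G` in `L²`. -/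
def IsRelaxedSlope (f G : M →ₘ[m] ℝ) : Prop :=
  MemLp f 2 m ∧ MemLp G 2 m ∧ ∃ u g : ℕ → M → ℝ,
    (∀ k, (∃ K, LipschitzWith K (u k)) ∧ MemLp (u k) 2 m ∧ MemLp (g k) 2 m ∧
      ∀ᵐ x ∂m, 0 ≤ g k x ∧ lipAt (u k) x ≤ ENNReal.ofReal (g k x)) ∧
    Tendsto (fun k => eLpNorm (fun x => u k x - f x) 2 m) atTop (𝓝 0) ∧
    Tendsto (fun k => eLpNorm (fun x => g k x - G x) 2 m) atTop (𝓝 0)

/-- `G` is the minimal relaxed slope of `f`. -/
def IsMinSlope (f G : M →ₘ[m] ℝ) : Prop :=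
  IsRelaxedSlope f G ∧ ∀ G', IsRelaxedSlope f G' → G ≤ G'

open Classical in
/-- The minimal relaxed slope `|Df|`. The Cheeger energy of `f ∈ W^{1,2}` is `½ ∫ |Df|² dm`. -/
noncomputable def slope (f : M →ₘ[m] ℝ) : M →ₘ[m] ℝ :=
  if h : ∃ G, IsMinSlope f G then h.choose else 0

variable (m) in
/-- `W^{1,2}(M)`, with `⟨∇f,∇g⟩` given by polarization of `|Df|²`, and with the functions
that have a bounded Lipschitz representative. -/
noncomputable def sob : Calc m where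
  W := {f | ∃ G, IsRelaxedSlope f G}
  Γ := fun f g => (4 : ℝ)⁻¹ • (slope (f + g) ^ 2 - slope (f - g) ^ 2)
  B := {f | ∃ u : M → ℝ, (∃ K, LipschitzWith K u) ∧ (∃ K : ℝ, ∀ x, |u x| ≤ K) ∧ f =ᵐ[m] u}

/-- `RCD(K,N)` for finite `N`, in its Eulerian form. -/
structure IsRCD (m : Measure M) (K N : ℝ) : Prop where
  quadratic : ∀ f ∈ (sob m).W, ∀ g ∈ (sob m).W,
    ∫ x, (slope (f + g) ^ 2) x ∂m + ∫ x, (slope (f - g) ^ 2) x ∂m
      = 2 * ∫ x, (slope f ^ 2) x ∂m + 2 * ∫ x, (slope g ^ 2) x ∂m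
  growth : ∃ (x₀ : M) (c : ℝ), ∀ r > 0,
    m (Metric.ball x₀ r) ≤ ENNReal.ofReal (c * Real.exp (c * r ^ 2))
  sobolev_to_lipschitz : ∀ f ∈ (sob m).W, slope f ≤ 1 → ∃ u : M → ℝ, LipschitzWith 1 u ∧ f =ᵐ[m] u
  bochner : (sob m).BE K N

/-- Distributional sectional curvature `≥ κ`: in `L²(TM)` the covariant derivatives of test
vector fields exist and `R(X,Y,Y,X)(f) ≥ κ ∫ f (|X|²|Y|² - ⟨X,Y⟩²) dm` for all test vector
fields `X`, `Y` and all nonnegative test functions `f`. -/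
def DistSecGE {M : Type u} [MetricSpace M] [MeasurableSpace M] (m : Measure M) (κ : ℝ) : Prop :=
  ∀ (H : Type u) [NormedAddCommGroup H] [InnerProductSpace ℝ H] [CompleteSpace H]
    (ι : List ((M →ₘ[m] ℝ) × (M →ₘ[m] ℝ)) → H), (sob m).IsL2TM ι →
    ∀ X Y : List ((M →ₘ[m] ℝ) × (M →ₘ[m] ℝ)), (sob m).IsTestV X → (sob m).IsTestV Y →
      (∃ V, (sob m).IsCov ι X Y V) ∧ (∃ V, (sob m).IsCovT ι X Y V) ∧
      ∀ f ∈ (sob m).Test, 0 ≤ f →
        κ * ∫ x, (f * ((sob m).ip X X * (sob m).ip Y Y - (sob m).ip X Y ^ 2)) x ∂m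
          ≤ (sob m).curv ι X Y Y X f

end Metric

end Vale.Agent.P233
end
end

section

section

open MeasureTheory Filter Topology
open scoped ENNReal NNReal

namespace Vale.Agent.P233

variable {M : Type*} [MeasurableSpace M] {m : Measure M}

noncomputable instance instCommRingL0 : CommRing (M →ₘ[m] ℝ) :=
  { (inferInstance : AddCommGroup (M →ₘ[m] ℝ)), (inferInstance : CommMonoid (M →ₘ[m] ℝ)) with
    left_distrib := fun a b c => by
      apply AEEqFun.ext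
      filter_upwards [AEEqFun.coeFn_mul a (b + c), AEEqFun.coeFn_add b c,
        AEEqFun.coeFn_add (a * b) (a * c), AEEqFun.coeFn_mul a b, AEEqFun.coeFn_mul a c]
        with x h1 h2 h3 h4 h5
      simp only [h1, h2, h3, h4, h5, Pi.mul_apply, Pi.add_apply]
      ring
    right_distrib := fun a b c => by
      apply AEEqFun.ext
      filter_upwards [AEEqFun.coeFn_mul (a + b) c, AEEqFun.coeFn_add a b,
        AEEqFun.coeFn_add (a * c) (b * c), AEEqFun.coeFn_mul a c, AEEqFun.coeFn_mul b c]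
        with x h1 h2 h3 h4 h5
      simp only [h1, h2, h3, h4, h5, Pi.mul_apply, Pi.add_apply]
      ring
    zero_mul := fun a => by
      apply AEEqFun.ext
      filter_upwards [AEEqFun.coeFn_mul 0 a, AEEqFun.coeFn_zero (α := M) (μ := m) (β := ℝ)]
        with x h1 h2
      simp only [h1, Pi.mul_apply, h2, Pi.zero_apply, zero_mul]
    mul_zero := fun a => by
      apply AEEqFun.ext
      filter_upwards [AEEqFun.coeFn_mul a 0, AEEqFun.coeFn_zero (α := M) (μ := m) (β := ℝ)]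
        with x h1 h2
      simp only [h1, Pi.mul_apply, h2, Pi.zero_apply, mul_zero] }

noncomputable instance instAlgebraL0 : Algebra ℝ (M →ₘ[m] ℝ) :=
  Algebra.ofModule
    (fun r x y => by
      apply AEEqFun.ext
      filter_upwards [AEEqFun.coeFn_mul (r • x) y, AEEqFun.coeFn_smul r x,
        AEEqFun.coeFn_smul r (x * y), AEEqFun.coeFn_mul x y] with a h1 h2 h3 h4
      simp only [h1, h2, h3, h4, Pi.mul_apply, Pi.smul_apply, smul_eq_mul]
      ring)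
    (fun r x y => by
      apply AEEqFun.ext
      filter_upwards [AEEqFun.coeFn_mul x (r • y), AEEqFun.coeFn_smul r y,
        AEEqFun.coeFn_smul r (x * y), AEEqFun.coeFn_mul x y] with a h1 h2 h3 h4
      simp only [h1, h2, h3, h4, Pi.mul_apply, Pi.smul_apply, smul_eq_mul]
      ring)


section ae
variable (f g : M →ₘ[m] ℝ)

theorem mul_ae : ⇑(f * g) =ᵐ[m] fun x => f x * g x := AEEqFun.coeFn_mul f g
theorem add_ae : ⇑(f + g) =ᵐ[m] fun x => f x + g x := AEEqFun.coeFn_add f g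
theorem sub_ae : ⇑(f - g) =ᵐ[m] fun x => f x - g x := AEEqFun.coeFn_sub f g
theorem neg_ae : ⇑(-f) =ᵐ[m] fun x => - f x := AEEqFun.coeFn_neg f
theorem smul_ae (c : ℝ) : ⇑(c • f) =ᵐ[m] fun x => c * f x := AEEqFun.coeFn_smul c f
theorem sq_ae : ⇑(f ^ 2) =ᵐ[m] fun x => f x ^ 2 := AEEqFun.coeFn_pow f 2
theorem one_ae : ⇑(1 : M →ₘ[m] ℝ) =ᵐ[m] fun _ => (1 : ℝ) := AEEqFun.coeFn_one
theorem zero_ae : ⇑(0 : M →ₘ[m] ℝ) =ᵐ[m] fun _ => (0 : ℝ) := AEEqFun.coeFn_zero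

variable {f g}
theorem le_iff_ae : f ≤ g ↔ ∀ᵐ x ∂m, f x ≤ g x := AEEqFun.coeFn_le.symm
theorem nonneg_iff_ae : 0 ≤ f ↔ ∀ᵐ x ∂m, 0 ≤ f x := by
  rw [le_iff_ae]
  constructor <;> intro h <;> filter_upwards [h, zero_ae (M := M) (m := m)] with x h1 h2
  · rwa [h2] at h1
  · rwa [h2]
theorem eq_iff_ae : f = g ↔ ∀ᵐ x ∂m, f x = g x := ⟨fun h => by rw [h]; simp, fun h => AEEqFun.ext h⟩

end ae

instance instOrderedRingL0 : IsOrderedRing (M →ₘ[m] ℝ) where
  add_le_add_left a b h c := by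
    rw [le_iff_ae] at *
    filter_upwards [h, add_ae a c, add_ae b c] with x h1 h2 h3
    rw [h2, h3]; linarith
  zero_le_one := by
    rw [le_iff_ae]
    filter_upwards [zero_ae (M := M) (m := m), one_ae (M := M) (m := m)] with x h1 h2
    rw [h1, h2]; norm_num
  mul_le_mul_of_nonneg_left a ha b c h := by
    rw [nonneg_iff_ae] at ha
    rw [le_iff_ae] at *
    filter_upwards [h, ha, mul_ae a b, mul_ae a c] with x h1 h2 h3 h4
    rw [h3, h4]; exact mul_le_mul_of_nonneg_left h1 h2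
  mul_le_mul_of_nonneg_right a ha b c h := by
    rw [nonneg_iff_ae] at ha
    rw [le_iff_ae] at *
    filter_upwards [h, ha, mul_ae b a, mul_ae c a] with x h1 h2 h3 h4
    rw [h3, h4]; exact mul_le_mul_of_nonneg_right h1 h2

theorem smul_nonneg' {c : ℝ} (hc : 0 ≤ c) {f : M →ₘ[m] ℝ} (hf : 0 ≤ f) : 0 ≤ c • f := by
  rw [nonneg_iff_ae] at *
  filter_upwards [hf, smul_ae f c] with x h1 h2
  rw [h2]; (clear * - hc h1; positivity)

theorem sq_nonneg' (f : M →ₘ[m] ℝ) : 0 ≤ f ^ 2 := by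
  rw [nonneg_iff_ae]
  filter_upwards [sq_ae f] with x h
  rw [h]; positivity

/-! ### membership in `L^p` -/
section mem
variable {p : ℝ≥0∞} {f g : M →ₘ[m] ℝ}

theorem mem_add (hf : MemLp f p m) (hg : MemLp g p m) : MemLp (f + g : M →ₘ[m] ℝ) p m :=
  (memLp_congr_ae (AEEqFun.coeFn_add f g)).2 (hf.add hg)
theorem mem_sub (hf : MemLp f p m) (hg : MemLp g p m) : MemLp (f - g : M →ₘ[m] ℝ) p m :=
  (memLp_congr_ae (AEEqFun.coeFn_sub f g)).2 (hf.sub hg)
theorem mem_neg (hf : MemLp f p m) : MemLp (-f : M →ₘ[m] ℝ) p m :=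
  (memLp_congr_ae (AEEqFun.coeFn_neg f)).2 hf.neg
theorem mem_smul (c : ℝ) (hf : MemLp f p m) : MemLp (c • f : M →ₘ[m] ℝ) p m :=
  (memLp_congr_ae (AEEqFun.coeFn_smul c f)).2 (hf.const_smul c)
theorem mem_zero : MemLp (0 : M →ₘ[m] ℝ) p m :=
  (memLp_congr_ae AEEqFun.coeFn_zero).2 MemLp.zero
theorem mem_top_one : MemLp (1 : M →ₘ[m] ℝ) ∞ m :=
  (memLp_congr_ae AEEqFun.coeFn_one).2 (memLp_top_const 1)
theorem mem_mul_top (hf : MemLp f ∞ m) (hg : MemLp g p m) : MemLp (f * g : M →ₘ[m] ℝ) p m :=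
  (memLp_congr_ae (AEEqFun.coeFn_mul f g)).2 (MemLp.mul hg hf)
theorem mem_top_mul (hf : MemLp f p m) (hg : MemLp g ∞ m) : MemLp (f * g : M →ₘ[m] ℝ) p m := by
  rw [mul_comm]; exact mem_mul_top hg hf
theorem mem_mul_22 (hf : MemLp f 2 m) (hg : MemLp g 2 m) : MemLp (f * g : M →ₘ[m] ℝ) 1 m :=
  (memLp_congr_ae (AEEqFun.coeFn_mul f g)).2 (MemLp.mul hg hf)
theorem mem_sq (hf : MemLp f 2 m) : MemLp (f ^ 2 : M →ₘ[m] ℝ) 1 m := by
  rw [sq]; exact mem_mul_22 hf hf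
theorem mem_top_iff : MemLp f ∞ m ↔ ∃ K : ℝ, ∀ᵐ x ∂m, |f x| ≤ K := by
  constructor
  · intro h
    refine ⟨(eLpNormEssSup f m).toReal, ?_⟩
    have h2 : eLpNormEssSup f m ≠ ∞ := by
      have := h.2
      rw [eLpNorm_exponent_top] at this
      exact this.ne
    filter_upwards [ae_le_eLpNormEssSup (f := f) (μ := m)] with x hx
    rw [← Real.norm_eq_abs, ← toReal_enorm]
    exact ENNReal.toReal_mono h2 hx
  · rintro ⟨K, hK⟩
    exact memLp_top_of_bound f.aestronglyMeasurable K (by simpa using hK)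
/-- domination -/
theorem mem_of_le (hg : MemLp g p m) (h : ∀ᵐ x ∂m, |f x| ≤ |g x|) : MemLp f p m :=
  hg.mono f.aestronglyMeasurable (by simpa only [Real.norm_eq_abs] using h)
end mem

/-! ### the integral -/

/-- The integral of a class of functions. -/
noncomputable def I (f : M →ₘ[m] ℝ) : ℝ := ∫ x, f x ∂m

section integral
variable {f g : M →ₘ[m] ℝ}
theorem int_of_mem (hf : MemLp f 1 m) : Integrable f m := memLp_one_iff_integrable.1 hf
theorem I_add (hf : MemLp f 1 m) (hg : MemLp g 1 m) : I (f + g) = I f + I g := by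
  unfold I
  rw [integral_congr_ae (add_ae f g), integral_add (int_of_mem hf) (int_of_mem hg)]
theorem I_sub (hf : MemLp f 1 m) (hg : MemLp g 1 m) : I (f - g) = I f - I g := by
  unfold I
  rw [integral_congr_ae (sub_ae f g), integral_sub (int_of_mem hf) (int_of_mem hg)]
theorem I_neg : I (-f) = - I f := by
  unfold I
  rw [integral_congr_ae (neg_ae f), integral_neg]
theorem I_smul (c : ℝ) : I (c • f) = c * I f := by
  unfold I
  rw [integral_congr_ae (smul_ae f c), integral_const_mul]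
theorem I_zero : I (0 : M →ₘ[m] ℝ) = 0 := by
  unfold I
  rw [integral_congr_ae zero_ae]; simp
theorem I_mono (hf : MemLp f 1 m) (hg : MemLp g 1 m) (h : f ≤ g) : I f ≤ I g :=
  integral_mono_ae (int_of_mem hf) (int_of_mem hg) (le_iff_ae.1 h)
theorem I_nonneg (h : 0 ≤ f) : 0 ≤ I f :=
  integral_nonneg_of_ae (nonneg_iff_ae.1 h)
theorem I_eq_zero_of_nonneg (hf : MemLp f 1 m) (h : 0 ≤ f) (h0 : I f = 0) : f = 0 := by
  rw [eq_iff_ae]
  have := (integral_eq_zero_iff_of_nonneg_ae (nonneg_iff_ae.1 h) (int_of_mem hf)).1 h0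
  filter_upwards [this, zero_ae (M := M) (m := m)] with x h1 h2
  rw [h1, h2]; rfl
end integral

end Vale.Agent.P233
end
end

section

section

open MeasureTheory Filter Topology
open scoped ENNReal NNReal

namespace Vale.Agent.P233

variable {M : Type*} [MeasurableSpace M] {m : Measure M}

/-- The square of the Sobolev norm. -/
noncomputable def Calc.nrm2 (C : Calc m) (f : M →ₘ[m] ℝ) : ℝ := I (f ^ 2) + I (C.Γ f f)

/-- Axioms of a calculus: a strongly local Dirichlet form with carre du champ. -/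
structure IsDir (C : Calc m) : Prop where
  zero_mem : (0 : M →ₘ[m] ℝ) ∈ C.W
  add_mem : ∀ f ∈ C.W, ∀ g ∈ C.W, f + g ∈ C.W
  smul_mem : ∀ (c : ℝ), ∀ f ∈ C.W, c • f ∈ C.W
  memLp : ∀ f ∈ C.W, MemLp f 2 m
  symm : ∀ f ∈ C.W, ∀ g ∈ C.W, C.Γ f g = C.Γ g f
  add_left : ∀ f ∈ C.W, ∀ g ∈ C.W, ∀ h ∈ C.W, C.Γ (f + g) h = C.Γ f h + C.Γ g h
  smul_left : ∀ (c : ℝ), ∀ f ∈ C.W, ∀ g ∈ C.W, C.Γ (c • f) g = c • C.Γ f g
  nonneg : ∀ f ∈ C.W, 0 ≤ C.Γ f f
  mem1 : ∀ f ∈ C.W, MemLp (C.Γ f f) 1 m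
  /-- `W` is a Hilbert space -/
  complete : ∀ u : ℕ → M →ₘ[m] ℝ, (∀ n, u n ∈ C.W) →
    (∀ ε > 0, ∃ N, ∀ n ≥ N, ∀ k ≥ N, C.nrm2 (u n - u k) < ε) →
    ∃ f ∈ C.W, Tendsto (fun n => C.nrm2 (u n - f)) atTop (𝓝 0)
  /-- chain rule -/
  chain : ∀ f ∈ C.W, ∀ (φ φ' : ℝ → ℝ) (hφ : Continuous φ) (hφ' : Continuous φ'),
    (∀ t, HasDerivAt φ (φ' t) t) → φ 0 = 0 → (∃ K : ℝ, ∀ t, |φ' t| ≤ K) →
    AEEqFun.comp φ hφ f ∈ C.W ∧
      ∀ g ∈ C.W, C.Γ (AEEqFun.comp φ hφ f) g = AEEqFun.comp φ' hφ' f * C.Γ f g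
  dense_L2 : ∀ f : M →ₘ[m] ℝ, MemLp f 2 m → ∀ ε > 0, ∃ g ∈ C.W, I ((f - g) ^ 2) < ε

/-- Further axioms: density of Lipschitz functions, good cut-off functions, and the
description of Lipschitz functions by their gradient. -/
structure IsGamma (C : Calc m) : Prop extends IsDir C where
  dense_lip : ∀ f ∈ C.W, ∀ ε > 0, ∃ g ∈ C.W, MemLp g ∞ m ∧ MemLp (C.Γ g g) ∞ m ∧
    C.nrm2 (f - g) < ε
  cutoff : ∃ η : ℕ → M →ₘ[m] ℝ, (∀ k, η k ∈ C.W ∧ 0 ≤ η k ∧ η k ≤ 1 ∧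
    C.Γ (η k) (η k) ≤ ((k : ℝ) + 1)⁻¹ • 1) ∧ (∀ k, η k ≤ η (k + 1)) ∧
    ∀ᵐ x ∂m, Tendsto (fun k => η k x) atTop (𝓝 1)
  lip_iff : ∀ f ∈ C.W, (f ∈ C.B ↔ MemLp f ∞ m ∧ MemLp (C.Γ f f) ∞ m)

/-- bounded Sobolev functions -/
def Calc.A (C : Calc m) : Set (M →ₘ[m] ℝ) := {f | f ∈ C.W ∧ MemLp f ∞ m}

/-- bounded functions that differ from a Sobolev function by a constant -/
def Calc.AP (C : Calc m) : Set (M →ₘ[m] ℝ) := {f | ∃ c : ℝ, f - c • (1 : M →ₘ[m] ℝ) ∈ C.A}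

end Vale.Agent.P233
end
end

section

section

open MeasureTheory Filter Topology
open scoped ENNReal NNReal InnerProductSpace

namespace Vale.Agent.P233

variable {M : Type*} [MeasurableSpace M] {m : Measure M}

/-! ### the product in `L²` -/

variable {f g h : M →ₘ[m] ℝ}

theorem I_mul_eq_inner (hf : MemLp f 2 m) (hg : MemLp g 2 m) :
    I (f * g) = ⟪hf.toLp, hg.toLp⟫_ℝ := by
  rw [L2.inner_def]
  unfold I
  refine integral_congr_ae ?_
  filter_upwards [mul_ae f g, hf.coeFn_toLp, hg.coeFn_toLp] with x h1 h2 h3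
  rw [h1, h2, h3]
  simp [mul_comm]

theorem I_sq_eq_norm (hf : MemLp f 2 m) : I (f ^ 2) = ‖hf.toLp‖ ^ 2 := by
  rw [sq, I_mul_eq_inner hf hf, real_inner_self_eq_norm_sq]

theorem I_cs (hf : MemLp f 2 m) (hg : MemLp g 2 m) : I (f * g) ^ 2 ≤ I (f ^ 2) * I (g ^ 2) := by
  rw [I_mul_eq_inner hf hg, I_sq_eq_norm hf, I_sq_eq_norm hg, ← mul_pow, sq_le_sq]
  refine (abs_real_inner_le_norm _ _).trans ?_
  exact le_abs_self _

theorem I_abs_le (hf : MemLp f 2 m) (hg : MemLp g 2 m) :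
    |I (f * g)| ≤ Real.sqrt (I (f ^ 2)) * Real.sqrt (I (g ^ 2)) := by
  rw [I_mul_eq_inner hf hg, I_sq_eq_norm hf, I_sq_eq_norm hg, Real.sqrt_sq (norm_nonneg _),
    Real.sqrt_sq (norm_nonneg _)]
  exact abs_real_inner_le_norm _ _

theorem I_sq_nonneg (f : M →ₘ[m] ℝ) : 0 ≤ I (f ^ 2) := I_nonneg (sq_nonneg' f)

theorem I_sq_eq_zero (hf : MemLp f 2 m) (h : I (f ^ 2) = 0) : f = 0 := by
  have h1 := I_eq_zero_of_nonneg (mem_sq hf) (sq_nonneg' f) h
  rw [eq_iff_ae] at h1 ⊢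
  filter_upwards [h1, sq_ae f, zero_ae (M := M) (m := m)] with x a1 a2 a3
  rw [a2, a3] at a1
  rw [a3]
  exact pow_eq_zero_iff (two_ne_zero) |>.1 a1

theorem eLpNorm_eq_sqrt_I {f : M →ₘ[m] ℝ} (hf : MemLp f 2 m) :
    eLpNorm f 2 m = ENNReal.ofReal (Real.sqrt (I (f ^ 2))) := by
  rw [I_sq_eq_norm hf, Real.sqrt_sq (norm_nonneg _), Lp.norm_toLp,
    ENNReal.ofReal_toReal hf.eLpNorm_lt_top.ne]

/-- `L²` convergence -/
theorem tendsto_eLpNorm_of_I_sq {u : ℕ → M →ₘ[m] ℝ} {f : M →ₘ[m] ℝ}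
    (hu : ∀ n, MemLp (u n) 2 m) (hf : MemLp f 2 m)
    (h : Tendsto (fun n => I ((u n - f) ^ 2)) atTop (𝓝 0)) :
    Tendsto (fun n => eLpNorm ((⇑(u n) : M → ℝ) - ⇑f) 2 m) atTop (𝓝 0) := by
  have h1 : ∀ n, eLpNorm ((⇑(u n) : M → ℝ) - ⇑f) 2 m =
      ENNReal.ofReal (Real.sqrt (I ((u n - f) ^ 2))) := by
    intro n
    rw [← eLpNorm_eq_sqrt_I (mem_sub (hu n) hf)]
    exact eLpNorm_congr_ae (AEEqFun.coeFn_sub (u n) f).symm
  simp_rw [h1]
  have h2 := ENNReal.tendsto_ofReal ((Real.continuous_sqrt.tendsto 0).comp h)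
  simpa [Function.comp_def] using h2

/-- subsequence converging almost everywhere -/
theorem exists_subseq_of_I_sq {u : ℕ → M →ₘ[m] ℝ} {f : M →ₘ[m] ℝ}
    (hu : ∀ n, MemLp (u n) 2 m) (hf : MemLp f 2 m)
    (h : Tendsto (fun n => I ((u n - f) ^ 2)) atTop (𝓝 0)) :
    ∃ ns : ℕ → ℕ, StrictMono ns ∧ ∀ᵐ x ∂m, Tendsto (fun n => u (ns n) x) atTop (𝓝 (f x)) :=
  (tendstoInMeasure_of_tendsto_eLpNorm (by norm_num) (fun n => (hu n).1) hf.1
    (tendsto_eLpNorm_of_I_sq hu hf h)).exists_seq_tendsto_ae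

/-- dominated convergence -/
theorem I_tendsto_of_dominated {u : ℕ → M →ₘ[m] ℝ} {f : M →ₘ[m] ℝ} {G : M → ℝ}
    (hG : Integrable G m) (hb : ∀ n, ∀ᵐ x ∂m, |u n x| ≤ G x)
    (h : ∀ᵐ x ∂m, Tendsto (fun n => u n x) atTop (𝓝 (f x))) :
    Tendsto (fun n => I (u n)) atTop (𝓝 (I f)) :=
  tendsto_integral_of_dominated_convergence G (fun n => (u n).aestronglyMeasurable) hG
    (by simpa only [Real.norm_eq_abs] using hb) h

/-- the elementary inequality `(a+b)² ≤ 2a²+2b²` integrated -/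
theorem I_sq_add_le (hf : MemLp f 2 m) (hg : MemLp g 2 m) :
    I ((f + g) ^ 2) ≤ 2 * I (f ^ 2) + 2 * I (g ^ 2) := by
  rw [← I_smul, ← I_smul, ← I_add (mem_smul _ (mem_sq hf)) (mem_smul _ (mem_sq hg))]
  refine I_mono (mem_sq (mem_add hf hg)) (mem_add (mem_smul _ (mem_sq hf)) (mem_smul _ (mem_sq hg)))
    ?_
  rw [le_iff_ae]
  filter_upwards [sq_ae (f + g), add_ae f g, add_ae ((2 : ℝ) • f ^ 2) ((2 : ℝ) • g ^ 2),
    smul_ae (f ^ 2) (2 : ℝ), smul_ae (g ^ 2) (2 : ℝ), sq_ae f, sq_ae g] with x b1 b2 b3 b4 b5 b6 b7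
  rw [b1, b2, b3, b4, b5, b6, b7]
  nlinarith only [sq_nonneg (f x - g x)]

theorem memLp_two_of_sq {F : M →ₘ[m] ℝ} (h : MemLp (F ^ 2 : M →ₘ[m] ℝ) 1 m) : MemLp F 2 m := by
  rw [memLp_two_iff_integrable_sq F.aestronglyMeasurable]
  exact (int_of_mem h).congr (sq_ae F)

end Vale.Agent.P233
end
end

section

section

open MeasureTheory Filter Topology
open scoped ENNReal NNReal

namespace Vale.Agent.P233

variable {M : Type*} [MeasurableSpace M] {m : Measure M} {C : Calc m}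

/-- discriminant -/
theorem disc_of_forall {a b c : ℝ} (h : ∀ t : ℝ, 0 ≤ a + 2 * t * b + t ^ 2 * c) :
    b ^ 2 ≤ a * c := by
  have h1 : discrim c (2 * b) a ≤ 0 := discrim_le_zero fun t => by
    have := h t
    linarith
  unfold discrim at h1
  linarith

theorem forall_real_of_rat {a b c : ℝ} (h : ∀ q : ℚ, 0 ≤ a + 2 * (q : ℝ) * b + (q : ℝ) ^ 2 * c)
    (t : ℝ) : 0 ≤ a + 2 * t * b + t ^ 2 * c := by
  have hcont : Continuous fun t : ℝ => a + 2 * t * b + t ^ 2 * c := by fun_prop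
  have hcl : IsClosed {t : ℝ | 0 ≤ a + 2 * t * b + t ^ 2 * c} :=
    isClosed_le continuous_const hcont
  have hd : Dense {t : ℝ | 0 ≤ a + 2 * t * b + t ^ 2 * c} :=
    Rat.denseRange_cast.mono (by rintro _ ⟨q, rfl⟩; exact h q)
  have := hcl.closure_eq ▸ hd.closure_eq
  exact (this ▸ Set.mem_univ t : t ∈ {t : ℝ | 0 ≤ a + 2 * t * b + t ^ 2 * c})

namespace IsDir

variable (hC : IsDir C)
include hC

section linear
variable {f g h : M →ₘ[m] ℝ}

theorem neg_mem (hf : f ∈ C.W) : -f ∈ C.W := by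
  have := hC.smul_mem (-1) f hf
  simpa only [neg_smul, one_smul] using this

theorem sub_mem (hf : f ∈ C.W) (hg : g ∈ C.W) : f - g ∈ C.W := by
  rw [sub_eq_add_neg]; exact hC.add_mem f hf _ (hC.neg_mem hg)

theorem Γ_add_right (hf : f ∈ C.W) (hg : g ∈ C.W) (hh : h ∈ C.W) :
    C.Γ f (g + h) = C.Γ f g + C.Γ f h := by
  rw [hC.symm f hf _ (hC.add_mem g hg h hh), hC.add_left g hg h hh f hf, hC.symm g hg f hf,
    hC.symm h hh f hf]

theorem Γ_smul_right (c : ℝ) (hf : f ∈ C.W) (hg : g ∈ C.W) :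
    C.Γ f (c • g) = c • C.Γ f g := by
  rw [hC.symm f hf _ (hC.smul_mem c g hg), hC.smul_left c g hg f hf, hC.symm g hg f hf]

theorem Γ_neg_left (hf : f ∈ C.W) (hg : g ∈ C.W) : C.Γ (-f) g = - C.Γ f g := by
  have := hC.smul_left (-1) f hf g hg
  simpa using this

theorem Γ_neg_right (hf : f ∈ C.W) (hg : g ∈ C.W) : C.Γ f (-g) = - C.Γ f g := by
  have := hC.Γ_smul_right (-1) hf hg
  simpa using this

theorem Γ_sub_left (hf : f ∈ C.W) (hg : g ∈ C.W) (hh : h ∈ C.W) :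
    C.Γ (f - g) h = C.Γ f h - C.Γ g h := by
  rw [sub_eq_add_neg, hC.add_left f hf _ (hC.neg_mem hg) h hh, hC.Γ_neg_left hg hh, ← sub_eq_add_neg]

theorem Γ_sub_right (hf : f ∈ C.W) (hg : g ∈ C.W) (hh : h ∈ C.W) :
    C.Γ f (g - h) = C.Γ f g - C.Γ f h := by
  rw [sub_eq_add_neg, hC.Γ_add_right hf hg (hC.neg_mem hh), hC.Γ_neg_right hf hh, ← sub_eq_add_neg]

theorem Γ_zero_left (hf : f ∈ C.W) : C.Γ 0 f = 0 := by
  have := hC.smul_left 0 0 hC.zero_mem f hf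
  simpa using this

theorem Γ_zero_right (hf : f ∈ C.W) : C.Γ f 0 = 0 := by
  rw [hC.symm f hf 0 hC.zero_mem, hC.Γ_zero_left hf]

/-- expansion of `Γ(f + tg, f + tg)` -/
theorem Γ_expand (t : ℝ) (hf : f ∈ C.W) (hg : g ∈ C.W) :
    C.Γ (f + t • g) (f + t • g) = C.Γ f f + (2 * t) • C.Γ f g + (t ^ 2) • C.Γ g g := by
  have htg := hC.smul_mem t g hg
  have hs := hC.add_mem f hf _ htg
  rw [hC.add_left f hf _ htg _ hs, hC.Γ_add_right hf hf htg, hC.Γ_add_right htg hf htg,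
    hC.Γ_smul_right t hf hg, hC.Γ_smul_right t htg hg, hC.smul_left t g hg f hf,
    hC.smul_left t g hg g hg, hC.symm g hg f hf, smul_smul]
  module

end linear

section cs
variable {f g h : M →ₘ[m] ℝ}

theorem Γ_expand_ae (t : ℝ) (hf : f ∈ C.W) (hg : g ∈ C.W) :
    ∀ᵐ x ∂m, 0 ≤ C.Γ f f x + 2 * t * C.Γ f g x + t ^ 2 * C.Γ g g x := by
  have h1 := hC.nonneg _ (hC.add_mem f hf _ (hC.smul_mem t g hg))
  rw [hC.Γ_expand t hf hg, nonneg_iff_ae] at h1
  filter_upwards [h1, add_ae (C.Γ f f + (2 * t) • C.Γ f g) ((t ^ 2) • C.Γ g g),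
    add_ae (C.Γ f f) ((2 * t) • C.Γ f g), smul_ae (C.Γ f g) (2 * t),
    smul_ae (C.Γ g g) (t ^ 2)] with x a1 a2 a3 a4 a5
  rwa [a2, a3, a4, a5] at a1

theorem Γ_cs_ae (hf : f ∈ C.W) (hg : g ∈ C.W) :
    ∀ᵐ x ∂m, C.Γ f g x ^ 2 ≤ C.Γ f f x * C.Γ g g x := by
  have h1 : ∀ᵐ x ∂m, ∀ q : ℚ, 0 ≤ C.Γ f f x + 2 * (q : ℝ) * C.Γ f g x + (q : ℝ) ^ 2 * C.Γ g g x :=
    ae_all_iff.2 fun q => hC.Γ_expand_ae q hf hg
  filter_upwards [h1] with x hx
  exact disc_of_forall (forall_real_of_rat hx)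

/-- pointwise Cauchy-Schwarz -/
theorem Γ_cs (hf : f ∈ C.W) (hg : g ∈ C.W) : C.Γ f g ^ 2 ≤ C.Γ f f * C.Γ g g := by
  rw [le_iff_ae]
  filter_upwards [hC.Γ_cs_ae hf hg, sq_ae (C.Γ f g), mul_ae (C.Γ f f) (C.Γ g g)] with x h1 h2 h3
  rw [h2, h3]; exact h1

theorem Γ_nonneg_ae (hf : f ∈ C.W) : ∀ᵐ x ∂m, 0 ≤ C.Γ f f x := nonneg_iff_ae.1 (hC.nonneg f hf)

theorem Γ_abs_ae (hf : f ∈ C.W) (hg : g ∈ C.W) :
    ∀ᵐ x ∂m, |C.Γ f g x| ≤ Real.sqrt (C.Γ f f x) * Real.sqrt (C.Γ g g x) := by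
  filter_upwards [hC.Γ_cs_ae hf hg, hC.Γ_nonneg_ae hf] with x h1 h2
  rw [← Real.sqrt_mul h2]
  exact Real.abs_le_sqrt h1

theorem Γ_mem1 (hf : f ∈ C.W) (hg : g ∈ C.W) : MemLp (C.Γ f g) 1 m := by
  refine mem_of_le (mem_add (hC.mem1 f hf) (hC.mem1 g hg)) ?_
  filter_upwards [hC.Γ_cs_ae hf hg, hC.Γ_nonneg_ae hf, hC.Γ_nonneg_ae hg,
    add_ae (C.Γ f f) (C.Γ g g)] with x h1 h2 h3 h4
  rw [h4, abs_of_nonneg (add_nonneg h2 h3)]
  refine abs_le_of_sq_le_sq ?_ (add_nonneg h2 h3)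
  nlinarith only [h1, h2, h3]

/-- if `|∇f|` is bounded then `Γ f g ∈ L²` -/
theorem Γ_mem2 (hf : f ∈ C.W) (hf' : MemLp (C.Γ f f) ∞ m) (hg : g ∈ C.W) :
    MemLp (C.Γ f g) 2 m := by
  refine memLp_two_of_sq (mem_of_le (mem_mul_top hf' (hC.mem1 g hg)) ?_)
  filter_upwards [hC.Γ_cs_ae hf hg, hC.Γ_nonneg_ae hf, hC.Γ_nonneg_ae hg,
    mul_ae (C.Γ f f) (C.Γ g g), sq_ae (C.Γ f g)] with x h1 h2 h3 h4 h5
  rw [h4, h5, abs_of_nonneg (mul_nonneg h2 h3), abs_of_nonneg (sq_nonneg _)]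
  exact h1

theorem Γ_memTop (hf : f ∈ C.W) (hf' : MemLp (C.Γ f f) ∞ m) (hg : g ∈ C.W)
    (hg' : MemLp (C.Γ g g) ∞ m) : MemLp (C.Γ f g) ∞ m := by
  refine mem_of_le (mem_add hf' hg') ?_
  filter_upwards [hC.Γ_cs_ae hf hg, hC.Γ_nonneg_ae hf, hC.Γ_nonneg_ae hg,
    add_ae (C.Γ f f) (C.Γ g g)] with x h1 h2 h3 h4
  rw [h4, abs_of_nonneg (add_nonneg h2 h3)]
  refine abs_le_of_sq_le_sq ?_ (add_nonneg h2 h3)
  nlinarith only [h1, h2, h3]

theorem E_cs (hf : f ∈ C.W) (hg : g ∈ C.W) :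
    I (C.Γ f g) ^ 2 ≤ I (C.Γ f f) * I (C.Γ g g) := by
  refine disc_of_forall fun t => ?_
  have h1 := I_nonneg (hC.nonneg _ (hC.add_mem f hf _ (hC.smul_mem t g hg)))
  rw [hC.Γ_expand t hf hg, I_add (mem_add (hC.mem1 f hf) (mem_smul _ (hC.Γ_mem1 hf hg)))
    (mem_smul _ (hC.mem1 g hg)), I_add (hC.mem1 f hf) (mem_smul _ (hC.Γ_mem1 hf hg)), I_smul,
    I_smul] at h1
  exact h1

theorem E_nonneg (hf : f ∈ C.W) : 0 ≤ I (C.Γ f f) := I_nonneg (hC.nonneg f hf)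

theorem E_abs_le (hf : f ∈ C.W) (hg : g ∈ C.W) :
    |I (C.Γ f g)| ≤ Real.sqrt (I (C.Γ f f)) * Real.sqrt (I (C.Γ g g)) := by
  rw [← Real.sqrt_mul (hC.E_nonneg hf)]
  exact Real.abs_le_sqrt (hC.E_cs hf hg)

/-- `∫ |Γ f g| ≤ √E(f) √E(g)` -/
theorem int_abs_Γ_le (hf : f ∈ C.W) (hg : g ∈ C.W) :
    ∫ x, |C.Γ f g x| ∂m ≤ Real.sqrt (I (C.Γ f f)) * Real.sqrt (I (C.Γ g g)) := by
  have hsc : Continuous Real.sqrt := Real.continuous_sqrt
  have aux : ∀ k : M →ₘ[m] ℝ, k ∈ C.W → MemLp (AEEqFun.comp Real.sqrt hsc (C.Γ k k)) 2 m ∧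
      AEEqFun.comp Real.sqrt hsc (C.Γ k k) ^ 2 = C.Γ k k := by
    intro k hk
    have e : AEEqFun.comp Real.sqrt hsc (C.Γ k k) ^ 2 = C.Γ k k := by
      rw [eq_iff_ae]
      filter_upwards [sq_ae (AEEqFun.comp Real.sqrt hsc (C.Γ k k)),
        AEEqFun.coeFn_comp Real.sqrt hsc (C.Γ k k), hC.Γ_nonneg_ae hk] with x h1 h2 h3
      rw [h1, h2, Function.comp_apply, Real.sq_sqrt h3]
    refine ⟨memLp_two_of_sq ?_, e⟩
    rw [e]; exact hC.mem1 k hk
  obtain ⟨a1, a2⟩ := aux f hf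
  obtain ⟨b1, b2⟩ := aux g hg
  have h1 := I_abs_le a1 b1
  rw [a2, b2] at h1
  refine le_trans ?_ ((le_abs_self _).trans h1)
  unfold I
  refine integral_mono_ae (int_of_mem (hC.Γ_mem1 hf hg)).abs (int_of_mem (mem_mul_22 a1 b1)) ?_
  filter_upwards [hC.Γ_abs_ae hf hg, mul_ae (AEEqFun.comp Real.sqrt hsc (C.Γ f f))
    (AEEqFun.comp Real.sqrt hsc (C.Γ g g)), AEEqFun.coeFn_comp Real.sqrt hsc (C.Γ f f),
    AEEqFun.coeFn_comp Real.sqrt hsc (C.Γ g g)] with x h1 h2 h3 h4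
  rw [h2, h3, h4]
  exact h1

end cs

section algebra
variable {f g h : M →ₘ[m] ℝ}

theorem chain_bdd (hf : f ∈ C.W) {K : ℝ} (hK : ∀ᵐ x ∂m, |f x| ≤ K)
    {φ φ' : ℝ → ℝ} (hφ : Continuous φ) (hφ' : Continuous φ')
    (hd : ∀ t ∈ Set.Icc (-K) K, HasDerivWithinAt φ (φ' t) (Set.Icc (-K) K) t) (h0 : φ 0 = 0) :
    AEEqFun.comp φ hφ f ∈ C.W ∧
      ∀ g ∈ C.W, C.Γ (AEEqFun.comp φ hφ f) g = AEEqFun.comp φ' hφ' f * C.Γ f g := by
  rcases lt_or_ge K 0 with hK0 | hK0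
  · -- trivial measure
    have hfalse : ∀ᵐ x ∂m, False := by
      filter_upwards [hK] with x hx
      linarith only [hK0, hx, abs_nonneg (f x)]
    have heq : ∀ a b : M →ₘ[m] ℝ, a = b := fun a b => by
      rw [eq_iff_ae]
      filter_upwards [hfalse] with x hx
      exact hx.elim
    refine ⟨?_, fun g _ => heq _ _⟩
    rw [heq (AEEqFun.comp φ hφ f) f]
    exact hf
  set cl : ℝ → ℝ := fun t => max (-K) (min K t) with hcl
  have hclc : Continuous cl := continuous_const.max (continuous_const.min continuous_id)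
  have hclm : ∀ t, cl t ∈ Set.Icc (-K) K := fun t =>
    ⟨le_max_left _ _, max_le (by linarith) (min_le_left _ _)⟩
  have hcleq : ∀ t ∈ Set.Icc (-K) K, cl t = t := by
    intro t ht
    simp only [hcl]
    rw [min_eq_right ht.2, max_eq_right ht.1]
  set ψ' : ℝ → ℝ := fun t => φ' (cl t) with hψ'
  have hψ'c : Continuous ψ' := hφ'.comp hclc
  set ψ : ℝ → ℝ := fun t => ∫ s in (0 : ℝ)..t, ψ' s with hψ
  have hψd : ∀ t, HasDerivAt ψ (ψ' t) t := fun t =>
    (hψ'c.integral_hasStrictDerivAt 0 t).hasDerivAt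
  have hψc : Continuous ψ := continuous_iff_continuousAt.2 fun t => (hψd t).continuousAt
  have hψ0 : ψ 0 = 0 := by simp [hψ]
  obtain ⟨B, hB⟩ : ∃ B : ℝ, ∀ t, |ψ' t| ≤ B := by
    obtain ⟨B, hB⟩ := (isCompact_Icc (a := -K) (b := K)).exists_bound_of_continuousOn
      hφ'.continuousOn
    exact ⟨B, fun t => hB _ (hclm t)⟩
  have hψφ : ∀ t ∈ Set.Icc (-K) K, ψ t = φ t := by
    intro t ht
    have h1 := Convex.norm_image_sub_le_of_norm_hasDerivWithin_le (f := fun t => ψ t - φ t)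
      (f' := fun t => ψ' t - φ' t) (s := Set.Icc (-K) K) (C := 0)
      (fun x hx => ((hψd x).hasDerivWithinAt).sub (hd x hx))
      (fun x hx => by simp only [hψ']; rw [hcleq x hx]; simp) (convex_Icc _ _)
      (show (0 : ℝ) ∈ Set.Icc (-K) K from ⟨by linarith, hK0⟩) ht
    rw [zero_mul, norm_le_zero_iff] at h1
    rw [hψ0, h0] at h1
    linarith
  obtain ⟨h1, h2⟩ := hC.chain f hf ψ ψ' hψc hψ'c hψd hψ0 ⟨B, hB⟩
  have e1 : AEEqFun.comp φ hφ f = AEEqFun.comp ψ hψc f := by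
    rw [eq_iff_ae]
    filter_upwards [AEEqFun.coeFn_comp φ hφ f, AEEqFun.coeFn_comp ψ hψc f, hK] with x a1 a2 a3
    rw [a1, a2, Function.comp_apply, Function.comp_apply, hψφ _ (abs_le.1 a3)]
  have e2 : AEEqFun.comp φ' hφ' f = AEEqFun.comp ψ' hψ'c f := by
    rw [eq_iff_ae]
    filter_upwards [AEEqFun.coeFn_comp φ' hφ' f, AEEqFun.coeFn_comp ψ' hψ'c f, hK]
      with x a1 a2 a3
    rw [a1, a2, Function.comp_apply, Function.comp_apply]
    simp only [hψ']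
    rw [hcleq _ (abs_le.1 a3)]
  rw [e1, e2]
  exact ⟨h1, h2⟩

theorem sq_mem (hf : f ∈ C.A) : f ^ 2 ∈ C.W ∧ ∀ g ∈ C.W, C.Γ (f ^ 2) g = 2 * f * C.Γ f g := by
  obtain ⟨K, hK⟩ := mem_top_iff.1 hf.2
  have hφ : Continuous fun t : ℝ => t ^ 2 := by fun_prop
  have hφ' : Continuous fun t : ℝ => 2 * t := by fun_prop
  obtain ⟨h1, h2⟩ := hC.chain_bdd hf.1 hK hφ hφ' (fun t _ => by
    have := (hasDerivAt_pow 2 t).hasDerivWithinAt (s := Set.Icc (-K) K)
    simpa only [Nat.cast_ofNat, Nat.add_one_sub_one, pow_one] using this) (by norm_num)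
  have e1 : AEEqFun.comp (fun t : ℝ => t ^ 2) hφ f = f ^ 2 := by
    rw [eq_iff_ae]
    filter_upwards [AEEqFun.coeFn_comp (fun t : ℝ => t ^ 2) hφ f, sq_ae f] with x a1 a2
    rw [a1, a2]; rfl
  have e2 : AEEqFun.comp (fun t : ℝ => 2 * t) hφ' f = 2 * f := by
    have e3 : (2 : M →ₘ[m] ℝ) = 1 + 1 := by norm_num
    rw [eq_iff_ae, e3, add_mul, one_mul]
    filter_upwards [AEEqFun.coeFn_comp (fun t : ℝ => 2 * t) hφ' f, add_ae f f] with x a1 a2
    rw [a1, a2, Function.comp_apply]; ring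
  rw [e1] at h1
  rw [e1, e2] at h2
  exact ⟨h1, h2⟩

theorem quarter (c : M →ₘ[m] ℝ) : (4 : ℝ)⁻¹ • (4 * c) = c := by
  have h1 : (4 : M →ₘ[m] ℝ) * c = (4 : ℝ) • c := by
    rw [Algebra.smul_def]
    congr 1
    exact (map_ofNat (algebraMap ℝ (M →ₘ[m] ℝ)) 4).symm
  rw [h1, smul_smul]
  norm_num

theorem A_add (hf : f ∈ C.A) (hg : g ∈ C.A) : f + g ∈ C.A :=
  ⟨hC.add_mem f hf.1 g hg.1, mem_add hf.2 hg.2⟩
theorem A_sub (hf : f ∈ C.A) (hg : g ∈ C.A) : f - g ∈ C.A :=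
  ⟨hC.sub_mem hf.1 hg.1, mem_sub hf.2 hg.2⟩
theorem A_smul (c : ℝ) (hf : f ∈ C.A) : c • f ∈ C.A :=
  ⟨hC.smul_mem c f hf.1, mem_smul c hf.2⟩
theorem A_zero : (0 : M →ₘ[m] ℝ) ∈ C.A := ⟨hC.zero_mem, mem_zero⟩

theorem mul_polar (f g : M →ₘ[m] ℝ) : f * g = (4 : ℝ)⁻¹ • ((f + g) ^ 2 - (f - g) ^ 2) := by
  have e : (f + g) ^ 2 - (f - g) ^ 2 = 4 * (f * g) := by ring
  rw [e, quarter hC]

theorem mul_mem_A (hf : f ∈ C.A) (hg : g ∈ C.A) : f * g ∈ C.A := by
  refine ⟨?_, mem_mul_top hf.2 hg.2⟩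
  rw [mul_polar hC]
  exact hC.smul_mem _ _ (hC.sub_mem (hC.sq_mem (hC.A_add hf hg)).1 (hC.sq_mem (hC.A_sub hf hg)).1)

/-- Leibniz rule for bounded Sobolev functions -/
theorem Γ_mul_left (hf : f ∈ C.A) (hg : g ∈ C.A) (hh : h ∈ C.W) :
    C.Γ (f * g) h = f * C.Γ g h + g * C.Γ f h := by
  obtain ⟨a1, a2⟩ := hC.sq_mem (hC.A_add hf hg)
  obtain ⟨b1, b2⟩ := hC.sq_mem (hC.A_sub hf hg)
  rw [mul_polar hC f g, hC.smul_left _ _ (hC.sub_mem a1 b1) h hh, hC.Γ_sub_left a1 b1 hh,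
    a2 h hh, b2 h hh, hC.add_left f hf.1 g hg.1 h hh, hC.Γ_sub_left hf.1 hg.1 hh]
  have e : 2 * (f + g) * (C.Γ f h + C.Γ g h) - 2 * (f - g) * (C.Γ f h - C.Γ g h) =
      4 * (f * C.Γ g h + g * C.Γ f h) := by ring
  rw [e, quarter hC]

theorem Γ_mul_right (hf : f ∈ C.A) (hg : g ∈ C.A) (hh : h ∈ C.W) :
    C.Γ h (f * g) = f * C.Γ h g + g * C.Γ h f := by
  rw [hC.symm h hh _ (hC.mul_mem_A hf hg).1, hC.Γ_mul_left hf hg hh, hC.symm h hh g hg.1,
    hC.symm h hh f hf.1]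

end algebra

end IsDir

end Vale.Agent.P233
end
end

section

section

open MeasureTheory Filter Topology
open scoped ENNReal NNReal

namespace Vale.Agent.P233

variable {M : Type*} [MeasurableSpace M] {m : Measure M} {C : Calc m}

theorem abs_arctan_le (t : ℝ) : |Real.arctan t| ≤ |t| := by
  have key : ∀ s : ℝ, 0 ≤ s → Real.arctan s ≤ s := by
    intro s hs
    rcases hs.eq_or_lt with h | h
    · rw [← h]; simp
    · have h2 := Real.lt_tan (Real.arctan_pos.2 h) (Real.arctan_lt_pi_div_two _)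
      rw [Real.tan_arctan] at h2
      exact h2.le
  rcases le_or_gt 0 t with ht | ht
  · rw [abs_of_nonneg (Real.arctan_nonneg.2 ht), abs_of_nonneg ht]
    exact key t ht
  · have h1 := key (-t) (by linarith)
    have h2 : 0 < Real.arctan (-t) := Real.arctan_pos.2 (by linarith)
    rw [Real.arctan_neg] at h1 h2
    rw [abs_of_neg ht, abs_of_neg (by linarith)]
    exact h1

theorem tendsto_div_succ (t : ℝ) : Tendsto (fun n : ℕ => t / ((n : ℝ) + 1)) atTop (𝓝 0) := by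
  have h1 := (tendsto_one_div_add_atTop_nhds_zero_nat (𝕜 := ℝ)).const_mul t
  rw [mul_zero] at h1
  refine h1.congr fun n => ?_
  rw [mul_one_div]

namespace IsDir

variable (hC : IsDir C)
include hC
variable {f g h k : M →ₘ[m] ℝ}

/-! ### energy of sums -/

theorem nrm2_nonneg (hf : f ∈ C.W) : 0 ≤ C.nrm2 f :=
  add_nonneg (I_sq_nonneg f) (hC.E_nonneg hf)

theorem I_sq_le_nrm2 (hf : f ∈ C.W) : I (f ^ 2) ≤ C.nrm2 f := by
  unfold Calc.nrm2; linarith [hC.E_nonneg hf]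

theorem E_le_nrm2 (f : M →ₘ[m] ℝ) : I (C.Γ f f) ≤ C.nrm2 f := by
  unfold Calc.nrm2; linarith [I_sq_nonneg f]

theorem E_add (hf : f ∈ C.W) (hg : g ∈ C.W) :
    I (C.Γ (f + g) (f + g)) = I (C.Γ f f) + 2 * I (C.Γ f g) + I (C.Γ g g) := by
  have h1 := hC.Γ_expand 1 hf hg
  rw [one_smul, mul_one, one_pow, one_smul] at h1
  rw [h1, I_add (mem_add (hC.mem1 f hf) (mem_smul _ (hC.Γ_mem1 hf hg))) (hC.mem1 g hg),
    I_add (hC.mem1 f hf) (mem_smul _ (hC.Γ_mem1 hf hg)), I_smul]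

theorem E_neg (hf : f ∈ C.W) : I (C.Γ (-f) (-f)) = I (C.Γ f f) := by
  rw [hC.Γ_neg_left hf (hC.neg_mem hf), hC.Γ_neg_right hf hf, neg_neg]

theorem E_sub (hf : f ∈ C.W) (hg : g ∈ C.W) :
    I (C.Γ (f - g) (f - g)) = I (C.Γ f f) - 2 * I (C.Γ f g) + I (C.Γ g g) := by
  rw [sub_eq_add_neg, hC.E_add hf (hC.neg_mem hg), hC.E_neg hg, hC.Γ_neg_right hf hg, I_neg]
  ring

theorem E_smul (c : ℝ) (hf : f ∈ C.W) : I (C.Γ (c • f) (c • f)) = c ^ 2 * I (C.Γ f f) := by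
  rw [hC.smul_left c f hf _ (hC.smul_mem c f hf), hC.Γ_smul_right c hf hf, I_smul, I_smul]
  ring

theorem sqrt_E_add_le (hf : f ∈ C.W) (hg : g ∈ C.W) :
    Real.sqrt (I (C.Γ (f + g) (f + g))) ≤ Real.sqrt (I (C.Γ f f)) + Real.sqrt (I (C.Γ g g)) := by
  rw [hC.E_add hf hg]
  refine Real.sqrt_le_iff.2 ⟨by positivity, ?_⟩
  have h1 := (le_abs_self _).trans (hC.E_abs_le hf hg)
  nlinarith only [h1, Real.sq_sqrt (hC.E_nonneg hf), Real.sq_sqrt (hC.E_nonneg hg)]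

theorem E_add_le (hf : f ∈ C.W) (hg : g ∈ C.W) :
    I (C.Γ (f + g) (f + g)) ≤ 2 * I (C.Γ f f) + 2 * I (C.Γ g g) := by
  have h1 := hC.E_nonneg (hC.sub_mem hf hg)
  rw [hC.E_sub hf hg] at h1
  rw [hC.E_add hf hg]
  linarith

theorem nrm2_add_le (hf : f ∈ C.W) (hg : g ∈ C.W) :
    C.nrm2 (f + g) ≤ 2 * C.nrm2 f + 2 * C.nrm2 g := by
  unfold Calc.nrm2
  linarith [hC.E_add_le hf hg, I_sq_add_le (hC.memLp f hf) (hC.memLp g hg)]

theorem nrm2_neg (hf : f ∈ C.W) : C.nrm2 (-f) = C.nrm2 f := by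
  unfold Calc.nrm2
  rw [hC.E_neg hf, neg_sq]

theorem nrm2_sub_le (hf : f ∈ C.W) (hg : g ∈ C.W) :
    C.nrm2 (f - g) ≤ 2 * C.nrm2 f + 2 * C.nrm2 g := by
  rw [sub_eq_add_neg, ← hC.nrm2_neg hg]
  exact hC.nrm2_add_le hf (hC.neg_mem hg)

theorem nrm2_sub_comm (hf : f ∈ C.W) (hg : g ∈ C.W) : C.nrm2 (f - g) = C.nrm2 (g - f) := by
  rw [← hC.nrm2_neg (hC.sub_mem hf hg), neg_sub]

/-- convergence in `W` gives a Cauchy sequence -/
theorem cauchy_of_tendsto {u : ℕ → M →ₘ[m] ℝ} (hu : ∀ n, u n ∈ C.W) (hf : f ∈ C.W)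
    (h : Tendsto (fun n => C.nrm2 (u n - f)) atTop (𝓝 0)) :
    ∀ ε > 0, ∃ N, ∀ n ≥ N, ∀ k ≥ N, C.nrm2 (u n - u k) < ε := by
  intro ε hε
  obtain ⟨N, hN⟩ := eventually_atTop.1 (h.eventually (gt_mem_nhds (show (0 : ℝ) < ε / 4 by
    positivity)))
  refine ⟨N, fun n hn k hk => ?_⟩
  have h1 := hC.nrm2_sub_le (hC.sub_mem (hu n) hf) (hC.sub_mem (hu k) hf)
  have e : u n - f - (u k - f) = u n - u k := by abel
  rw [e] at h1
  linarith only [h1, hN n hn, hN k hk]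

/-- limits in `L²` of convergent sequences are unique -/
theorem eq_of_tendsto_I_sq {u : ℕ → M →ₘ[m] ℝ} (hu : ∀ n, MemLp (u n) 2 m) (hf : MemLp f 2 m)
    (hg : MemLp g 2 m) (h1 : Tendsto (fun n => I ((u n - f) ^ 2)) atTop (𝓝 0))
    (h2 : Tendsto (fun n => I ((u n - g) ^ 2)) atTop (𝓝 0)) : f = g := by
  rw [← sub_eq_zero]
  refine I_sq_eq_zero (mem_sub hf hg) (le_antisymm ?_ (I_sq_nonneg _))
  have h3 : Tendsto (fun n => 2 * I ((u n - g) ^ 2) + 2 * I ((u n - f) ^ 2)) atTop (𝓝 0) := by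
    simpa using (h2.const_mul 2).add (h1.const_mul 2)
  refine ge_of_tendsto' h3 fun n => ?_
  have h4 := I_sq_add_le (mem_sub (hu n) hg) (mem_neg (mem_sub (hu n) hf))
  rw [neg_sq] at h4
  have e : u n - g + -(u n - f) = f - g := by abel
  rwa [e] at h4

theorem tendsto_I_sq_of_nrm2 {u : ℕ → M →ₘ[m] ℝ} (hu : ∀ n, u n ∈ C.W) (hf : f ∈ C.W)
    (h : Tendsto (fun n => C.nrm2 (u n - f)) atTop (𝓝 0)) :
    Tendsto (fun n => I ((u n - f) ^ 2)) atTop (𝓝 0) :=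
  squeeze_zero (fun n => I_sq_nonneg _) (fun n => hC.I_sq_le_nrm2 (hC.sub_mem (hu n) hf)) h

theorem tendsto_E_of_nrm2 {u : ℕ → M →ₘ[m] ℝ} (hu : ∀ n, u n ∈ C.W) (hf : f ∈ C.W)
    (h : Tendsto (fun n => C.nrm2 (u n - f)) atTop (𝓝 0)) :
    Tendsto (fun n => I (C.Γ (u n - f) (u n - f))) atTop (𝓝 0) :=
  squeeze_zero (fun n => hC.E_nonneg (hC.sub_mem (hu n) hf)) (fun n => E_le_nrm2 hC _) h

/-- `L¹` convergence of `Γ` -/
theorem tendsto_int_abs_Γ {u : ℕ → M →ₘ[m] ℝ} (hu : ∀ n, u n ∈ C.W) (hf : f ∈ C.W) (hg : g ∈ C.W)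
    (h : Tendsto (fun n => C.nrm2 (u n - f)) atTop (𝓝 0)) :
    Tendsto (fun n => ∫ x, |C.Γ (u n - f) g x| ∂m) atTop (𝓝 0) := by
  have h1 := hC.tendsto_E_of_nrm2 hu hf h
  have h2 : Tendsto (fun n => Real.sqrt (I (C.Γ (u n - f) (u n - f))) *
      Real.sqrt (I (C.Γ g g))) atTop (𝓝 0) := by
    have := ((Real.continuous_sqrt.tendsto 0).comp h1).mul_const (Real.sqrt (I (C.Γ g g)))
    simpa [Function.comp_def] using this
  exact squeeze_zero (fun n => integral_nonneg fun x => abs_nonneg _)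
    (fun n => hC.int_abs_Γ_le (hC.sub_mem (hu n) hf) hg) h2

/-! ### truncations -/

/-- truncations -/
theorem exists_trunc (hf : f ∈ C.W) : ∃ u : ℕ → M →ₘ[m] ℝ, (∀ n, u n ∈ C.A) ∧
    (∀ n, ∀ᵐ x ∂m, |u n x| ≤ |f x|) ∧ Tendsto (fun n => C.nrm2 (u n - f)) atTop (𝓝 0) ∧
    (∀ᵐ x ∂m, Tendsto (fun n => u n x) atTop (𝓝 (f x))) := by
  set φ : ℕ → ℝ → ℝ := fun n t => ((n : ℝ) + 1) * Real.arctan (t / ((n : ℝ) + 1)) with hφ
  set φ' : ℕ → ℝ → ℝ := fun n t => 1 / (1 + (t / ((n : ℝ) + 1)) ^ 2) with hφ'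
  have hn : ∀ n : ℕ, (0 : ℝ) < (n : ℝ) + 1 := fun n => by positivity
  have hφc : ∀ n, Continuous (φ n) := fun n =>
    continuous_const.mul (Real.continuous_arctan.comp (continuous_id.div_const _))
  have hφ'c : ∀ n, Continuous (φ' n) := fun n =>
    continuous_const.div (continuous_const.add ((continuous_id.div_const _).pow 2))
      (fun t => by positivity)
  have hd : ∀ n t, HasDerivAt (φ n) (φ' n t) t := by
    intro n t
    have h1 := ((hasDerivAt_id' t).div_const ((n : ℝ) + 1)).arctan.const_mul ((n : ℝ) + 1)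
    refine h1.congr_deriv ?_
    simp only [hφ']
    have := hn n
    (clear * -; field_simp)
  have hφ0 : ∀ n, φ n 0 = 0 := fun n => by simp [hφ]
  have hφ'1 : ∀ n t, 0 ≤ φ' n t ∧ φ' n t ≤ 1 := by
    intro n t
    simp only [hφ']
    refine ⟨by (clear * -; positivity), ?_⟩
    rw [div_le_one (by positivity)]
    nlinarith only []
  have hφ1 : ∀ n t, |φ n t| ≤ |t| := by
    intro n t
    simp only [hφ]
    rw [abs_mul, abs_of_pos (hn n)]
    have h1 := abs_arctan_le (t / ((n : ℝ) + 1))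
    rw [abs_div, abs_of_pos (hn n)] at h1
    calc ((n : ℝ) + 1) * |Real.arctan (t / ((n : ℝ) + 1))| ≤ ((n : ℝ) + 1) * (|t| / ((n : ℝ) + 1)) :=
          mul_le_mul_of_nonneg_left h1 (hn n).le
      _ = |t| := by have := hn n; (clear * -; field_simp)
  have hlim : ∀ t, Tendsto (fun n => φ' n t) atTop (𝓝 1) := by
    intro t
    have h1 := tendsto_div_succ t
    have h2 : Tendsto (fun n : ℕ => 1 / (1 + (t / ((n : ℝ) + 1)) ^ 2)) atTop
        (𝓝 (1 / (1 + 0 ^ 2))) :=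
      Tendsto.div tendsto_const_nhds (tendsto_const_nhds.add (h1.pow 2)) (by norm_num)
    rw [show (1 : ℝ) / (1 + 0 ^ 2) = 1 by norm_num] at h2
    exact h2
  have hlim2 : ∀ t, Tendsto (fun n => φ n t) atTop (𝓝 t) := by
    intro t
    rcases eq_or_ne t 0 with rfl | ht
    · simp only [hφ0]; exact tendsto_const_nhds
    · have h1 : Tendsto (fun n : ℕ => t / ((n : ℝ) + 1)) atTop (𝓝[≠] 0) := by
        rw [tendsto_nhdsWithin_iff]
        constructor
        · exact tendsto_div_succ t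
        · exact Eventually.of_forall fun n => div_ne_zero ht (hn n).ne'
      have h2 : HasDerivAt Real.arctan 1 0 := by
        have := Real.hasDerivAt_arctan 0
        simpa using this
      rw [hasDerivAt_iff_tendsto_slope] at h2
      have h3 := (h2.comp h1).const_mul t
      rw [mul_one] at h3
      refine h3.congr fun n => ?_
      simp only [hφ, Function.comp_apply, slope_def_field, Real.arctan_zero, sub_zero]
      have := hn n
      (clear * - ht; field_simp)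
  choose hmem hΓ using fun n => hC.chain f hf (φ n) (φ' n) (hφc n) (hφ'c n) (hd n) (hφ0 n)
    ⟨1, fun t => by rw [abs_of_nonneg (hφ'1 n t).1]; exact (hφ'1 n t).2⟩
  set u : ℕ → M →ₘ[m] ℝ := fun n => AEEqFun.comp (φ n) (hφc n) f with hu
  have hae : ∀ n, ⇑(u n) =ᵐ[m] fun x => φ n (f x) := fun n => AEEqFun.coeFn_comp (φ n) (hφc n) f
  have hf2 := hC.memLp f hf
  have ha2 : ∀ n, ∀ᵐ x ∂m, |u n x| ≤ |f x| := by
    intro n
    filter_upwards [hae n] with x hx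
    rw [hx]; exact hφ1 n _
  have ha3 : ∀ᵐ x ∂m, Tendsto (fun n => u n x) atTop (𝓝 (f x)) := by
    filter_upwards [ae_all_iff.2 hae] with x hx
    simp_rw [hx]
    exact hlim2 _
  refine ⟨u, fun n => ⟨hmem n, ?_⟩, ha2, ?_, ha3⟩
  · rw [mem_top_iff]
    refine ⟨((n : ℝ) + 1) * (Real.pi / 2), ?_⟩
    filter_upwards [hae n] with x hx
    rw [hx]
    simp only [hφ]
    rw [abs_mul, abs_of_pos (hn n)]
    exact mul_le_mul_of_nonneg_left (abs_le.2 ⟨(Real.neg_pi_div_two_lt_arctan _).le,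
      (Real.arctan_lt_pi_div_two _).le⟩) (hn n).le
  · -- `L²` part
    have l1 : Tendsto (fun n => I ((u n - f) ^ 2)) atTop (𝓝 (I (0 : M →ₘ[m] ℝ))) := by
      refine I_tendsto_of_dominated (G := fun x => 4 * f x ^ 2)
        ((int_of_mem (mem_sq hf2)).congr (sq_ae f) |>.const_mul 4) (fun n => ?_) ?_
      · filter_upwards [sq_ae (u n - f), sub_ae (u n) f, ha2 n] with x h1 h2 h3
        rw [h1, h2, abs_of_nonneg (sq_nonneg _)]
        have h4 : |u n x - f x| ≤ 2 * |f x| := by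
          calc |u n x - f x| ≤ |u n x| + |f x| := abs_sub _ _
            _ ≤ 2 * |f x| := by linarith only [h3]
        calc (u n x - f x) ^ 2 = |u n x - f x| ^ 2 := (sq_abs _).symm
          _ ≤ (2 * |f x|) ^ 2 := by (clear * - h4; gcongr)
          _ = 4 * f x ^ 2 := by rw [mul_pow, sq_abs]; ring
      · filter_upwards [ae_all_iff.2 fun n => sq_ae (u n - f), ae_all_iff.2 fun n => sub_ae (u n) f,
          ha3, zero_ae (M := M) (m := m)] with x h1 h2 h3 h4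
        simp_rw [h1, h2, h4]
        have := ((h3.sub_const (f x)).pow 2)
        simpa using this
    have l2 : Tendsto (fun n => I (C.Γ (u n - f) (u n - f))) atTop (𝓝 (I (0 : M →ₘ[m] ℝ))) := by
      have hform : ∀ n, ∀ᵐ x ∂m, C.Γ (u n - f) (u n - f) x = (φ' n (f x) - 1) ^ 2 * C.Γ f f x := by
        intro n
        have huf := hC.sub_mem (hmem n) hf
        have e1 : C.Γ (u n - f) (u n - f) = C.Γ (u n) (u n) - C.Γ (u n) f - (C.Γ f (u n) - C.Γ f f) := by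
          rw [hC.Γ_sub_left (hmem n) hf huf, hC.Γ_sub_right (hmem n) (hmem n) hf,
            hC.Γ_sub_right hf (hmem n) hf]
        have e2 : C.Γ (u n) f = AEEqFun.comp (φ' n) (hφ'c n) f * C.Γ f f := hΓ n f hf
        have e3 : C.Γ f (u n) = AEEqFun.comp (φ' n) (hφ'c n) f * C.Γ f f := by
          rw [hC.symm f hf _ (hmem n), e2]
        have e4 : C.Γ (u n) (u n) = AEEqFun.comp (φ' n) (hφ'c n) f *
            (AEEqFun.comp (φ' n) (hφ'c n) f * C.Γ f f) := by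
          rw [← e3]; exact hΓ n (u n) (hmem n)
        have e5 : C.Γ (u n - f) (u n - f) = (AEEqFun.comp (φ' n) (hφ'c n) f - 1) ^ 2 * C.Γ f f := by
          rw [e1, e4, e3, e2]; ring
        rw [e5]
        filter_upwards [mul_ae ((AEEqFun.comp (φ' n) (hφ'c n) f - 1) ^ 2) (C.Γ f f),
          sq_ae (AEEqFun.comp (φ' n) (hφ'c n) f - 1), sub_ae (AEEqFun.comp (φ' n) (hφ'c n) f) 1,
          one_ae (M := M) (m := m), AEEqFun.coeFn_comp (φ' n) (hφ'c n) f] with x h1 h2 h3 h4 h5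
        rw [h1, h2, h3, h4, h5, Function.comp_apply]
      refine I_tendsto_of_dominated (G := fun x => C.Γ f f x) (int_of_mem (hC.mem1 f hf))
        (fun n => ?_) ?_
      · filter_upwards [hform n, hC.Γ_nonneg_ae hf] with x h1 h2
        rw [h1, abs_of_nonneg (mul_nonneg (sq_nonneg _) h2)]
        have h3 : (φ' n (f x) - 1) ^ 2 ≤ 1 := by
          have := hφ'1 n (f x)
          nlinarith only [this]
        nlinarith only [h2, h3]
      · filter_upwards [ae_all_iff.2 hform, zero_ae (M := M) (m := m)] with x h1 h2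
        simp_rw [h1, h2]
        have := (((hlim (f x)).sub_const 1).pow 2).mul_const (C.Γ f f x)
        simpa using this
    rw [I_zero] at l1 l2
    have := l1.add l2
    rw [add_zero] at this
    exact this

end IsDir

end Vale.Agent.P233
end
end

section

section

open MeasureTheory Filter Topology
open scoped ENNReal NNReal

namespace Vale.Agent.P233

variable {M : Type*} [MeasurableSpace M] {m : Measure M} {C : Calc m}

namespace IsDir

variable (hC : IsDir C)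
include hC

section algebra
variable {f g h : M →ₘ[m] ℝ}

/-- energy of a product -/
theorem nrm2_mul_le (hf : f ∈ C.A) {K L : ℝ} (hK : ∀ᵐ x ∂m, |f x| ≤ K)
    (hL : ∀ᵐ x ∂m, |C.Γ f f x| ≤ L) (hg : g ∈ C.A) :
    C.nrm2 (f * g) ≤ (2 * K ^ 2 + 2 * |L|) * C.nrm2 g := by
  have hfg := hC.mul_mem_A hf hg
  have hg2 := hC.memLp g hg.1
  have h1 : C.Γ (f * g) (f * g) = f ^ 2 * C.Γ g g + 2 * (f * g) * C.Γ f g + g ^ 2 * C.Γ f f := by
    rw [hC.Γ_mul_left hf hg hfg.1, hC.Γ_mul_right hf hg hg.1, hC.Γ_mul_right hf hg hf.1,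
      hC.symm g hg.1 f hf.1]
    ring
  have h2 : I (C.Γ (f * g) (f * g)) ≤ 2 * K ^ 2 * I (C.Γ g g) + 2 * |L| * I (g ^ 2) := by
    rw [← I_smul, ← I_smul, ← I_add (mem_smul _ (hC.mem1 g hg.1)) (mem_smul _ (mem_sq hg2))]
    refine I_mono (hC.mem1 _ hfg.1) (mem_add (mem_smul _ (hC.mem1 g hg.1))
      (mem_smul _ (mem_sq hg2))) ?_
    have e2 : (2 : M →ₘ[m] ℝ) = 1 + 1 := by norm_num
    rw [le_iff_ae, h1, e2]
    filter_upwards [add_ae (f ^ 2 * C.Γ g g + (1 + 1) * (f * g) * C.Γ f g) (g ^ 2 * C.Γ f f),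
      add_ae (f ^ 2 * C.Γ g g) ((1 + 1) * (f * g) * C.Γ f g), mul_ae (f ^ 2) (C.Γ g g),
      mul_ae ((1 + 1) * (f * g)) (C.Γ f g), mul_ae (1 + 1) (f * g), add_ae (1 : M →ₘ[m] ℝ) 1,
      one_ae (M := M) (m := m), mul_ae f g, mul_ae (g ^ 2) (C.Γ f f), sq_ae f, sq_ae g,
      add_ae ((2 * K ^ 2) • C.Γ g g) ((2 * |L|) • g ^ 2), smul_ae (C.Γ g g) (2 * K ^ 2),
      smul_ae (g ^ 2) (2 * |L|), hK, hL, hC.Γ_cs_ae hf.1 hg.1, hC.Γ_nonneg_ae hf.1,
      hC.Γ_nonneg_ae hg.1] with x a1 a2 a3 a4 a5 a6 a7 a8 a9 a10 a11 a12 a13 a14 a15 a16 a17 a18 a19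
    rw [a1, a2, a3, a4, a5, a6, a7, a8, a9, a10, a11, a12, a13, a14, a11]
    have b1 : f x ^ 2 ≤ K ^ 2 := by
      rw [← sq_abs]
      (clear * - a15; gcongr)
    have b2 : C.Γ f f x ≤ |L| := (le_abs_self _).trans (a16.trans (le_abs_self _))
    have b3 : 2 * (f x * g x) * C.Γ f g x ≤ f x ^ 2 * C.Γ g g x + g x ^ 2 * C.Γ f f x := by
      -- from Cauchy-Schwarz
      set A := C.Γ f f x
      set B := C.Γ g g x
      set D := C.Γ f g x
      have c1 : (2 * (f x * g x) * D) ^ 2 ≤ (f x ^ 2 * B + g x ^ 2 * A) ^ 2 := by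
        have c2 : (f x * g x) ^ 2 * D ^ 2 ≤ (f x * g x) ^ 2 * (A * B) :=
          mul_le_mul_of_nonneg_left a17 (sq_nonneg _)
        nlinarith only [c2, sq_nonneg (f x ^ 2 * B - g x ^ 2 * A)]
      exact (le_abs_self _).trans (abs_le_of_sq_le_sq c1 (by (clear * - a19 a18; positivity)))
    have b4 : f x ^ 2 * C.Γ g g x ≤ K ^ 2 * C.Γ g g x := mul_le_mul_of_nonneg_right b1 a19
    have b5 : g x ^ 2 * C.Γ f f x ≤ g x ^ 2 * |L| := mul_le_mul_of_nonneg_left b2 (sq_nonneg _)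
    linarith only [b3, b4, b5]
  have h3 : I ((f * g) ^ 2) ≤ K ^ 2 * I (g ^ 2) := by
    rw [← I_smul]
    refine I_mono (mem_sq (hC.memLp _ hfg.1)) (mem_smul _ (mem_sq hg2)) ?_
    rw [le_iff_ae]
    filter_upwards [sq_ae (f * g), mul_ae f g, smul_ae (g ^ 2) (K ^ 2), sq_ae g, hK]
      with x a1 a2 a3 a4 a5
    rw [a1, a2, a3, a4, mul_pow]
    refine mul_le_mul_of_nonneg_right ?_ (sq_nonneg _)
    rw [← sq_abs]
    (clear * - a5; gcongr)
  unfold Calc.nrm2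
  have h4 := I_sq_nonneg g
  have h5 := hC.E_nonneg hg.1
  have h6 : 0 ≤ K ^ 2 := sq_nonneg K
  have h7 : 0 ≤ |L| := abs_nonneg L
  have h8 : 0 ≤ K ^ 2 * I (g ^ 2) := mul_nonneg h6 h4
  have h9 : 0 ≤ |L| * I (C.Γ g g) := mul_nonneg h7 h5
  linarith

/-- Bounded Lipschitz times Sobolev: approximation. -/
theorem mul_lip_aux (hf : f ∈ C.A) (hf' : MemLp (C.Γ f f) ∞ m) (hg : g ∈ C.W) :
    ∃ u : ℕ → M →ₘ[m] ℝ, (∀ n, u n ∈ C.A) ∧ Tendsto (fun n => C.nrm2 (u n - g)) atTop (𝓝 0) ∧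
      f * g ∈ C.W ∧ Tendsto (fun n => C.nrm2 (f * u n - f * g)) atTop (𝓝 0) := by
  obtain ⟨u, hu1, hu2, hu3, hu4⟩ := hC.exists_trunc hg
  obtain ⟨K, hK⟩ := mem_top_iff.1 hf.2
  obtain ⟨L, hL⟩ := mem_top_iff.1 hf'
  have huW : ∀ n, u n ∈ C.W := fun n => (hu1 n).1
  have hfu : ∀ n, f * u n ∈ C.W := fun n => (hC.mul_mem_A hf (hu1 n)).1
  set D : ℝ := 2 * K ^ 2 + 2 * |L| with hD
  have hD0 : 0 ≤ D := by (clear * -; positivity)
  have hcau := hC.cauchy_of_tendsto huW hg hu3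
  obtain ⟨F, hF, hlim⟩ := hC.complete (fun n => f * u n) hfu (by
    intro ε hε
    obtain ⟨N, hN⟩ := hcau (ε / (D + 1)) (by (clear * - hε; positivity))
    refine ⟨N, fun n hn k hk => ?_⟩
    have h1 := hC.nrm2_mul_le hf hK hL (hC.A_sub (hu1 n) (hu1 k))
    rw [mul_sub] at h1
    have h2 := hN n hn k hk
    have h3 := hC.nrm2_nonneg (hC.sub_mem (huW n) (huW k))
    calc C.nrm2 (f * u n - f * u k) ≤ D * C.nrm2 (u n - u k) := h1
      _ ≤ (D + 1) * C.nrm2 (u n - u k) := by nlinarith only [h3]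
      _ < (D + 1) * (ε / (D + 1)) := by (clear * - h2; gcongr)
      _ = ε := by (clear * - hD0 hε; field_simp))
  have hg2 := hC.memLp g hg
  have hfg2 : MemLp (f * g : M →ₘ[m] ℝ) 2 m := mem_mul_top hf.2 hg2
  have l1 := hC.tendsto_I_sq_of_nrm2 hfu hF hlim
  have l2 : Tendsto (fun n => I ((f * u n - f * g) ^ 2)) atTop (𝓝 0) := by
    have h1 := (hC.tendsto_I_sq_of_nrm2 huW hg hu3).const_mul (K ^ 2)
    rw [mul_zero] at h1
    refine squeeze_zero (fun n => I_sq_nonneg _) (fun n => ?_) h1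
    have hug2 := hC.memLp _ (hC.sub_mem (huW n) hg)
    rw [← I_smul, ← mul_sub]
    refine I_mono (mem_sq (mem_mul_top hf.2 hug2)) (mem_smul _ (mem_sq hug2)) ?_
    rw [le_iff_ae]
    filter_upwards [sq_ae (f * (u n - g)), mul_ae f (u n - g), smul_ae ((u n - g) ^ 2) (K ^ 2),
      sq_ae (u n - g), hK] with x a1 a2 a3 a4 a5
    rw [a1, a2, a3, a4, mul_pow]
    refine mul_le_mul_of_nonneg_right ?_ (sq_nonneg _)
    rw [← sq_abs]
    (clear * - a5; gcongr)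
  have hFeq : F = f * g := hC.eq_of_tendsto_I_sq (fun n => hC.memLp _ (hfu n)) (hC.memLp F hF)
    hfg2 l1 l2
  rw [hFeq] at hF hlim
  exact ⟨u, hu1, hu3, hF, hlim⟩

/-- bounded Lipschitz times Sobolev is Sobolev -/
theorem mul_mem_lip (hf : f ∈ C.A) (hf' : MemLp (C.Γ f f) ∞ m) (hg : g ∈ C.W) :
    f * g ∈ C.W := by
  obtain ⟨u, h1, h2, h3, h4⟩ := hC.mul_lip_aux hf hf' hg
  exact h3

theorem Γ_mul_left_lip (hf : f ∈ C.A) (hf' : MemLp (C.Γ f f) ∞ m) (hg : g ∈ C.W)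
    (hh : h ∈ C.W) : C.Γ (f * g) h = f * C.Γ g h + g * C.Γ f h := by
  obtain ⟨u, h1, h2, h3, h4⟩ := hC.mul_lip_aux hf hf' hg
  obtain ⟨K, hK⟩ := mem_top_iff.1 hf.2
  have huW : ∀ n, u n ∈ C.W := fun n => (h1 n).1
  have hfu : ∀ n, f * u n ∈ C.W := fun n => (hC.mul_mem_A hf (h1 n)).1
  have hΓfh2 := hC.Γ_mem2 hf.1 hf' hh
  have hg2 := hC.memLp g hg
  set D := C.Γ (f * g) h - (f * C.Γ g h + g * C.Γ f h) with hD
  have hDmem : MemLp D 1 m := mem_sub (hC.Γ_mem1 h3 hh)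
    (mem_add (mem_mul_top hf.2 (hC.Γ_mem1 hg hh)) (mem_mul_22 hg2 hΓfh2))
  -- bound
  have hDn : ∀ n, D = -(C.Γ (f * u n - f * g) h) + (f * C.Γ (u n - g) h + (u n - g) * C.Γ f h) := by
    intro n
    rw [hD, hC.Γ_sub_left (hfu n) h3 hh, hC.Γ_sub_left (huW n) hg hh,
      hC.Γ_mul_left hf (h1 n) hh]
    ring
  have t1 := hC.tendsto_int_abs_Γ hfu h3 hh h4
  have t2 := (hC.tendsto_int_abs_Γ huW hg hh h2).const_mul |K|
  have t3 : Tendsto (fun n => Real.sqrt (I ((u n - g) ^ 2)) * Real.sqrt (I (C.Γ f h ^ 2))) atTop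
      (𝓝 0) := by
    have := ((Real.continuous_sqrt.tendsto 0).comp (hC.tendsto_I_sq_of_nrm2 huW hg h2)).mul_const
      (Real.sqrt (I (C.Γ f h ^ 2)))
    simpa [Function.comp_def] using this
  have hle : ∀ n, ∫ x, |D x| ∂m ≤ ∫ x, |C.Γ (f * u n - f * g) h x| ∂m +
      |K| * ∫ x, |C.Γ (u n - g) h x| ∂m +
      Real.sqrt (I ((u n - g) ^ 2)) * Real.sqrt (I (C.Γ f h ^ 2)) := by
    intro n
    have hug := hC.sub_mem (huW n) hg
    have hug2 := hC.memLp _ hug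
    have hfug := hC.sub_mem (hfu n) h3
    have i1 := int_of_mem (hC.Γ_mem1 hfug hh)
    have i2 := int_of_mem (hC.Γ_mem1 hug hh)
    have i3 := int_of_mem (mem_mul_22 hug2 hΓfh2)
    have c1 : ∫ x, |((u n - g) * C.Γ f h : M →ₘ[m] ℝ) x| ∂m ≤
        Real.sqrt (I ((u n - g) ^ 2)) * Real.sqrt (I (C.Γ f h ^ 2)) := by
      -- use absolute values
      have habs : Continuous fun t : ℝ => |t| := continuous_abs
      have aux : ∀ k : M →ₘ[m] ℝ, MemLp k 2 m → MemLp (AEEqFun.comp (fun t : ℝ => |t|) habs k) 2 m ∧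
          I (AEEqFun.comp (fun t : ℝ => |t|) habs k ^ 2) = I (k ^ 2) := by
        intro k hk
        refine ⟨mem_of_le hk ?_, ?_⟩
        · filter_upwards [AEEqFun.coeFn_comp (fun t : ℝ => |t|) habs k] with x hx
          rw [hx, Function.comp_apply, abs_abs]
        · unfold I
          refine integral_congr_ae ?_
          filter_upwards [AEEqFun.coeFn_comp (fun t : ℝ => |t|) habs k,
            sq_ae (AEEqFun.comp (fun t : ℝ => |t|) habs k), sq_ae k] with x b1 b2 b3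
          rw [b2, b1, b3, Function.comp_apply, sq_abs]
      obtain ⟨p1, p2⟩ := aux _ hug2
      obtain ⟨q1, q2⟩ := aux _ hΓfh2
      have := (le_abs_self _).trans (I_abs_le p1 q1)
      rw [p2, q2] at this
      refine le_trans (le_of_eq ?_) this
      unfold I
      refine integral_congr_ae ?_
      filter_upwards [mul_ae (u n - g) (C.Γ f h), mul_ae (AEEqFun.comp (fun t : ℝ => |t|) habs
        (u n - g)) (AEEqFun.comp (fun t : ℝ => |t|) habs (C.Γ f h)),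
        AEEqFun.coeFn_comp (fun t : ℝ => |t|) habs (u n - g),
        AEEqFun.coeFn_comp (fun t : ℝ => |t|) habs (C.Γ f h)] with x b1 b2 b3 b4
      rw [b1, b2, b3, b4, abs_mul]
      rfl
    refine le_trans ?_ (add_le_add_right c1 _)
    have i12 : Integrable (fun x => |C.Γ (f * u n - f * g) h x| + |K| * |C.Γ (u n - g) h x|) m :=
      i1.abs.add (i2.abs.const_mul _)
    rw [← integral_const_mul, ← integral_add i1.abs (i2.abs.const_mul _), ← integral_add i12 i3.abs]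
    refine integral_mono_ae (int_of_mem hDmem).abs (i12.add i3.abs) ?_
    have hn := hDn n
    filter_upwards [eq_iff_ae.1 hn, add_ae (-(C.Γ (f * u n - f * g) h))
      (f * C.Γ (u n - g) h + (u n - g) * C.Γ f h), neg_ae (C.Γ (f * u n - f * g) h),
      add_ae (f * C.Γ (u n - g) h) ((u n - g) * C.Γ f h), mul_ae f (C.Γ (u n - g) h), hK]
      with x b1 b2 b3 b4 b5 b6
    rw [b1, b2, b3, b4, b5]
    refine (abs_add_le _ _).trans ?_
    rw [abs_neg, add_assoc]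
    refine add_le_add le_rfl ((abs_add_le _ _).trans (add_le_add ?_ le_rfl))
    rw [abs_mul]
    exact mul_le_mul_of_nonneg_right (b6.trans (le_abs_self _)) (abs_nonneg _)
  have hlim : Tendsto (fun n => ∫ x, |C.Γ (f * u n - f * g) h x| ∂m +
      |K| * ∫ x, |C.Γ (u n - g) h x| ∂m +
      Real.sqrt (I ((u n - g) ^ 2)) * Real.sqrt (I (C.Γ f h ^ 2))) atTop (𝓝 0) := by
    simpa only [mul_zero, add_zero] using (t1.add t2).add t3
  have h0 : ∫ x, |D x| ∂m ≤ 0 := ge_of_tendsto' hlim hle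
  have h5 : ∀ᵐ x ∂m, |D x| = 0 := by
    have := (integral_eq_zero_iff_of_nonneg (fun x => abs_nonneg _)
      (int_of_mem hDmem).abs).1 (le_antisymm h0 (integral_nonneg fun x => abs_nonneg _))
    exact this
  have h6 : D = 0 := by
    rw [eq_iff_ae]
    filter_upwards [h5, zero_ae (M := M) (m := m)] with x b1 b2
    rw [b2]
    exact abs_eq_zero.1 b1
  rw [hD, sub_eq_zero] at h6
  exact h6

end algebra

section lap
variable {f g h k : M →ₘ[m] ℝ}

/-- an `L²` function orthogonal to `W` vanishes -/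
theorem eq_zero_of_orth (hf : MemLp f 2 m) (h : ∀ g ∈ C.W, I (f * g) = 0) : f = 0 := by
  refine I_sq_eq_zero hf ?_
  by_contra hne
  have hpos : 0 < I (f ^ 2) := lt_of_le_of_ne (I_sq_nonneg f) (Ne.symm hne)
  obtain ⟨g, hg, hfg⟩ := hC.dense_L2 f hf (I (f ^ 2)) hpos
  have hg2 := hC.memLp g hg
  have h1 := I_cs hf (mem_sub hf hg2)
  have h2 : I (f * (f - g)) = I (f ^ 2) := by
    rw [mul_sub, I_sub (mem_mul_22 hf hf) (mem_mul_22 hf hg2), h g hg, sub_zero, sq]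
  rw [h2] at h1
  nlinarith only [h1, hpos, hfg]

theorem isLap_unique (h1 : C.IsLap f g) (h2 : C.IsLap f h) : g = h := by
  rw [← sub_eq_zero]
  refine hC.eq_zero_of_orth (mem_sub h1.2.1 h2.2.1) fun k hk => ?_
  have hk2 := hC.memLp k hk
  have a1 : I (C.Γ f k) = -I (g * k) := h1.2.2 k hk
  have a2 : I (C.Γ f k) = -I (h * k) := h2.2.2 k hk
  rw [sub_mul, I_sub (mem_mul_22 h1.2.1 hk2) (mem_mul_22 h2.2.1 hk2)]
  linarith

theorem lap_eq (h1 : C.IsLap f g) : C.lap f = g := by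
  have h : ∃ h, C.IsLap f h := ⟨g, h1⟩
  have h2 : C.IsLap f (C.lap f) := by
    unfold Calc.lap
    rw [dif_pos h]
    exact h.choose_spec
  exact hC.isLap_unique h2 h1

theorem isLap_add (h1 : C.IsLap f h) (h2 : C.IsLap g k) : C.IsLap (f + g) (h + k) := by
  refine ⟨hC.add_mem f h1.1 g h2.1, mem_add h1.2.1 h2.2.1, fun l hl => ?_⟩
  have hl2 := hC.memLp l hl
  have a1 : I (C.Γ f l) = -I (h * l) := h1.2.2 l hl
  have a2 : I (C.Γ g l) = -I (k * l) := h2.2.2 l hl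
  show I (C.Γ (f + g) l) = -I ((h + k) * l)
  rw [hC.add_left f h1.1 g h2.1 l hl, I_add (hC.Γ_mem1 h1.1 hl) (hC.Γ_mem1 h2.1 hl), add_mul,
    I_add (mem_mul_22 h1.2.1 hl2) (mem_mul_22 h2.2.1 hl2)]
  linarith

theorem isLap_smul (c : ℝ) (h1 : C.IsLap f h) : C.IsLap (c • f) (c • h) := by
  refine ⟨hC.smul_mem c f h1.1, mem_smul c h1.2.1, fun l hl => ?_⟩
  have a1 : I (C.Γ f l) = -I (h * l) := h1.2.2 l hl
  show I (C.Γ (c • f) l) = -I ((c • h) * l)
  rw [hC.smul_left c f h1.1 l hl, I_smul, smul_mul_assoc, I_smul, a1]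
  ring

end lap

/-- limits in `L²` along a bounded sequence in `W` are in `W` -/
theorem mem_of_bounded {u : ℕ → M →ₘ[m] ℝ} {f : M →ₘ[m] ℝ} {K : ℝ} (hu : ∀ n, u n ∈ C.W)
    (hK : ∀ n, I (C.Γ (u n) (u n)) ≤ K) (hf : MemLp f 2 m)
    (hlim : Tendsto (fun n => I ((u n - f) ^ 2)) atTop (𝓝 0)) :
    f ∈ C.W ∧ I (C.Γ f f) ≤ K := by
  -- nested convex sets
  set S : ℕ → Set (M →ₘ[m] ℝ) := fun n => {g | g ∈ C.W ∧ I ((g - f) ^ 2) ≤ ((n : ℝ) + 1)⁻¹} with hS
  have hne : ∀ n, ∃ j, u j ∈ S n := by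
    intro n
    obtain ⟨j, hj⟩ := (hlim.eventually (ge_mem_nhds (show (0 : ℝ) < ((n : ℝ) + 1)⁻¹ by
      positivity))).exists
    exact ⟨j, hu j, hj⟩
  set e : ℕ → ℝ := fun n => sInf ((fun g => I (C.Γ g g)) '' S n) with he
  have hbdd : ∀ n, BddBelow ((fun g => I (C.Γ g g)) '' S n) := by
    intro n
    refine ⟨0, ?_⟩
    rintro _ ⟨g, hg, rfl⟩
    exact hC.E_nonneg hg.1
  have heK : ∀ n, e n ≤ K := by
    intro n
    obtain ⟨j, hj⟩ := hne n
    exact (csInf_le (hbdd n) ⟨u j, hj, rfl⟩).trans (hK j)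
  have hSmono : ∀ n k, n ≤ k → S k ⊆ S n := by
    intro n k hnk g hg
    refine ⟨hg.1, hg.2.trans ?_⟩
    have : (n : ℝ) ≤ k := by exact_mod_cast hnk
    (clear * - this; gcongr)
  have hemono : Monotone e := by
    intro n k hnk
    obtain ⟨j, hj⟩ := hne k
    exact csInf_le_csInf (hbdd n) ⟨_, ⟨u j, hj, rfl⟩⟩ (Set.image_mono (hSmono n k hnk))
  -- almost minimizers
  have hex : ∀ n : ℕ, ∃ g ∈ S n, I (C.Γ g g) < e n + ((n : ℝ) + 1)⁻¹ := by
    intro n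
    obtain ⟨j, hj⟩ := hne n
    have h1 : e n < e n + ((n : ℝ) + 1)⁻¹ := by
      have : (0 : ℝ) < ((n : ℝ) + 1)⁻¹ := by (clear * -; positivity)
      linarith only [this]
    obtain ⟨_, ⟨g, hg, rfl⟩, h2⟩ := exists_lt_of_csInf_lt
      (s := (fun g => I (C.Γ g g)) '' S n) ⟨_, ⟨u j, hj, rfl⟩⟩ h1
    exact ⟨g, hg, h2⟩
  choose g hg1 hg2 using hex
  have hgW : ∀ n, g n ∈ C.W := fun n => (hg1 n).1
  -- limit of the minima
  have hebdd : BddAbove (Set.range e) := ⟨K, by rintro _ ⟨n, rfl⟩; exact heK n⟩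
  set E := ⨆ n, e n with hE
  have helim : Tendsto e atTop (𝓝 E) := tendsto_atTop_ciSup hemono hebdd
  have heE : ∀ n, e n ≤ E := fun n => le_ciSup hebdd n
  -- L² convergence
  have hgf : Tendsto (fun n => I ((g n - f) ^ 2)) atTop (𝓝 0) :=
    squeeze_zero (fun n => I_sq_nonneg _) (fun n => (hg1 n).2) (by
      have := tendsto_one_div_add_atTop_nhds_zero_nat (𝕜 := ℝ)
      simpa only [one_div] using this)
  -- key energy estimate
  have key : ∀ n k, n ≤ k → I (C.Γ (g n - g k) (g n - g k)) ≤ 2 * (E - e n) +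
      4 * ((n : ℝ) + 1)⁻¹ := by
    intro n k hnk
    have hk : g k ∈ S n := hSmono n k hnk (hg1 k)
    have hmid : (2 : ℝ)⁻¹ • (g n + g k) ∈ S n := by
      refine ⟨hC.smul_mem _ _ (hC.add_mem _ (hgW n) _ (hgW k)), ?_⟩
      have e1 : (2 : ℝ)⁻¹ • (g n + g k) - f = (2 : ℝ)⁻¹ • ((g n - f) + (g k - f)) := by module
      rw [e1, smul_pow, I_smul]
      have h1 := I_sq_add_le (mem_sub (hC.memLp _ (hgW n)) hf) (mem_sub (hC.memLp _ (hgW k)) hf)
      have h2 := (hg1 n).2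
      have h3 := hk.2
      linarith only [h1, h2, h3]
    have h1 : e n ≤ I (C.Γ ((2 : ℝ)⁻¹ • (g n + g k)) ((2 : ℝ)⁻¹ • (g n + g k))) :=
      csInf_le (hbdd n) ⟨_, hmid, rfl⟩
    rw [hC.E_smul _ (hC.add_mem _ (hgW n) _ (hgW k)), hC.E_add (hgW n) (hgW k)] at h1
    rw [hC.E_sub (hgW n) (hgW k)]
    have h2 := hg2 n
    have h3 := hg2 k
    have h4 : (((k : ℝ) + 1)⁻¹ : ℝ) ≤ ((n : ℝ) + 1)⁻¹ := by
      have : (n : ℝ) ≤ k := by exact_mod_cast hnk
      (clear * - this; gcongr)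
    have h5 := heE k
    linarith
  have key2 : ∀ n k, n ≤ k → C.nrm2 (g n - g k) ≤ 2 * (E - e n) + 8 * ((n : ℝ) + 1)⁻¹ := by
    intro n k hnk
    have h1 := key n k hnk
    have h2 : I ((g n - g k) ^ 2) ≤ 4 * ((n : ℝ) + 1)⁻¹ := by
      have h3 := I_sq_add_le (mem_sub (hC.memLp _ (hgW n)) hf)
        (mem_neg (mem_sub (hC.memLp _ (hgW k)) hf))
      have e1 : g n - f + -(g k - f) = g n - g k := by abel
      rw [e1, neg_sq] at h3
      have h4 := (hg1 n).2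
      have h5 := (hSmono n k hnk (hg1 k)).2
      linarith only [h3, h4, h5]
    unfold Calc.nrm2
    linarith only [h1, h2]
  have hb : Tendsto (fun n : ℕ => 2 * (E - e n) + 8 * ((n : ℝ) + 1)⁻¹) atTop (𝓝 0) := by
    have h1 := (helim.const_sub E).const_mul 2
    have h2 := (tendsto_one_div_add_atTop_nhds_zero_nat (𝕜 := ℝ)).const_mul 8
    have h3 := h1.add h2
    simpa only [one_div, sub_self, mul_zero, add_zero] using h3
  obtain ⟨F, hF, hFlim⟩ := hC.complete g hgW (by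
    intro ε hε
    obtain ⟨N, hN⟩ := eventually_atTop.1 (hb.eventually (gt_mem_nhds hε))
    refine ⟨N, fun n hn k hk => ?_⟩
    rcases le_total n k with hnk | hnk
    · exact (key2 n k hnk).trans_lt (hN n hn)
    · rw [hC.nrm2_sub_comm (hgW n) (hgW k)]
      exact (key2 k n hnk).trans_lt (hN k hk))
  have hFf : F = f := hC.eq_of_tendsto_I_sq (fun n => hC.memLp _ (hgW n)) (hC.memLp F hF) hf
    (hC.tendsto_I_sq_of_nrm2 hgW hF hFlim) hgf
  rw [hFf] at hF hFlim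
  refine ⟨hF, ?_⟩
  have hE1 := hC.tendsto_E_of_nrm2 hgW hF hFlim
  have hK0 : 0 ≤ K := (hC.E_nonneg (hu 0)).trans (hK 0)
  have hlim2 : Tendsto (fun n : ℕ => Real.sqrt (I (C.Γ (g n - f) (g n - f))) +
      Real.sqrt (K + ((n : ℝ) + 1)⁻¹)) atTop (𝓝 (Real.sqrt 0 + Real.sqrt (K + 0))) := by
    refine ((Real.continuous_sqrt.tendsto 0).comp hE1).add ?_
    refine (Real.continuous_sqrt.tendsto (K + 0)).comp ?_
    have := tendsto_one_div_add_atTop_nhds_zero_nat (𝕜 := ℝ)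
    have h2 := this.const_add K
    simpa using h2
  have hle : Real.sqrt (I (C.Γ f f)) ≤ Real.sqrt 0 + Real.sqrt (K + 0) := by
    refine ge_of_tendsto' hlim2 fun n => ?_
    have h1 := hC.sqrt_E_add_le (hC.neg_mem (hC.sub_mem (hgW n) hF)) (hgW n)
    have e1 : -(g n - f) + g n = f := by abel
    rw [e1, hC.E_neg (hC.sub_mem (hgW n) hF)] at h1
    refine h1.trans (add_le_add le_rfl (Real.sqrt_le_sqrt ?_))
    linarith only [hg2 n, heK n]
  rw [Real.sqrt_zero, zero_add, add_zero] at hle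
  exact (Real.sqrt_le_sqrt_iff hK0).1 hle

theorem nonneg_of_forall {F : M →ₘ[m] ℝ} (hF : MemLp F 1 m)
    (h : ∀ s ∈ C.A, 0 ≤ s → 0 ≤ I (s * F)) : 0 ≤ F := by
  have hFint := int_of_mem hF
  have hFm : StronglyMeasurable (F : M → ℝ) := AEEqFun.stronglyMeasurable F
  -- it is enough to show that `{F < -ε}` is a null set
  have key : ∀ n : ℕ, m {x | F x < -((n : ℝ) + 1)⁻¹} = 0 := by
    intro n
    set ε : ℝ := ((n : ℝ) + 1)⁻¹ with hε
    have hε0 : 0 < ε := by (clear * -; positivity)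
    set S : Set M := {x | F x < -ε} with hS
    have hSm : MeasurableSet S := measurableSet_lt hFm.measurable measurable_const
    have hSfin : m S < ∞ := by
      have h1 : S ⊆ {x | ε ≤ ‖F x‖} := by
        intro x hx
        simp only [hS] at hx
        have hx' : F x < -ε := hx
        show ε ≤ ‖F x‖
        rw [Real.norm_eq_abs]
        exact le_trans (by linarith only [hx']) (neg_le_abs _)
      exact (measure_mono h1).trans_lt (hFint.measure_norm_ge_lt_top hε0)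
    have hind : MemLp (S.indicator (fun _ => (1 : ℝ))) 2 m :=
      memLp_indicator_const 2 hSm 1 (Or.inr hSfin.ne)
    set χ : M →ₘ[m] ℝ := AEEqFun.mk _ hind.1 with hχ
    have hχae := AEEqFun.coeFn_mk _ hind.1
    have hχ2 : MemLp χ 2 m := (memLp_congr_ae hχae).2 hind
    -- approximations
    choose g hg1 hg2 using fun k : ℕ => hC.dense_L2 χ hχ2 (((k : ℝ) + 1)⁻¹) (by (clear * -; positivity))
    have hlim : Tendsto (fun k => I ((g k - χ) ^ 2)) atTop (𝓝 0) := by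
      refine squeeze_zero (fun n => I_sq_nonneg _) (fun k => ?_) (show Tendsto (fun k : ℕ =>
        ((k : ℝ) + 1)⁻¹) atTop (𝓝 0) by
          have := tendsto_one_div_add_atTop_nhds_zero_nat (𝕜 := ℝ)
          simpa using this)
      have e1 : (g k - χ) ^ 2 = (χ - g k) ^ 2 := by ring
      rw [e1]
      exact (hg2 k).le
    obtain ⟨ns, hns, hae⟩ := exists_subseq_of_I_sq (fun k => hC.memLp _ (hg1 k)) hχ2 hlim
    -- truncation
    set φ : ℝ → ℝ := fun t => 2 * t ^ 2 / (1 + t ^ 2) with hφ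
    set φ' : ℝ → ℝ := fun t => 4 * t / (1 + t ^ 2) ^ 2 with hφ'
    have hφc : Continuous φ := (by fun_prop : Continuous fun t : ℝ => 2 * t ^ 2).div
      (by fun_prop) (fun t => by (clear * -; positivity))
    have hφ'c : Continuous φ' := (by fun_prop : Continuous fun t : ℝ => 4 * t).div
      (by fun_prop) (fun t => by (clear * -; positivity))
    have hd : ∀ t, HasDerivAt φ (φ' t) t := by
      intro t
      have h1 : HasDerivAt (fun t : ℝ => 2 * t ^ 2) (2 * (2 * t)) t := by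
        have := (hasDerivAt_pow 2 t).const_mul 2
        simpa only [Nat.cast_ofNat, Nat.add_one_sub_one, pow_one] using this
      have h2 : HasDerivAt (fun t : ℝ => 1 + t ^ 2) (2 * t) t := by
        have := (hasDerivAt_pow 2 t).const_add 1
        simpa only [hasDerivAt_const_add_iff, Nat.cast_ofNat, Nat.add_one_sub_one, pow_one] using this
      refine (h1.div h2 (by (clear * -; positivity))).congr_deriv ?_
      simp only [hφ']
      field_simp
      ring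
    have hφ'b : ∀ t, |φ' t| ≤ 4 := by
      intro t
      simp only [hφ']
      rw [abs_div, abs_of_pos (show (0 : ℝ) < (1 + t ^ 2) ^ 2 by (clear * -; positivity)),
        div_le_iff₀ (by (clear * -; positivity)), abs_mul, abs_of_pos (by norm_num : (0:ℝ) < 4)]
      have h1 : |t| ≤ (1 + t ^ 2) ^ 2 := by
        have h2 : |t| ^ 2 = t ^ 2 := sq_abs t
        nlinarith only [h2, sq_nonneg (t ^ 2)]
      linarith only [h1]
    have hφ0 : ∀ t, 0 ≤ φ t := fun t => by simp only [hφ]; (clear * -; positivity)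
    have hφ2 : ∀ t, φ t ≤ 2 := by
      intro t
      simp only [hφ]
      rw [div_le_iff₀ (by (clear * -; positivity))]
      nlinarith only []
    have hmem := fun k => (hC.chain (g k) (hg1 k) φ φ' hφc hφ'c hd (by simp [hφ]) ⟨4, hφ'b⟩).1
    set s : ℕ → M →ₘ[m] ℝ := fun k => AEEqFun.comp φ hφc (g k) with hs
    have hsae : ∀ k, ⇑(s k) =ᵐ[m] fun x => φ (g k x) := fun k => AEEqFun.coeFn_comp φ hφc (g k)
    have hsA : ∀ k, s k ∈ C.A := by
      intro k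
      refine ⟨hmem k, mem_top_iff.2 ⟨2, ?_⟩⟩
      filter_upwards [hsae k] with x hx
      rw [hx, abs_of_nonneg (hφ0 _)]
      exact hφ2 _
    have hs0 : ∀ k, 0 ≤ s k := by
      intro k
      rw [nonneg_iff_ae]
      filter_upwards [hsae k] with x hx
      rw [hx]; exact hφ0 _
    have h3 : Tendsto (fun k => I (s (ns k) * F)) atTop (𝓝 (I (χ * F))) := by
      refine I_tendsto_of_dominated (G := fun x => 2 * |F x|) (hFint.abs.const_mul 2)
        (fun k => ?_) ?_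
      · filter_upwards [mul_ae (s (ns k)) F, hsae (ns k)] with x a1 a2
        rw [a1, a2, abs_mul, abs_of_nonneg (hφ0 _)]
        exact mul_le_mul_of_nonneg_right (hφ2 _) (abs_nonneg _)
      · filter_upwards [ae_all_iff.2 fun k => mul_ae (s (ns k)) F,
          ae_all_iff.2 fun k => hsae (ns k), hae, hχae, mul_ae χ F] with x a1 a2 a3 a4 a5
        simp_rw [a1, a5, a2]
        refine Tendsto.mul_const _ ?_
        have h4 : Tendsto (fun k => φ (g (ns k) x)) atTop (𝓝 (φ (χ x))) :=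
          (hφc.tendsto (χ x)).comp a3
        have h5 : φ (χ x) = χ x := by
          rw [hχ, a4]
          by_cases hx : x ∈ S
          · rw [Set.indicator_of_mem hx]
            simp only [hφ]; norm_num
          · rw [Set.indicator_of_notMem hx]
            simp only [hφ]; norm_num
        rwa [h5] at h4
    have h4 : 0 ≤ I (χ * F) := ge_of_tendsto' h3 fun k => h _ (hsA _) (hs0 _)
    have h5 : I (χ * F) = ∫ x in S, F x ∂m := by
      rw [← integral_indicator hSm]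
      unfold I
      refine integral_congr_ae ?_
      filter_upwards [mul_ae χ F, hχae] with x a1 a2
      rw [a1, hχ, a2]
      by_cases hx : x ∈ S
      · rw [Set.indicator_of_mem hx, Set.indicator_of_mem hx, one_mul]
      · rw [Set.indicator_of_notMem hx, Set.indicator_of_notMem hx, zero_mul]
    have h6 : ∫ x in S, F x ∂m ≤ ∫ x in S, (-ε) ∂m := by
      refine setIntegral_mono_on hFint.integrableOn ?_ hSm fun x hx => le_of_lt hx
      exact integrableOn_const (hs := hSfin.ne)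
    rw [setIntegral_const, smul_eq_mul] at h6
    have h7 : m.real S ≤ 0 := by
      rw [h5] at h4
      by_contra hcon
      push Not at hcon
      nlinarith only [h4, h6, hε0, hcon]
    have h8 : m.real S = 0 := le_antisymm h7 measureReal_nonneg
    exact (measureReal_eq_zero_iff hSfin.ne).1 h8
  rw [nonneg_iff_ae]
  have h9 : ∀ᵐ x ∂m, ∀ n : ℕ, ¬ (F x < -((n : ℝ) + 1)⁻¹) := by
    rw [ae_all_iff]
    intro n
    exact measure_eq_zero_iff_ae_notMem.1 (key n)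
  filter_upwards [h9] with x hx
  by_contra hcon
  push Not at hcon
  obtain ⟨n, hn⟩ := exists_nat_one_div_lt (show (0 : ℝ) < -F x by linarith)
  rw [one_div] at hn
  exact hx n (by linarith)

/-- fundamental lemma -/
theorem eq_zero_of_forall {F : M →ₘ[m] ℝ} (hF : MemLp F 1 m)
    (h : ∀ s ∈ C.A, I (s * F) = 0) : F = 0 := by
  refine le_antisymm ?_ (hC.nonneg_of_forall hF fun s hs _ => (h s hs).ge)
  rw [← neg_nonneg]
  refine hC.nonneg_of_forall (mem_neg hF) fun s hs _ => ?_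
  rw [mul_neg, I_neg, h s hs, neg_zero]

end IsDir

end Vale.Agent.P233
end
end

section

section

end
end

section

section

open MeasureTheory Filter Topology
open scoped ENNReal NNReal InnerProductSpace

namespace Vale.Agent.P233

variable {M : Type*} [MeasurableSpace M] {m : Measure M} {C : Calc m}

namespace IsDir

variable (hC : IsDir C)

/-- `W` as a subspace -/
def hsub (hC : IsDir C) : Submodule ℝ (M →ₘ[m] ℝ) where
  carrier := C.W
  add_mem' := fun {a b} ha hb => hC.add_mem a ha b hb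
  zero_mem' := hC.zero_mem
  smul_mem' := fun c x hx => hC.smul_mem c x hx

/-- `W` as a type -/
def HS (hC : IsDir C) : Type _ := hC.hsub

noncomputable instance : AddCommGroup hC.HS := inferInstanceAs (AddCommGroup hC.hsub)
noncomputable instance : Module ℝ hC.HS := inferInstanceAs (Module ℝ hC.hsub)

/-- the function class -/
def HS.val {hC : IsDir C} (x : hC.HS) : M →ₘ[m] ℝ := (x : hC.hsub).1

def HS.mk {hC : IsDir C} (f : M →ₘ[m] ℝ) (hf : f ∈ C.W) : hC.HS := (⟨f, hf⟩ : hC.hsub)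

theorem HS.mem {hC : IsDir C} (x : hC.HS) : x.val ∈ C.W := (x : hC.hsub).2
@[simp] theorem HS.val_mk {hC : IsDir C} (f : M →ₘ[m] ℝ) (hf : f ∈ C.W) :
  (HS.mk f hf : hC.HS).val = f := rfl
@[simp] theorem HS.val_add {hC : IsDir C} (x y : hC.HS) : (x + y).val = x.val + y.val := rfl
@[simp] theorem HS.val_sub {hC : IsDir C} (x y : hC.HS) : (x - y).val = x.val - y.val := rfl
@[simp] theorem HS.val_smul {hC : IsDir C} (c : ℝ) (x : hC.HS) : (c • x).val = c • x.val := rfl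
theorem HS.ext {hC : IsDir C} {x y : hC.HS} (h : x.val = y.val) : x = y := Subtype.ext h

/-- inner product with weight -/
noncomputable def core (hC : IsDir C) {lam : ℝ} (hl : 0 < lam) : InnerProductSpace.Core ℝ hC.HS where
  inner x y := I (x.val * y.val) + lam * I (C.Γ x.val y.val)
  conj_inner_symm x y := by
    simp only [conj_trivial]
    rw [mul_comm y.val, hC.symm y.val y.mem x.val x.mem]
  re_inner_nonneg x := by
    simp only [RCLike.re_to_real]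
    have h1 := I_sq_nonneg x.val
    have h2 := I_nonneg (hC.nonneg x.val x.mem)
    rw [sq] at h1
    positivity
  add_left x y z := by
    simp only [HS.val_add]
    rw [hC.add_left _ x.mem _ y.mem _ z.mem, add_mul,
      I_add (mem_mul_22 (hC.memLp _ x.mem) (hC.memLp _ z.mem))
        (mem_mul_22 (hC.memLp _ y.mem) (hC.memLp _ z.mem)),
      I_add (hC.Γ_mem1 x.mem z.mem) (hC.Γ_mem1 y.mem z.mem)]
    ring
  smul_left x y r := by
    simp only [HS.val_smul, conj_trivial]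
    rw [hC.smul_left _ _ x.mem _ y.mem, smul_mul_assoc, I_smul, I_smul]
    ring
  definite x h := by
    have h1 := I_sq_nonneg x.val
    have h2 := I_nonneg (hC.nonneg x.val x.mem)
    have h3 : I (x.val * x.val) + lam * I (C.Γ x.val x.val) = 0 := h
    rw [← sq] at h3
    have h4 : I (x.val ^ 2) = 0 := by
      have : 0 ≤ lam * I (C.Γ x.val x.val) := by positivity
      linarith
    exact HS.ext (I_sq_eq_zero (hC.memLp _ x.mem) h4)

theorem exists_riesz (hC : IsDir C) {lam : ℝ} (hl : 0 < lam) {f : M →ₘ[m] ℝ} (hf : MemLp f 2 m) :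
    ∃ u ∈ C.W, ∀ g ∈ C.W, I (u * g) + lam * I (C.Γ u g) = I (f * g) := by
  letI cI : InnerProductSpace.Core ℝ hC.HS := hC.core hl
  letI nI : NormedAddCommGroup hC.HS := cI.toNormedAddCommGroup
  letI iI : InnerProductSpace ℝ hC.HS := InnerProductSpace.ofCore cI.toCore
  have hin : ∀ x y : hC.HS, ⟪x, y⟫_ℝ = I (x.val * y.val) + lam * I (C.Γ x.val y.val) :=
    fun x y => rfl
  have hnorm : ∀ x : hC.HS, ‖x‖ ^ 2 = I (x.val ^ 2) + lam * I (C.Γ x.val x.val) := fun x => by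
    rw [← real_inner_self_eq_norm_sq, hin, sq]
  have hE0 : ∀ x : hC.HS, 0 ≤ I (C.Γ x.val x.val) := fun x => I_nonneg (hC.nonneg _ x.mem)
  have hL0 : ∀ x : hC.HS, 0 ≤ I (x.val ^ 2) := fun x => I_sq_nonneg _
  -- completeness
  haveI : CompleteSpace hC.HS := by
    refine Metric.complete_of_cauchySeq_tendsto fun u hu => ?_
    set K : ℝ := 1 + lam⁻¹ with hK
    have hK1 : 1 ≤ K := by rw [hK]; linarith only [inv_pos.2 hl]
    have hKl : 1 ≤ K * lam := by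
      rw [hK, add_mul, inv_mul_cancel₀ hl.ne']; linarith
    have hle : ∀ x : hC.HS, C.nrm2 x.val ≤ K * ‖x‖ ^ 2 := by
      intro x
      rw [hnorm]
      unfold Calc.nrm2
      nlinarith only [hK1, hKl, hE0 x, hL0 x]
    have hge : ∀ x : hC.HS, ‖x‖ ^ 2 ≤ (1 + lam) * C.nrm2 x.val := by
      intro x
      rw [hnorm]
      unfold Calc.nrm2
      nlinarith only [hl, hE0 x, hL0 x]
    obtain ⟨f, hf, hlim⟩ := hC.complete (fun n => (u n).val) (fun n => (u n).mem) (by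
      intro ε hε
      rw [Metric.cauchySeq_iff] at hu
      obtain ⟨N, hN⟩ := hu (Real.sqrt (ε / K)) (Real.sqrt_pos.2 (by positivity))
      refine ⟨N, fun n hn k hk => ?_⟩
      have h1 := hN n hn k hk
      rw [dist_eq_norm] at h1
      have h2 : ‖u n - u k‖ ^ 2 < ε / K := by
        rw [← Real.sq_sqrt (show 0 ≤ ε / K by positivity)]
        have := norm_nonneg (u n - u k)
        (clear * - hC h1; gcongr)
      have h3 := hle (u n - u k)
      rw [HS.val_sub] at h3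
      calc C.nrm2 ((u n).val - (u k).val) ≤ K * ‖u n - u k‖ ^ 2 := h3
        _ < K * (ε / K) := by gcongr
        _ = ε := by field_simp)
    refine ⟨HS.mk f hf, ?_⟩
    rw [tendsto_iff_norm_sub_tendsto_zero]
    have h1 : Tendsto (fun n => ‖u n - HS.mk f hf‖ ^ 2) atTop (𝓝 0) := by
      refine squeeze_zero (fun n => sq_nonneg _) (fun n => hge _) ?_
      simpa only [HS.val_sub, HS.val_mk, mul_zero] using hlim.const_mul (1 + lam)
    have h2 := (Real.continuous_sqrt.tendsto 0).comp h1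
    simpa [Function.comp_def, Real.sqrt_sq (norm_nonneg _)] using h2
  -- the functional
  let ℓ0 : hC.HS →ₗ[ℝ] ℝ :=
    { toFun := fun g => I (f * g.val)
      map_add' := fun x y => by
        rw [HS.val_add, mul_add, I_add (mem_mul_22 hf (hC.memLp _ x.mem))
          (mem_mul_22 hf (hC.memLp _ y.mem))]
      map_smul' := fun c x => by
        rw [HS.val_smul, mul_smul_comm, I_smul]; rfl }
  let ℓ : hC.HS →L[ℝ] ℝ := ℓ0.mkContinuous (Real.sqrt (I (f ^ 2))) (by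
    intro x
    show |I (f * x.val)| ≤ _
    refine (I_abs_le hf (hC.memLp _ x.mem)).trans ?_
    refine mul_le_mul_of_nonneg_left ?_ (Real.sqrt_nonneg _)
    rw [← Real.sqrt_sq (norm_nonneg x)]
    refine Real.sqrt_le_sqrt ?_
    rw [hnorm]
    have := hE0 x
    have : 0 ≤ lam * I (C.Γ x.val x.val) := by positivity
    linarith)
  refine ⟨((InnerProductSpace.toDual ℝ hC.HS).symm ℓ).val, HS.mem _, fun g hg => ?_⟩
  have h1 : ⟪(InnerProductSpace.toDual ℝ hC.HS).symm ℓ, HS.mk g hg⟫_ℝ = ℓ (HS.mk g hg) :=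
    InnerProductSpace.toDual_symm_apply
  rw [hin] at h1
  exact h1

end IsDir

end Vale.Agent.P233
end
end

section

section

open MeasureTheory Filter Topology
open scoped ENNReal NNReal

namespace Vale.Agent.P233

variable {M : Type*} [MeasurableSpace M] {m : Measure M}

/-- `u` solves `u - lam Δu = f` weakly. -/
def Calc.IsRes (C : Calc m) (lam : ℝ) (f u : M →ₘ[m] ℝ) : Prop :=
  u ∈ C.W ∧ ∀ g ∈ C.W, I (u * g) + lam * I (C.Γ u g) = I (f * g)

open Classical in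
/-- the resolvent `J_lam = (1 - lam Δ)⁻¹` -/
noncomputable def Calc.J (C : Calc m) (lam : ℝ) (f : M →ₘ[m] ℝ) : M →ₘ[m] ℝ :=
  if h : ∃ u, C.IsRes lam f u then h.choose else 0

variable {C : Calc m}

theorem tendsto_inv_succ : Tendsto (fun n : ℕ => ((n : ℝ) + 1)⁻¹) atTop (𝓝 0) := by
  have := tendsto_one_div_add_atTop_nhds_zero_nat (𝕜 := ℝ)
  simpa using this

namespace IsDir

variable (hC : IsDir C)
include hC
variable {lam : ℝ} {f g h : M →ₘ[m] ℝ}

theorem exists_res (hl : 0 < lam) (hf : MemLp f 2 m) : ∃ u, C.IsRes lam f u := by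
  obtain ⟨u, h1, h2⟩ := hC.exists_riesz hl hf
  exact ⟨u, h1, h2⟩

theorem res_unique (hl : 0 < lam) (h1 : C.IsRes lam f g) (h2 : C.IsRes lam f h) : g = h := by
  have hgh := hC.sub_mem h1.1 h2.1
  have e1 := h1.2 _ hgh
  have e2 := h2.2 _ hgh
  have m1 := hC.memLp _ h1.1
  have m2 := hC.memLp _ h2.1
  have m3 := hC.memLp _ hgh
  have k1 : I ((g - h) * (g - h)) = I (g * (g - h)) - I (h * (g - h)) := by
    rw [sub_mul, I_sub (mem_mul_22 m1 m3) (mem_mul_22 m2 m3)]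
  have k2 : I (C.Γ (g - h) (g - h)) = I (C.Γ g (g - h)) - I (C.Γ h (g - h)) := by
    rw [hC.Γ_sub_left h1.1 h2.1 hgh, I_sub (hC.Γ_mem1 h1.1 hgh) (hC.Γ_mem1 h2.1 hgh)]
  have k3 := I_nonneg (hC.nonneg _ hgh)
  have k4 := I_sq_nonneg (g - h)
  rw [sq] at k4
  have k5 : 0 ≤ lam * I (C.Γ (g - h) (g - h)) := by (clear * - hl k3; positivity)
  have k6 : I ((g - h) ^ 2) = 0 := by
    rw [sq]
    have : I ((g - h) * (g - h)) + lam * I (C.Γ (g - h) (g - h)) = 0 := by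
      rw [k1, k2]; linarith only [e1, e2]
    linarith only [k4, k5, this]
  exact sub_eq_zero.1 (I_sq_eq_zero m3 k6)

theorem J_spec (hl : 0 < lam) (hf : MemLp f 2 m) : C.IsRes lam f (C.J lam f) := by
  have h := hC.exists_res hl hf
  unfold Calc.J
  rw [dif_pos h]
  exact h.choose_spec

theorem J_eq (hl : 0 < lam) (h1 : C.IsRes lam f g) : C.J lam f = g := by
  have h : ∃ u, C.IsRes lam f u := ⟨g, h1⟩
  have h2 : C.IsRes lam f (C.J lam f) := by
    unfold Calc.J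
    rw [dif_pos h]
    exact h.choose_spec
  exact hC.res_unique hl h2 h1

theorem J_mem (hl : 0 < lam) (hf : MemLp f 2 m) : C.J lam f ∈ C.W := (hC.J_spec hl hf).1

theorem J_mem2 (hl : 0 < lam) (hf : MemLp f 2 m) : MemLp (C.J lam f) 2 m :=
  hC.memLp _ (hC.J_mem hl hf)

theorem J_add (hl : 0 < lam) (hf : MemLp f 2 m) (hg : MemLp g 2 m) :
    C.J lam (f + g) = C.J lam f + C.J lam g := by
  refine hC.J_eq hl ⟨hC.add_mem _ (hC.J_mem hl hf) _ (hC.J_mem hl hg), fun k hk => ?_⟩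
  have a1 := (hC.J_spec hl hf).2 k hk
  have a2 := (hC.J_spec hl hg).2 k hk
  have hk2 := hC.memLp k hk
  rw [add_mul, add_mul, I_add (mem_mul_22 (hC.J_mem2 hl hf) hk2)
    (mem_mul_22 (hC.J_mem2 hl hg) hk2), I_add (mem_mul_22 hf hk2) (mem_mul_22 hg hk2),
    hC.add_left _ (hC.J_mem hl hf) _ (hC.J_mem hl hg) k hk,
    I_add (hC.Γ_mem1 (hC.J_mem hl hf) hk) (hC.Γ_mem1 (hC.J_mem hl hg) hk)]
  linarith only [a1, a2]

theorem J_smul (hl : 0 < lam) (c : ℝ) (hf : MemLp f 2 m) :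
    C.J lam (c • f) = c • C.J lam f := by
  refine hC.J_eq hl ⟨hC.smul_mem c _ (hC.J_mem hl hf), fun k hk => ?_⟩
  have a1 := (hC.J_spec hl hf).2 k hk
  rw [smul_mul_assoc, smul_mul_assoc, I_smul, I_smul, hC.smul_left c _ (hC.J_mem hl hf) k hk,
    I_smul, ← a1]
  ring

theorem J_neg (hl : 0 < lam) (hf : MemLp f 2 m) : C.J lam (-f) = -C.J lam f := by
  have := hC.J_smul hl (-1) hf
  simpa using this

theorem J_sub (hl : 0 < lam) (hf : MemLp f 2 m) (hg : MemLp g 2 m) :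
    C.J lam (f - g) = C.J lam f - C.J lam g := by
  rw [sub_eq_add_neg, hC.J_add hl hf (mem_neg hg), hC.J_neg hl hg, ← sub_eq_add_neg]

theorem J_isLap (hl : 0 < lam) (hf : MemLp f 2 m) :
    C.IsLap (C.J lam f) (lam⁻¹ • (C.J lam f - f)) := by
  refine ⟨hC.J_mem hl hf, mem_smul _ (mem_sub (hC.J_mem2 hl hf) hf), fun g hg => ?_⟩
  have a1 := (hC.J_spec hl hf).2 g hg
  have hg2 := hC.memLp g hg
  show I (C.Γ (C.J lam f) g) = -I (lam⁻¹ • (C.J lam f - f) * g)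
  rw [smul_mul_assoc, I_smul, sub_mul, I_sub (mem_mul_22 (hC.J_mem2 hl hf) hg2)
    (mem_mul_22 hf hg2), ← a1]
  field_simp
  ring

/-- the energy estimate -/
theorem J_energy (hl : 0 < lam) (hf : MemLp f 2 m) :
    I (C.J lam f ^ 2) + lam * I (C.Γ (C.J lam f) (C.J lam f)) = I (f * C.J lam f) := by
  have a1 := (hC.J_spec hl hf).2 _ (hC.J_mem hl hf)
  rw [← sq] at a1
  exact a1

theorem J_contr (hl : 0 < lam) (hf : MemLp f 2 m) :
    I (C.J lam f ^ 2) + lam * I (C.Γ (C.J lam f) (C.J lam f)) ≤ I (f ^ 2) := by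
  have a1 := hC.J_energy hl hf
  have a2 := I_nonneg (hC.nonneg _ (hC.J_mem hl hf))
  have a3 : 0 ≤ lam * I (C.Γ (C.J lam f) (C.J lam f)) := by positivity
  have a4 := I_cs hf (hC.J_mem2 hl hf)
  have a5 := I_sq_nonneg f
  have a6 := I_sq_nonneg (C.J lam f)
  rw [← a1] at a4
  rw [a1]
  rw [← a1]
  set A := I (C.J lam f ^ 2)
  set B := lam * I (C.Γ (C.J lam f) (C.J lam f))
  set D := I (f ^ 2)
  -- (A + B)² ≤ D A
  by_contra hcon
  push Not at hcon
  nlinarith only [a4, a3, a5, hcon]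

theorem J_sq_le (hl : 0 < lam) (hf : MemLp f 2 m) : I (C.J lam f ^ 2) ≤ I (f ^ 2) := by
  have a1 := hC.J_contr hl hf
  have a2 := I_nonneg (hC.nonneg _ (hC.J_mem hl hf))
  have a3 : 0 ≤ lam * I (C.Γ (C.J lam f) (C.J lam f)) := by positivity
  linarith

/-- the maximum principle -/
theorem J_le (hl : 0 < lam) (hf : MemLp f 2 m) {K : ℝ} (hK : 0 ≤ K)
    (h0 : f ≤ K • (1 : M →ₘ[m] ℝ)) : C.J lam f ≤ K • (1 : M →ₘ[m] ℝ) := by
  set u := C.J lam f with hu
  have huW : u ∈ C.W := hC.J_mem hl hf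
  -- test function
  set s : ℝ → ℝ := fun t => max (t - K) 0 with hs
  set φ : ℝ → ℝ := fun t => s t - Real.arctan (s t) with hφ
  set φ' : ℝ → ℝ := fun t => s t ^ 2 / (1 + s t ^ 2) with hφ'
  have hsc : Continuous s := (continuous_id.sub continuous_const).max continuous_const
  have hφc : Continuous φ := hsc.sub (Real.continuous_arctan.comp hsc)
  have hφ'c : Continuous φ' := (hsc.pow 2).div (continuous_const.add (hsc.pow 2))
    (fun t => by (clear * -; positivity))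
  -- auxiliary function
  have hbase : ∀ r : ℝ, HasDerivAt (fun r : ℝ => r - Real.arctan r) (r ^ 2 / (1 + r ^ 2)) r := by
    intro r
    have h1 := (hasDerivAt_id' r).sub (Real.hasDerivAt_arctan r)
    refine h1.congr_deriv ?_
    have : (0 : ℝ) < 1 + r ^ 2 := by positivity
    field_simp
    ring
  have hd : ∀ t, HasDerivAt φ (φ' t) t := by
    intro t
    rcases lt_trichotomy t K with ht | ht | ht
    · have e1 : φ =ᶠ[𝓝 t] fun _ => 0 := by
        filter_upwards [gt_mem_nhds ht] with y hy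
        simp only [hφ, hs]
        rw [max_eq_right (by linarith)]
        simp
      have e2 : φ' t = 0 := by
        simp only [hφ', hs]
        rw [max_eq_right (by linarith)]
        simp
      rw [e2]
      exact (hasDerivAt_const t (0 : ℝ)).congr_of_eventuallyEq e1
    · have e2 : φ' t = 0 := by
        simp only [hφ', hs]
        rw [max_eq_right (by linarith)]
        simp
      rw [e2]
      -- |φ(y)| ≤ small
      have hb := hbase 0
      simp only [ne_eq, OfNat.ofNat_ne_zero, not_false_eq_true, zero_pow, add_zero, zero_div] at hb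
      rw [hasDerivAt_iff_isLittleO] at hb ⊢
      have h3 : Tendsto (fun y => s y) (𝓝 t) (𝓝 0) := by
        have := hsc.tendsto t
        have e3 : s t = 0 := by simp only [hs]; rw [max_eq_right (by linarith only [ht])]
        rwa [e3] at this
      have h4 := hb.comp_tendsto h3
      simp only [Function.comp_def, sub_zero, smul_zero, Real.arctan_zero] at h4 ⊢
      have e4 : φ t = 0 := by
        simp only [hφ, hs]
        rw [max_eq_right (by linarith only [ht])]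
        simp
      rw [e4]
      simp only [sub_zero]
      refine h4.trans_isBigO ?_
      refine Asymptotics.IsBigO.of_bound 1 ?_
      filter_upwards with y
      rw [one_mul, Real.norm_eq_abs, Real.norm_eq_abs]
      simp only [hs]
      rw [abs_of_nonneg (le_max_right _ _)]
      subst ht
      exact max_le (le_abs_self _) (abs_nonneg _)
    · have e1 : φ =ᶠ[𝓝 t] fun y => (y - K) - Real.arctan (y - K) := by
        filter_upwards [lt_mem_nhds ht] with y hy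
        simp only [hφ, hs]
        rw [max_eq_left (by linarith)]
      have e2 : φ' t = (t - K) ^ 2 / (1 + (t - K) ^ 2) := by
        simp only [hφ', hs]
        rw [max_eq_left (by linarith)]
      rw [e2]
      have h5 := (hbase (t - K)).comp_sub_const t K
      exact h5.congr_of_eventuallyEq e1
  have hφ'0 : ∀ t, 0 ≤ φ' t := fun t => by simp only [hφ']; (clear * -; positivity)
  have hφ'1 : ∀ t, |φ' t| ≤ 1 := by
    intro t
    rw [abs_of_nonneg (hφ'0 t)]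
    simp only [hφ']
    rw [div_le_one (by (clear * -; positivity))]
    linarith only []
  have hφ0 : φ 0 = 0 := by
    simp only [hφ, hs]
    rw [max_eq_right (by linarith)]
    simp
  have hφpos : ∀ t, K < t → 0 < φ t := by
    intro t ht
    have h1 : 0 < t - K := by linarith
    simp only [hφ, hs]
    rw [max_eq_left h1.le]
    have h2 := Real.lt_tan (Real.arctan_pos.2 h1) (Real.arctan_lt_pi_div_two _)
    rw [Real.tan_arctan] at h2
    linarith
  have hφzero : ∀ t, t ≤ K → φ t = 0 := by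
    intro t ht
    simp only [hφ, hs]
    rw [max_eq_right (by linarith)]
    simp
  obtain ⟨hv, hΓ⟩ := hC.chain u huW φ φ' hφc hφ'c hd hφ0 ⟨1, hφ'1⟩
  set v := AEEqFun.comp φ hφc u with hvdef
  have hv2 := hC.memLp v hv
  have hu2 := hC.memLp u huW
  have a1 := (hC.J_spec hl hf).2 v hv
  rw [← hu] at a1
  have a2 : C.Γ u v = AEEqFun.comp φ' hφ'c u * C.Γ u u := by
    rw [hC.symm u huW v hv, hΓ u huW]
  have a3 : 0 ≤ I (C.Γ u v) := by
    rw [a2]
    refine I_nonneg ?_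
    refine mul_nonneg ?_ (hC.nonneg u huW)
    rw [nonneg_iff_ae]
    filter_upwards [AEEqFun.coeFn_comp φ' hφ'c u] with x hx
    rw [hx]; exact hφ'0 _
  have a4 : I ((u - f) * v) ≤ 0 := by
    rw [sub_mul, I_sub (mem_mul_22 hu2 hv2) (mem_mul_22 hf hv2)]
    have : 0 ≤ lam * I (C.Γ u v) := by (clear * - hl a3; positivity)
    linarith only [a1, this]
  have a5 : 0 ≤ (u - f) * v := by
    rw [nonneg_iff_ae]
    filter_upwards [mul_ae (u - f) v, sub_ae u f, AEEqFun.coeFn_comp φ hφc u, le_iff_ae.1 h0,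
      smul_ae (1 : M →ₘ[m] ℝ) K, one_ae (M := M) (m := m)] with x b1 b2 b3 b4 b5 b6
    rw [b5, b6, mul_one] at b4
    rw [b1, b2, b3]
    rcases le_or_gt (u x) K with hle | hgt
    · simp [hφzero _ hle]
    · exact mul_nonneg (by linarith only [b4, hgt]) (hφpos _ hgt).le
  have a6 := I_eq_zero_of_nonneg (mem_mul_22 (mem_sub hu2 hf) hv2) a5
    (le_antisymm a4 (I_nonneg a5))
  rw [le_iff_ae]
  filter_upwards [eq_iff_ae.1 a6, mul_ae (u - f) v, sub_ae u f, AEEqFun.coeFn_comp φ hφc u,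
    le_iff_ae.1 h0, smul_ae (1 : M →ₘ[m] ℝ) K, one_ae (M := M) (m := m),
    zero_ae (M := M) (m := m)] with x b0 b1 b2 b3 b4 b5 b6 b7
  rw [b5, b6, mul_one] at b4
  rw [b5, b6, mul_one]
  by_contra hcon
  push Not at hcon
  rw [b1, b2, b3, b7] at b0
  have c1 := hφpos _ hcon
  have c2 : 0 < (u x - f x) * φ (u x) := mul_pos (by linarith only [b4, hcon]) c1
  simp only [Function.comp_apply] at b0
  linarith only [b0, c2]

theorem J_nonneg (hl : 0 < lam) (hf : MemLp f 2 m) (h0 : 0 ≤ f) : 0 ≤ C.J lam f := by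
  have h1 := hC.J_le hl (mem_neg hf) (K := 0) le_rfl (by rw [zero_smul]; exact neg_nonpos.2 h0)
  rw [hC.J_neg hl hf, zero_smul] at h1
  exact neg_nonpos.1 h1

theorem J_bdd (hl : 0 < lam) (hf : MemLp f 2 m) {K : ℝ} (h0 : ∀ᵐ x ∂m, |f x| ≤ K) :
    ∀ᵐ x ∂m, |C.J lam f x| ≤ K := by
  rcases lt_or_ge K 0 with hK | hK
  · filter_upwards [h0] with x hx
    linarith only [hK, hx, abs_nonneg (f x)]
  have h1 := hC.J_le hl hf hK (by
    rw [le_iff_ae]
    filter_upwards [h0, smul_ae (1 : M →ₘ[m] ℝ) K, one_ae (M := M) (m := m)] with x a1 a2 a3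
    rw [a2, a3, mul_one]
    exact (le_abs_self _).trans a1)
  have h2 := hC.J_le hl (mem_neg hf) hK (by
    rw [le_iff_ae]
    filter_upwards [h0, smul_ae (1 : M →ₘ[m] ℝ) K, one_ae (M := M) (m := m), neg_ae f]
      with x a1 a2 a3 a4
    rw [a2, a3, mul_one, a4]
    exact (neg_le_abs _).trans a1)
  rw [hC.J_neg hl hf] at h2
  rw [le_iff_ae] at h1 h2
  filter_upwards [h1, h2, smul_ae (1 : M →ₘ[m] ℝ) K, one_ae (M := M) (m := m),
    neg_ae (C.J lam f)] with x a1 a2 a3 a4 a5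
  rw [a3, a4, mul_one] at a1 a2
  rw [a5] at a2
  exact abs_le.2 ⟨by linarith, a1⟩

theorem J_symm (hl : 0 < lam) (hf : MemLp f 2 m) (hg : MemLp g 2 m) :
    I (C.J lam f * g) = I (f * C.J lam g) := by
  have a1 := (hC.J_spec hl hf).2 _ (hC.J_mem hl hg)
  have a2 := (hC.J_spec hl hg).2 _ (hC.J_mem hl hf)
  rw [hC.symm _ (hC.J_mem hl hg) _ (hC.J_mem hl hf), mul_comm (C.J lam g)] at a2
  rw [mul_comm (C.J lam f) g]
  linarith only [a1, a2]

/-- `L¹` contraction -/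
theorem J_L1 (hl : 0 < lam) (hf : MemLp f 2 m) (hf1 : MemLp f 1 m) (h0 : 0 ≤ f) :
    MemLp (C.J lam f) 1 m ∧ I (C.J lam f) ≤ I f := by
  set u := C.J lam f with hu
  have hu0 : 0 ≤ u := hC.J_nonneg hl hf h0
  have hu2 : MemLp u 2 m := hC.J_mem2 hl hf
  have hum : StronglyMeasurable (u : M → ℝ) := AEEqFun.stronglyMeasurable u
  -- superlevel sets
  have hSm : ∀ k : ℕ, MeasurableSet {x | ((k : ℝ) + 1)⁻¹ < u x} := fun k =>
    measurableSet_lt measurable_const hum.measurable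
  have hSfin : ∀ k : ℕ, m {x | ((k : ℝ) + 1)⁻¹ < u x} < ∞ := by
    intro k
    have h1 := mul_meas_ge_le_pow_eLpNorm' m (p := 2) two_ne_zero (by simp) hu2.1
      (ENNReal.ofReal ((k : ℝ) + 1)⁻¹)
    have h2 : m {x | ((k : ℝ) + 1)⁻¹ < u x} ≤ m {x | ENNReal.ofReal ((k : ℝ) + 1)⁻¹ ≤ ‖u x‖ₑ} := by
      refine measure_mono fun x hx => ?_
      simp only [Set.mem_setOf_eq] at hx ⊢
      rw [← ofReal_norm_eq_enorm, Real.norm_eq_abs]
      exact ENNReal.ofReal_le_ofReal (hx.le.trans (le_abs_self _))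
    refine h2.trans_lt ?_
    by_contra hcon
    push Not at hcon
    rw [top_le_iff] at hcon
    rw [hcon] at h1
    have h3 : eLpNorm (⇑u) 2 m ^ (2 : ℝ≥0∞).toReal < ∞ :=
      ENNReal.rpow_lt_top_of_nonneg (by simp) hu2.eLpNorm_lt_top.ne
    rw [ENNReal.mul_top] at h1
    · exact absurd (top_le_iff.1 h1) h3.ne
    · have h4 : (0 : ℝ) < ((k : ℝ) + 1)⁻¹ := by (clear * -; positivity)
      have h5 : ENNReal.ofReal ((k : ℝ) + 1)⁻¹ ≠ 0 := by
        rw [ne_eq, ENNReal.ofReal_eq_zero, not_le]; exact h4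
      simp only [ENNReal.toReal_ofNat, ENNReal.rpow_ofNat, ne_eq, OfNat.ofNat_ne_zero, not_false_eq_true, pow_eq_zero_iff, h5]
  -- test with indicators
  have key : ∀ k : ℕ, ∫ x in {x | ((k : ℝ) + 1)⁻¹ < u x}, u x ∂m ≤ I f := by
    intro k
    have hind : MemLp (Set.indicator {x | ((k : ℝ) + 1)⁻¹ < u x} (fun _ => (1 : ℝ))) 2 m :=
      memLp_indicator_const 2 (hSm k) 1 (Or.inr (hSfin k).ne)
    set g : M →ₘ[m] ℝ := AEEqFun.mk _ hind.1 with hg
    have hgae := AEEqFun.coeFn_mk _ hind.1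
    have hg2 : MemLp g 2 m := (memLp_congr_ae hgae).2 hind
    have hg1 : g ≤ (1 : ℝ) • (1 : M →ₘ[m] ℝ) := by
      rw [le_iff_ae]
      filter_upwards [hgae, smul_ae (1 : M →ₘ[m] ℝ) (1 : ℝ), one_ae (M := M) (m := m)]
        with x a1 a2 a3
      rw [a2, a3, hg, a1, mul_one]
      exact Set.indicator_le_self' (fun _ _ => zero_le_one) x |>.trans le_rfl
    have h1 := hC.J_symm hl hf hg2
    have h2 := hC.J_le hl hg2 zero_le_one hg1
    have h3 : I (f * C.J lam g) ≤ I f := by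
      refine I_mono (mem_mul_22 hf (hC.J_mem2 hl hg2)) hf1 ?_
      rw [le_iff_ae]
      filter_upwards [mul_ae f (C.J lam g), le_iff_ae.1 h2, nonneg_iff_ae.1 h0,
        smul_ae (1 : M →ₘ[m] ℝ) (1 : ℝ), one_ae (M := M) (m := m)] with x a1 a2 a3 a4 a5
      rw [a1]
      rw [a4, a5, mul_one] at a2
      nlinarith only [a2, a3]
    rw [← h1] at h3
    refine le_trans (le_of_eq ?_) h3
    unfold I
    rw [← integral_indicator (hSm k)]
    refine integral_congr_ae ?_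
    filter_upwards [mul_ae u g, hgae] with x a1 a2
    rw [← hu, a1, hg, a2]
    by_cases hx : x ∈ {x | ((k : ℝ) + 1)⁻¹ < u x}
    · rw [Set.indicator_of_mem hx, Set.indicator_of_mem hx, mul_one]
    · rw [Set.indicator_of_notMem hx, Set.indicator_of_notMem hx, mul_zero]
  -- monotone convergence
  have hlint : ∫⁻ x, ENNReal.ofReal (u x) ∂m ≤ ENNReal.ofReal (I f) := by
    have hmono : Monotone fun (k : ℕ) (x : M) =>
        Set.indicator {x | ((k : ℝ) + 1)⁻¹ < u x} (fun x => ENNReal.ofReal (u x)) x := by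
      intro j k hjk x
      refine Set.indicator_le_indicator_of_subset (fun y hy => ?_) (fun _ => zero_le) x
      simp only [Set.mem_setOf_eq] at hy ⊢
      refine lt_of_le_of_lt ?_ hy
      have : (j : ℝ) ≤ k := by exact_mod_cast hjk
      (clear * - this; gcongr)
    have hmeas : ∀ k : ℕ, Measurable fun (x : M) =>
        Set.indicator {x | ((k : ℝ) + 1)⁻¹ < u x} (fun x => ENNReal.ofReal (u x)) x := fun k =>
      (hum.measurable.ennreal_ofReal).indicator (hSm k)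
    have hsup : ∀ᵐ x ∂m, ENNReal.ofReal (u x) ≤ ⨆ k : ℕ,
        Set.indicator {x | ((k : ℝ) + 1)⁻¹ < u x} (fun x => ENNReal.ofReal (u x)) x := by
      filter_upwards [nonneg_iff_ae.1 hu0] with x hx
      rcases hx.eq_or_lt with h | h
      · rw [← h]; simp only [ENNReal.ofReal_zero, zero_le]
      · obtain ⟨k, hk⟩ := exists_nat_one_div_lt h
        rw [one_div] at hk
        refine le_iSup_of_le k ?_
        rw [Set.indicator_of_mem (show x ∈ {x | ((k : ℝ) + 1)⁻¹ < u x} from hk)]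
    calc ∫⁻ x, ENNReal.ofReal (u x) ∂m ≤ ∫⁻ x, ⨆ k : ℕ,
        Set.indicator {x | ((k : ℝ) + 1)⁻¹ < u x} (fun x => ENNReal.ofReal (u x)) x ∂m :=
          lintegral_mono_ae hsup
      _ = ⨆ k : ℕ, ∫⁻ x,
        Set.indicator {x | ((k : ℝ) + 1)⁻¹ < u x} (fun x => ENNReal.ofReal (u x)) x ∂m :=
          lintegral_iSup hmeas hmono
      _ ≤ ENNReal.ofReal (I f) := by
          refine iSup_le fun k => ?_
          rw [lintegral_indicator (hSm k), ← ofReal_integral_eq_lintegral_ofReal]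
          · exact ENNReal.ofReal_le_ofReal (key k)
          · haveI : IsFiniteMeasure (m.restrict {x | ((k : ℝ) + 1)⁻¹ < u x}) :=
              ⟨by rw [Measure.restrict_apply_univ]; exact hSfin k⟩
            exact (hu2.restrict _).integrable (by norm_num)
          · exact ae_restrict_of_ae (nonneg_iff_ae.1 hu0)
  have hint : Integrable u m := by
    refine ⟨u.aestronglyMeasurable, ?_⟩
    rw [hasFiniteIntegral_iff_ofReal (nonneg_iff_ae.1 hu0)]
    exact hlint.trans_lt ENNReal.ofReal_lt_top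
  refine ⟨memLp_one_iff_integrable.2 hint, ?_⟩
  unfold I
  rw [integral_eq_lintegral_of_nonneg_ae (nonneg_iff_ae.1 hu0) hint.1]
  exact ENNReal.toReal_le_of_le_ofReal (I_nonneg h0) hlint

/-- basic estimates for `f ∈ W` -/
theorem J_est (hl : 0 < lam) (hf : f ∈ C.W) :
    I (C.Γ (C.J lam f) (C.J lam f)) ≤ I (C.Γ (C.J lam f) f) ∧
    I (C.Γ (C.J lam f) (C.J lam f)) ≤ I (C.Γ f f) ∧
    I ((C.J lam f - f) ^ 2) ≤ lam * I (C.Γ f f) := by
  have hf2 := hC.memLp f hf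
  set u := C.J lam f with hu
  have huW : u ∈ C.W := hC.J_mem hl hf2
  have hu2 := hC.memLp u huW
  have huf := hC.sub_mem huW hf
  have huf2 := hC.memLp _ huf
  have a1 := (hC.J_spec hl hf2).2 (u - f) huf
  rw [← hu] at a1
  have a2 : I ((u - f) ^ 2) = I (u * (u - f)) - I (f * (u - f)) := by
    rw [sq, ← I_sub (mem_mul_22 hu2 huf2) (mem_mul_22 hf2 huf2), ← sub_mul]
  have a3 : I (C.Γ u (u - f)) = I (C.Γ u u) - I (C.Γ u f) := by
    rw [hC.Γ_sub_right huW huW hf, I_sub (hC.Γ_mem1 huW huW) (hC.Γ_mem1 huW hf)]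
  have a4 := I_sq_nonneg (u - f)
  have a5 : I ((u - f) ^ 2) = lam * (I (C.Γ u f) - I (C.Γ u u)) := by
    rw [a2]; rw [a3] at a1; linarith only [a1]
  have a6 : I (C.Γ u u) ≤ I (C.Γ u f) := by
    by_contra hcon
    push Not at hcon
    have : lam * (I (C.Γ u f) - I (C.Γ u u)) < 0 := mul_neg_of_pos_of_neg hl (by linarith)
    linarith
  have a7 := hC.E_cs huW hf
  have a8 := I_nonneg (hC.nonneg _ huW)
  have a9 := I_nonneg (hC.nonneg _ hf)
  have a10 : I (C.Γ u u) ≤ I (C.Γ f f) := by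
    by_contra hcon
    push Not at hcon
    nlinarith only [a7, a6, a9, hcon]
  refine ⟨a6, a10, ?_⟩
  rw [a5]
  refine mul_le_mul_of_nonneg_left ?_ hl.le
  have a11 : I (C.Γ u f) ≤ I (C.Γ f f) := by
    by_contra hcon
    push Not at hcon
    nlinarith only [a7, a6, a9, hcon]
  linarith

/-- `J_lam f → f` in `L²` -/
theorem J_tendsto_L2 (hf : MemLp f 2 m) :
    Tendsto (fun n : ℕ => I ((C.J ((n : ℝ) + 1)⁻¹ f - f) ^ 2)) atTop (𝓝 0) := by
  rw [Metric.tendsto_atTop]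
  intro ε hε
  obtain ⟨g, hg, hfg⟩ := hC.dense_L2 f hf (ε / 12) (by positivity)
  have hg2 := hC.memLp g hg
  have h1 : Tendsto (fun n : ℕ => ((n : ℝ) + 1)⁻¹ * I (C.Γ g g)) atTop (𝓝 0) := by
    have := tendsto_inv_succ.mul_const (I (C.Γ g g))
    simpa only [zero_mul] using this
  obtain ⟨N, hN⟩ := (Metric.tendsto_atTop.1 h1) (ε / 12) (by positivity)
  refine ⟨N, fun n hn => ?_⟩
  have hl : (0 : ℝ) < ((n : ℝ) + 1)⁻¹ := by positivity
  have hN' := hN n hn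
  rw [Real.dist_eq, sub_zero, abs_of_nonneg (mul_nonneg hl.le (I_nonneg (hC.nonneg g hg)))] at hN'
  rw [Real.dist_eq, sub_zero, abs_of_nonneg (I_sq_nonneg _)]
  have hfg2 := mem_sub hf hg2
  have k1 := hC.J_sq_le hl hfg2
  have k2 := (hC.J_est hl hg).2.2
  have hJ := hC.J_sub hl hf hg2
  set u := C.J ((n : ℝ) + 1)⁻¹ f
  set v := C.J ((n : ℝ) + 1)⁻¹ g
  have hu2 : MemLp u 2 m := hC.J_mem2 hl hf
  have hv2 : MemLp v 2 m := hC.J_mem2 hl hg2
  rw [hJ] at k1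
  have k3 : I ((u - f) ^ 2) ≤ 3 * I ((u - v) ^ 2) + 3 * I ((v - g) ^ 2) + 3 * I ((f - g) ^ 2) := by
    rw [← I_smul, ← I_smul, ← I_smul, ← I_add (mem_smul _ (mem_sq (mem_sub hu2 hv2)))
      (mem_smul _ (mem_sq (mem_sub hv2 hg2))), ← I_add (mem_add (mem_smul _
      (mem_sq (mem_sub hu2 hv2))) (mem_smul _ (mem_sq (mem_sub hv2 hg2))))
      (mem_smul _ (mem_sq (mem_sub hf hg2)))]
    refine I_mono (mem_sq (mem_sub hu2 hf)) (mem_add (mem_add (mem_smul _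
      (mem_sq (mem_sub hu2 hv2))) (mem_smul _ (mem_sq (mem_sub hv2 hg2))))
      (mem_smul _ (mem_sq (mem_sub hf hg2)))) ?_
    rw [le_iff_ae]
    filter_upwards [sq_ae (u - f), sub_ae u f, add_ae ((3 : ℝ) • (u - v) ^ 2 +
      (3 : ℝ) • (v - g) ^ 2) ((3 : ℝ) • (f - g) ^ 2), add_ae ((3 : ℝ) • (u - v) ^ 2)
      ((3 : ℝ) • (v - g) ^ 2), smul_ae ((u - v) ^ 2) (3 : ℝ), smul_ae ((v - g) ^ 2) (3 : ℝ),
      smul_ae ((f - g) ^ 2) (3 : ℝ), sq_ae (u - v), sq_ae (v - g), sq_ae (f - g), sub_ae u v,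
      sub_ae v g, sub_ae f g] with x b1 b2 b3 b4 b5 b6 b7 b8 b9 b10 b11 b12 b13
    rw [b1, b2, b3, b4, b5, b6, b7, b8, b9, b10, b11, b12, b13]
    nlinarith only [sq_nonneg ((u x - v x) + (f x - g x)), sq_nonneg ((v x - g x) + (f x - g x))]
  linarith only [hε, hfg, hN', k1, k2, k3]

/-- `J_lam f → f` in `W` -/
theorem J_tendsto_W (hf : f ∈ C.W) :
    Tendsto (fun n : ℕ => C.nrm2 (C.J ((n : ℝ) + 1)⁻¹ f - f)) atTop (𝓝 0) := by
  have hf2 := hC.memLp f hf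
  have h1 := hC.J_tendsto_L2 hf2
  have hl : ∀ n : ℕ, (0 : ℝ) < ((n : ℝ) + 1)⁻¹ := fun n => by positivity
  have hW : ∀ n : ℕ, C.J ((n : ℝ) + 1)⁻¹ f ∈ C.W := fun n => hC.J_mem (hl n) hf2
  -- lower semicontinuity
  have h2 : ∀ ε > 0, ∀ᶠ n : ℕ in atTop, I (C.Γ f f) - ε <
      I (C.Γ (C.J ((n : ℝ) + 1)⁻¹ f) (C.J ((n : ℝ) + 1)⁻¹ f)) := by
    intro ε hε
    by_contra hcon
    rw [not_eventually] at hcon
    obtain ⟨ns, hns, hns2⟩ := extraction_of_frequently_atTop hcon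
    have h3 := hC.mem_of_bounded (u := fun k => C.J (((ns k : ℕ) : ℝ) + 1)⁻¹ f) (f := f)
      (K := I (C.Γ f f) - ε) (fun k => hW (ns k)) (fun k => not_lt.1 (hns2 k)) hf2
      (h1.comp hns.tendsto_atTop)
    linarith [h3.2]
  have h3 : Tendsto (fun n : ℕ => I (C.Γ (C.J ((n : ℝ) + 1)⁻¹ f - f)
      (C.J ((n : ℝ) + 1)⁻¹ f - f))) atTop (𝓝 0) := by
    rw [Metric.tendsto_atTop']
    intro ε hε
    obtain ⟨N, hN⟩ := eventually_atTop.1 (h2 ε hε)
    refine ⟨N, fun n hn => ?_⟩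
    have hn2 := hN n hn.le
    obtain ⟨e1, e2, e3⟩ := hC.J_est (hl n) hf
    set u := C.J ((n : ℝ) + 1)⁻¹ f
    have huW : u ∈ C.W := hW n
    have huf := hC.sub_mem huW hf
    rw [Real.dist_eq, sub_zero, abs_of_nonneg (I_nonneg (hC.nonneg _ huf))]
    have e4 : I (C.Γ (u - f) (u - f)) = I (C.Γ u u) - 2 * I (C.Γ u f) + I (C.Γ f f) := by
      rw [hC.Γ_sub_left huW hf huf, I_sub (hC.Γ_mem1 huW huf) (hC.Γ_mem1 hf huf),
        hC.Γ_sub_right huW huW hf, hC.Γ_sub_right hf huW hf, I_sub (hC.Γ_mem1 huW huW)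
        (hC.Γ_mem1 huW hf), I_sub (hC.Γ_mem1 hf huW) (hC.Γ_mem1 hf hf), hC.symm f hf u huW]
      ring
    rw [e4]
    linarith only [hn2, e1]
  have h4 := h1.add h3
  rw [add_zero] at h4
  exact h4

/-- a countable set is dense in `W` -/
theorem exists_dense_seq [SigmaFinite m] [MeasurableSpace.CountablyGenerated M] :
    ∃ u : ℕ → M →ₘ[m] ℝ, (∀ n, u n ∈ C.W) ∧
      ∀ f ∈ C.W, ∀ ε > 0, ∃ n, C.nrm2 (u n - f) < ε := by
  haveI : Fact ((1 : ℝ≥0∞) ≤ 2) := ⟨by norm_num⟩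
  haveI : Fact ((2 : ℝ≥0∞) ≠ ∞) := ⟨by simp⟩
  haveI : SecondCountableTopology (Lp ℝ 2 m) := inferInstance
  set d : ℕ → Lp ℝ 2 m := TopologicalSpace.denseSeq (Lp ℝ 2 m) with hd
  have hdm : ∀ k, MemLp (d k : M →ₘ[m] ℝ) 2 m := fun k => Lp.memLp (d k)
  have hl : ∀ n : ℕ, (0 : ℝ) < ((n : ℝ) + 1)⁻¹ := fun n => by positivity
  refine ⟨fun n => C.J (((Nat.unpair n).1 : ℝ) + 1)⁻¹ (d (Nat.unpair n).2),
    fun n => hC.J_mem (hl _) (hdm _), fun f hf ε hε => ?_⟩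
  have hf2 := hC.memLp f hf
  obtain ⟨n, hn⟩ := ((hC.J_tendsto_W hf).eventually (gt_mem_nhds (show (0:ℝ) < ε / 4 by
    positivity))).exists
  -- approximate f by d k
  set δ : ℝ := ε / (4 * (n + 2)) with hδ
  have hδ0 : 0 < δ := by positivity
  obtain ⟨k, hk⟩ := Metric.denseRange_iff.1 (TopologicalSpace.denseRange_denseSeq (Lp ℝ 2 m))
    hf2.toLp (Real.sqrt δ) (Real.sqrt_pos.2 hδ0)
  rw [← hd, dist_eq_norm] at hk
  have hk2 : I ((f - (d k : M →ₘ[m] ℝ)) ^ 2) < δ := by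
    have e1 : I ((f - (d k : M →ₘ[m] ℝ)) ^ 2) = ‖hf2.toLp - d k‖ ^ 2 := by
      rw [I_sq_eq_norm (mem_sub hf2 (hdm k))]
      congr 2
      apply Lp.ext
      filter_upwards [(mem_sub hf2 (hdm k)).coeFn_toLp, Lp.coeFn_sub hf2.toLp (d k),
        hf2.coeFn_toLp, sub_ae f (d k : M →ₘ[m] ℝ)] with x a1 a2 a3 a4
      rw [a1, a2, Pi.sub_apply, a3, a4]
    rw [e1, ← Real.sq_sqrt hδ0.le]
    have := norm_nonneg (hf2.toLp - d k)
    gcongr
  refine ⟨Nat.pair n k, ?_⟩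
  simp only [Nat.unpair_pair]
  have hfd := mem_sub hf2 (hdm k)
  have c1 := hC.J_contr (hl n) hfd
  have hJ := hC.J_sub (hl n) hf2 (hdm k)
  set u := C.J ((n : ℝ) + 1)⁻¹ f
  set v := C.J ((n : ℝ) + 1)⁻¹ (d k : M →ₘ[m] ℝ)
  have huW : u ∈ C.W := hC.J_mem (hl n) hf2
  have hvW : v ∈ C.W := hC.J_mem (hl n) (hdm k)
  rw [hJ] at c1
  -- `nrm2 (v - f) ≤ 2 nrm2 (u - v) + 2 nrm2 (u - f)`
  have huv := hC.sub_mem huW hvW
  have huf := hC.sub_mem huW hf
  have hvf := hC.sub_mem hvW hf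
  have c2 : C.nrm2 (v - f) ≤ 2 * C.nrm2 (u - v) + 2 * C.nrm2 (u - f) := by
    have hsum := hC.add_mem _ huv _ huf
    have p1 : I ((v - f) ^ 2) + I ((u - v + (u - f)) ^ 2) =
        2 * I ((u - v) ^ 2) + 2 * I ((u - f) ^ 2) := by
      rw [← I_add (mem_sq (hC.memLp _ hvf)) (mem_sq (hC.memLp _ hsum)), ← I_smul, ← I_smul,
        ← I_add (mem_smul _ (mem_sq (hC.memLp _ huv))) (mem_smul _ (mem_sq (hC.memLp _ huf)))]
      congr 1
      simp only [Algebra.smul_def]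
      have e2 : algebraMap ℝ (M →ₘ[m] ℝ) 2 = 2 := map_ofNat _ 2
      rw [e2]
      ring
    have p2 : I (C.Γ (v - f) (v - f)) + I (C.Γ (u - v + (u - f)) (u - v + (u - f))) =
        2 * I (C.Γ (u - v) (u - v)) + 2 * I (C.Γ (u - f) (u - f)) := by
      have e3 : v - f = (u - f) - (u - v) := by abel
      rw [e3]
      rw [hC.Γ_sub_left huf huv (hC.sub_mem huf huv), hC.Γ_sub_right huf huf huv,
        hC.Γ_sub_right huv huf huv, hC.add_left _ huv _ huf _ hsum,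
        hC.Γ_add_right huv huv huf, hC.Γ_add_right huf huv huf, hC.symm _ huf _ huv]
      rw [I_sub (mem_sub (hC.Γ_mem1 huf huf) (hC.Γ_mem1 huv huf))
        (mem_sub (hC.Γ_mem1 huv huf) (hC.Γ_mem1 huv huv)),
        I_sub (hC.Γ_mem1 huf huf) (hC.Γ_mem1 huv huf),
        I_sub (hC.Γ_mem1 huv huf) (hC.Γ_mem1 huv huv),
        I_add (mem_add (hC.Γ_mem1 huv huv) (hC.Γ_mem1 huv huf))
        (mem_add (hC.Γ_mem1 huv huf) (hC.Γ_mem1 huf huf)),
        I_add (hC.Γ_mem1 huv huv) (hC.Γ_mem1 huv huf),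
        I_add (hC.Γ_mem1 huv huf) (hC.Γ_mem1 huf huf)]
      ring
    have p3 := I_sq_nonneg (u - v + (u - f))
    have p4 := I_nonneg (hC.nonneg _ hsum)
    unfold Calc.nrm2
    linarith only [p1, p2, p3, p4]
  have c3 : C.nrm2 (u - v) ≤ (n + 2) * δ := by
    unfold Calc.nrm2
    have q1 := I_sq_nonneg (u - v)
    have q2 := I_nonneg (hC.nonneg _ huv)
    have q3 : (((n : ℝ) + 1)⁻¹) * I (C.Γ (u - v) (u - v)) ≤ δ := by linarith only [hk2, c1, q1]
    have q4 : I (C.Γ (u - v) (u - v)) ≤ (n + 1) * δ := by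
      rw [inv_mul_le_iff₀ (by (clear * -; positivity))] at q3
      exact q3
    have q5 : I ((u - v) ^ 2) ≤ δ := by
      have : 0 ≤ (((n : ℝ) + 1)⁻¹) * I (C.Γ (u - v) (u - v)) := by (clear * - q2; positivity)
      linarith only [hk2, c1, this]
    linarith only [q4, q5]
  have c4 : ((n : ℝ) + 2) * δ = ε / 4 := by
    rw [hδ]; (clear * - hε; field_simp)
  have c5 : C.nrm2 (v - f) < ε := by
    rw [c4] at c3
    linarith only [hn, c2, c3]
  exact c5

end IsDir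

end Vale.Agent.P233
end
end

section

section

open Filter Topology Set

namespace Vale.Agent.P233

/-- smooth truncation at the level `K` -/
theorem exists_clamp {K : ℝ} (hK : 0 < K) (n : ℕ) : ∃ φ φ' : ℝ → ℝ, Continuous φ ∧ Continuous φ' ∧
    (∀ t, HasDerivAt φ (φ' t) t) ∧ φ 0 = 0 ∧ (∀ t, 0 ≤ φ' t ∧ φ' t ≤ 1) ∧ (∀ t, |φ t| ≤ K) ∧
    (∀ t s, |φ t - φ s| ≤ |t - s|) ∧ ∀ t, |t| ≤ K → |φ t - t| ≤ K / ((n : ℝ) + 1) := by
  set N : ℝ := (n : ℝ) + 1 with hN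
  have hN0 : 0 < N := by positivity
  have hN1 : 1 ≤ N := by rw [hN]; linarith [Nat.cast_nonneg (α := ℝ) n]
  set ρ : ℝ → ℝ := fun s => max 0 (min 1 ((K - |s|) * (N / K))) with hρ
  have hρc : Continuous ρ := by fun_prop
  have hρ0 : ∀ s, 0 ≤ ρ s := fun s => le_max_left _ _
  have hρ1 : ∀ s, ρ s ≤ 1 := fun s => max_le zero_le_one (min_le_left _ _)
  set φ : ℝ → ℝ := fun t => ∫ s in (0 : ℝ)..t, ρ s with hφ
  have hd : ∀ t, HasDerivAt φ (ρ t) t := fun t => (hρc.integral_hasStrictDerivAt 0 t).hasDerivAt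
  have hφc : Continuous φ := continuous_iff_continuousAt.2 fun t => (hd t).continuousAt
  have hφ0 : φ 0 = 0 := by simp [hφ]
  have hlip : ∀ t s, |φ t - φ s| ≤ |t - s| := by
    intro t s
    have := Convex.norm_image_sub_le_of_norm_hasDerivWithin_le (f := φ) (f' := ρ) (s := univ)
      (C := 1) (fun x _ => (hd x).hasDerivWithinAt)
      (fun x _ => by rw [Real.norm_eq_abs, abs_of_nonneg (hρ0 x)]; exact hρ1 x) convex_univ
      (mem_univ s) (mem_univ t)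
    simpa using this
  have hle : ∀ t, |φ t| ≤ |t| := by
    intro t
    have := hlip t 0
    rwa [hφ0, sub_zero, sub_zero] at this
  -- constancy outside
  have hout1 : ∀ t, K ≤ t → φ t = φ K := by
    intro t ht
    have := Convex.norm_image_sub_le_of_norm_hasDerivWithin_le (f := φ) (f' := ρ) (s := Ici K)
      (C := 0) (fun x _ => (hd x).hasDerivWithinAt)
      (fun x hx => by
        have hx' : K ≤ x := hx
        have h1 : (K - |x|) * (N / K) ≤ 0 :=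
          mul_nonpos_of_nonpos_of_nonneg (by linarith only [hx', le_abs_self x]) (by (clear * - hK; positivity))
        have h2 : ρ x = 0 := by
          simp only [hρ]
          exact max_eq_left ((min_le_right _ _).trans h1)
        rw [h2]; simp) (convex_Ici K) (mem_Ici.2 le_rfl) (mem_Ici.2 ht)
    rw [zero_mul, norm_le_zero_iff] at this
    linarith only [this]
  have hout2 : ∀ t, t ≤ -K → φ t = φ (-K) := by
    intro t ht
    have := Convex.norm_image_sub_le_of_norm_hasDerivWithin_le (f := φ) (f' := ρ) (s := Iic (-K))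
      (C := 0) (fun x _ => (hd x).hasDerivWithinAt)
      (fun x hx => by
        have hx' : x ≤ -K := hx
        have h1 : (K - |x|) * (N / K) ≤ 0 :=
          mul_nonpos_of_nonpos_of_nonneg (by linarith [neg_le_abs x]) (by (clear * - hK; positivity))
        have h2 : ρ x = 0 := by
          simp only [hρ]
          exact max_eq_left ((min_le_right _ _).trans h1)
        rw [h2]; simp) (convex_Iic (-K)) (mem_Iic.2 le_rfl) (mem_Iic.2 ht)
    rw [zero_mul, norm_le_zero_iff] at this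
    linarith only [this]
  have hbd : ∀ t, |φ t| ≤ K := by
    intro t
    rcases le_total K t with h | h
    · rw [hout1 t h]
      exact (hle K).trans (abs_of_pos hK).le
    rcases le_total t (-K) with h' | h'
    · rw [hout2 t h']
      refine (hle (-K)).trans ?_
      rw [abs_neg, abs_of_pos hK]
    · exact (hle t).trans (abs_le.2 ⟨h', h⟩)
  -- identity inside
  set a : ℝ := K - K / N with ha
  have hKN : K / N ≤ K := div_le_self hK.le hN1
  have hKN0 : 0 < K / N := by (clear * - hK; positivity)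
  have ha0 : 0 ≤ a := by rw [ha]; linarith only [hKN]
  have hin : ∀ t, |t| ≤ a → φ t = t := by
    intro t ht
    have := Convex.norm_image_sub_le_of_norm_hasDerivWithin_le (f := fun t => φ t - t)
      (f' := fun t => ρ t - 1) (s := Icc (-a) a)
      (C := 0) (fun x _ => ((hd x).sub (hasDerivAt_id' x)).hasDerivWithinAt)
      (fun x hx => by
        have h1 : |x| ≤ a := abs_le.2 hx
        have h2 : 1 ≤ (K - |x|) * (N / K) := by
          have h3 : K / N ≤ K - |x| := by rw [ha] at h1; linarith only [h1]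
          calc (1 : ℝ) = K / N * (N / K) := by field_simp
            _ ≤ (K - |x|) * (N / K) := mul_le_mul_of_nonneg_right h3 (by (clear * - hK; positivity))
        have h4 : ρ x = 1 := by
          simp only [hρ]
          rw [min_eq_left h2]
          norm_num
        simp only [h4]; simp) (convex_Icc _ _)
      (show (0 : ℝ) ∈ Icc (-a) a from ⟨by linarith only [hKN], ha0⟩) (show t ∈ Icc (-a) a from abs_le.1 ht)
    rw [zero_mul, norm_le_zero_iff] at this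
    rw [hφ0] at this
    linarith only [this]
  refine ⟨φ, ρ, hφc, hρc, hd, hφ0, fun t => ⟨hρ0 t, hρ1 t⟩, hbd, hlip, fun t ht => ?_⟩
  -- derivative of `φ - id` is between `-1` and `0`
  have hlip2 : ∀ t s, |(φ t - t) - (φ s - s)| ≤ |t - s| := by
    intro t s
    have := Convex.norm_image_sub_le_of_norm_hasDerivWithin_le (f := fun t => φ t - t)
      (f' := fun t => ρ t - 1) (s := univ)
      (C := 1) (fun x _ => ((hd x).sub (hasDerivAt_id' x)).hasDerivWithinAt)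
      (fun x _ => by
        rw [Real.norm_eq_abs, abs_le]
        constructor <;> linarith only [hρ0 x, hρ1 x]) convex_univ
      (mem_univ s) (mem_univ t)
    simpa using this
  rcases le_total (|t|) a with h | h
  · rw [hin t h]; simpa only [sub_self, abs_zero, ge_iff_le] using hKN0.le
  · rcases le_total 0 t with h0 | h0
    · have h1 := hlip2 t a
      rw [hin a (by rw [abs_of_nonneg ha0]), sub_self, sub_zero] at h1
      rw [abs_of_nonneg h0] at h ht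
      rw [abs_of_nonneg (sub_nonneg.2 h)] at h1
      refine h1.trans ?_
      rw [ha]; linarith only [ht]
    · have h1 := hlip2 t (-a)
      rw [hin (-a) (by rw [abs_neg, abs_of_nonneg ha0]), sub_self, sub_zero] at h1
      rw [abs_of_nonpos h0] at h ht
      rw [abs_of_nonpos (show t - -a ≤ 0 by linarith only [h])] at h1
      refine h1.trans ?_
      rw [ha] at *
      linarith only [ht]

end Vale.Agent.P233
end
end

section

section

open MeasureTheory Filter Topology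
open scoped ENNReal NNReal

namespace Vale.Agent.P233

variable {M : Type*} [MeasurableSpace M] {m : Measure M} {C : Calc m}

/-- a pointwise bound from integrated bounds -/
theorem le_const_of_forall {F : M →ₘ[m] ℝ} (hF : MemLp F 1 m) {K : ℝ} (hK : 0 ≤ K)
    (h : ∀ ψ : M →ₘ[m] ℝ, 0 ≤ ψ → MemLp ψ 2 m → MemLp ψ 1 m → MemLp ψ ∞ m →
      I (F * ψ) ≤ K * I ψ) : ∀ᵐ x ∂m, F x ≤ K := by
  have hFint := int_of_mem hF
  have hFm : StronglyMeasurable (F : M → ℝ) := AEEqFun.stronglyMeasurable F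
  have key : ∀ n : ℕ, m {x | K + ((n : ℝ) + 1)⁻¹ < F x} = 0 := by
    intro n
    set ε : ℝ := ((n : ℝ) + 1)⁻¹ with hε
    have hε0 : 0 < ε := by positivity
    set S : Set M := {x | K + ε < F x} with hS
    have hSm : MeasurableSet S := measurableSet_lt measurable_const hFm.measurable
    have hSfin : m S < ∞ := by
      have h1 : S ⊆ {x | ε ≤ ‖F x‖} := by
        intro x hx
        have hx' : K + ε < F x := hx
        show ε ≤ ‖F x‖
        rw [Real.norm_eq_abs]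
        exact le_trans (by linarith only [hK, hx']) (le_abs_self _)
      exact (measure_mono h1).trans_lt (hFint.measure_norm_ge_lt_top hε0)
    have hind : ∀ p : ℝ≥0∞, MemLp (S.indicator (fun _ => (1 : ℝ))) p m := fun p =>
      memLp_indicator_const p hSm 1 (Or.inr hSfin.ne)
    set χ : M →ₘ[m] ℝ := AEEqFun.mk _ (hind 2).1 with hχ
    have hχae := AEEqFun.coeFn_mk _ (hind 2).1
    have hχp : ∀ p : ℝ≥0∞, MemLp χ p m := fun p => (memLp_congr_ae hχae).2 (hind p)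
    have h1 := h χ (by
      rw [nonneg_iff_ae]
      filter_upwards [hχae] with x hx
      rw [hχ, hx]
      exact Set.indicator_nonneg (fun _ _ => zero_le_one) x) (hχp 2) (hχp 1) (hχp ∞)
    have h5 : I (F * χ) = ∫ x in S, F x ∂m := by
      rw [← integral_indicator hSm]
      unfold I
      refine integral_congr_ae ?_
      filter_upwards [mul_ae F χ, hχae] with x a1 a2
      rw [a1, hχ, a2]
      by_cases hx : x ∈ S
      · rw [Set.indicator_of_mem hx, Set.indicator_of_mem hx, mul_one]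
      · rw [Set.indicator_of_notMem hx, Set.indicator_of_notMem hx, mul_zero]
    have h6 : I χ = m.real S := by
      unfold I
      rw [integral_congr_ae hχae, integral_indicator hSm, setIntegral_const, smul_eq_mul, mul_one]
    have h7 : ∫ x in S, (K + ε) ∂m ≤ ∫ x in S, F x ∂m := by
      refine setIntegral_mono_on ?_ hFint.integrableOn hSm fun x hx => le_of_lt hx
      exact integrableOn_const (hs := hSfin.ne)
    rw [setIntegral_const, smul_eq_mul] at h7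
    rw [h5, h6] at h1
    have h8 : m.real S ≤ 0 := by
      have h9 : 0 ≤ m.real S := measureReal_nonneg
      by_contra hcon
      push Not at hcon
      nlinarith only [h1, h7, hε0, hcon]
    exact (measureReal_eq_zero_iff hSfin.ne).1 (le_antisymm h8 measureReal_nonneg)
  have h9 : ∀ᵐ x ∂m, ∀ n : ℕ, ¬ (K + ((n : ℝ) + 1)⁻¹ < F x) := by
    rw [ae_all_iff]
    intro n
    exact measure_eq_zero_iff_ae_notMem.1 (key n)
  filter_upwards [h9] with x hx
  by_contra hcon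
  push Not at hcon
  obtain ⟨n, hn⟩ := exists_nat_one_div_lt (show (0 : ℝ) < F x - K by linarith)
  rw [one_div] at hn
  exact hx n (by linarith)

/-- positivity in `L²` -/
theorem nonneg_of_forall_L2 {F : M →ₘ[m] ℝ} (hF : MemLp F 2 m)
    (h : ∀ ψ : M →ₘ[m] ℝ, 0 ≤ ψ → MemLp ψ 2 m → MemLp ψ ∞ m → 0 ≤ I (F * ψ)) : 0 ≤ F := by
  set θ : ℝ → ℝ := fun t => min (max (-t) 0) 1 with hθ
  have hθc : Continuous θ := by fun_prop
  have hθ0 : ∀ t, 0 ≤ θ t := fun t => le_min (le_max_right _ _) zero_le_one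
  have hθ1 : ∀ t, θ t ≤ 1 := fun t => min_le_right _ _
  have hθle : ∀ t, |θ t| ≤ |t| := by
    intro t
    rw [abs_of_nonneg (hθ0 t)]
    exact (min_le_left _ _).trans (max_le (neg_le_abs t) (abs_nonneg t))
  set ψ := AEEqFun.comp θ hθc F with hψ
  have hψae := AEEqFun.coeFn_comp θ hθc F
  have hψ0 : 0 ≤ ψ := by
    rw [nonneg_iff_ae]
    filter_upwards [hψae] with x hx
    rw [hx]; exact hθ0 _
  have hψ2 : MemLp ψ 2 m := mem_of_le hF (by
    filter_upwards [hψae] with x hx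
    rw [hx]; exact hθle _)
  have hψt : MemLp ψ ∞ m := mem_top_iff.2 ⟨1, by
    filter_upwards [hψae] with x hx
    rw [hx, Function.comp_apply, abs_of_nonneg (hθ0 _)]; exact hθ1 _⟩
  have h1 := h ψ hψ0 hψ2 hψt
  have hprod : ∀ t : ℝ, 0 ≤ -(t * θ t) := by
    intro t
    rcases le_total 0 t with ht | ht
    · have : θ t = 0 := by
        simp only [hθ]
        rw [max_eq_right (by linarith)]
        norm_num
      rw [this]; simp
    · nlinarith only [ht, hθ0 t]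
  have h2 : 0 ≤ -(F * ψ) := by
    rw [nonneg_iff_ae]
    filter_upwards [neg_ae (F * ψ), mul_ae F ψ, hψae] with x a1 a2 a3
    rw [a1, a2, a3]
    exact hprod _
  have h3 : -(F * ψ) = 0 := I_eq_zero_of_nonneg (mem_neg (mem_mul_22 hF hψ2)) h2 (by
    refine le_antisymm ?_ (I_nonneg h2)
    rw [I_neg]; linarith)
  rw [nonneg_iff_ae]
  filter_upwards [eq_iff_ae.1 h3, neg_ae (F * ψ), mul_ae F ψ, hψae, zero_ae (M := M) (m := m)]
    with x a0 a1 a2 a3 a4
  by_contra hcon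
  push Not at hcon
  rw [a1, a2, a3, a4] at a0
  have h4 : 0 < θ (F x) := by
    simp only [hθ]
    exact lt_min (lt_max_of_lt_left (by linarith)) one_pos
  have h5 : 0 < -(F x * θ (F x)) := by nlinarith only [hcon, h4]
  simp only [Function.comp_apply] at a0
  linarith only [a0, h5]

namespace IsGamma

variable (hC : IsGamma C) {κ : ℝ} (hB : C.BE κ 2)
variable {f g h φ ψ : M →ₘ[m] ℝ}

section basic
include hC

theorem mem_test_iff : f ∈ C.Test ↔
    f ∈ C.W ∧ MemLp f ∞ m ∧ MemLp (C.Γ f f) ∞ m ∧ ∃ h, C.IsLap f h ∧ h ∈ C.W := by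
  constructor
  · rintro ⟨h1, h, h2, h3⟩
    have h4 := (hC.lip_iff f h2.1).1 h1
    exact ⟨h2.1, h4.1, h4.2, h, h2, h3⟩
  · rintro ⟨h1, h2, h3, h4⟩
    exact ⟨(hC.lip_iff f h1).2 ⟨h2, h3⟩, h4⟩

theorem test_A (hf : f ∈ C.Test) : f ∈ C.A := by
  have h := hC.mem_test_iff.1 hf
  exact ⟨h.1, h.2.1⟩

theorem test_Γ_top (hf : f ∈ C.Test) : MemLp (C.Γ f f) ∞ m :=
  (hC.mem_test_iff.1 hf).2.2.1

theorem test_isLap (hf : f ∈ C.Test) : C.IsLap f (C.lap f) := by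
  obtain ⟨h, h1, h2⟩ := (hC.mem_test_iff.1 hf).2.2.2
  rw [hC.toIsDir.lap_eq h1]
  exact h1

theorem test_lap_mem (hf : f ∈ C.Test) : C.lap f ∈ C.W := by
  obtain ⟨h, h1, h2⟩ := (hC.mem_test_iff.1 hf).2.2.2
  rw [hC.toIsDir.lap_eq h1]
  exact h2

theorem test_add' (hf : f ∈ C.Test) (hg : g ∈ C.Test) : f + g ∈ C.Test := by
  rw [hC.mem_test_iff]
  have hD := hC.toIsDir
  obtain ⟨f1, f2, f3, hf', f4, f5⟩ := hC.mem_test_iff.1 hf
  obtain ⟨g1, g2, g3, hg', g4, g5⟩ := hC.mem_test_iff.1 hg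
  refine ⟨hD.add_mem f f1 g g1, mem_add f2 g2, ?_, hf' + hg', hD.isLap_add f4 g4,
    hD.add_mem _ f5 _ g5⟩
  have h1 := hD.Γ_expand 1 f1 g1
  rw [one_smul, mul_one, one_pow, one_smul] at h1
  rw [h1]
  exact mem_add (mem_add f3 (mem_smul _ (hD.Γ_memTop f1 f3 g1 g3))) g3

theorem test_zero' : (0 : M →ₘ[m] ℝ) ∈ C.Test := by
  rw [hC.mem_test_iff]
  have hD := hC.toIsDir
  refine ⟨hD.zero_mem, mem_zero, ?_, 0, ⟨hD.zero_mem, mem_zero, fun g hg => ?_⟩, hD.zero_mem⟩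
  · rw [hD.Γ_zero_left hD.zero_mem]; exact mem_zero
  · show I (C.Γ 0 g) = -I (0 * g)
    rw [hD.Γ_zero_left hg, zero_mul, I_zero, neg_zero]

end basic

/-- the bracket in the Bochner inequality is integrable -/
theorem bracket_mem (hC : IsGamma C) (κ : ℝ) (hf : f ∈ C.W) (hh : h ∈ C.W) :
    MemLp (C.Γ f h + κ • C.Γ f f + (2 : ℝ)⁻¹ • h ^ 2 : M →ₘ[m] ℝ) 1 m :=
  mem_add (mem_add (hC.toIsDir.Γ_mem1 hf hh) (mem_smul _ (hC.mem1 f hf)))
    (mem_smul _ (mem_sq (hC.memLp h hh)))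

include hB in
theorem be (hfh : C.IsLap f h) (hh : h ∈ C.W) (hφψ : C.IsLap φ ψ) (h0 : 0 ≤ φ)
    (hφ : MemLp φ ∞ m) (hψ : MemLp ψ ∞ m) :
    I (φ * (C.Γ f h + κ • C.Γ f f + (2 : ℝ)⁻¹ • h ^ 2)) ≤ (2 : ℝ)⁻¹ * I (C.Γ f f * ψ) := by
  rw [← I_smul]
  exact hB f h φ ψ hfh hh hφψ h0 hφ hψ

include hC hB

/-- the resolvent maps bounded Lipschitz functions to test functions, for small `lam` -/
theorem J_test [SigmaFinite m] {lam : ℝ} (hl : 0 < lam) (hl2 : 0 < 1 + 2 * lam * κ)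
    (hf : f ∈ C.A) (hf' : MemLp (C.Γ f f) ∞ m) : C.J lam f ∈ C.Test := by
  have hD := hC.toIsDir
  have hf2 := hC.memLp f hf.1
  obtain ⟨K, hK⟩ := mem_top_iff.1 hf.2
  obtain ⟨L, hL⟩ := mem_top_iff.1 hf'
  have hLap := hD.J_isLap hl hf2
  set u := C.J lam f with hu
  set h := lam⁻¹ • (u - f) with hh
  have huW : u ∈ C.W := hLap.1
  have hhW : h ∈ C.W := hD.smul_mem _ _ (hD.sub_mem huW hf.1)
  rw [hC.mem_test_iff]
  refine ⟨huW, mem_top_iff.2 ⟨K, hD.J_bdd hl hf2 hK⟩, ?_, h, hLap, hhW⟩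
  -- the gradient bound
  set μ : ℝ := lam⁻¹ + 2 * κ with hμ
  have hμ0 : 0 < μ := by
    have : μ = (1 + 2 * lam * κ) / lam := by rw [hμ]; (clear * - hl; field_simp)
    rw [this]; (clear * - hl2 hl; positivity)
  have hμl : 0 < lam * μ := mul_pos hl hμ0
  have key : ∀ᵐ x ∂m, C.Γ u u x ≤ |L| / (lam * μ) := by
    refine le_const_of_forall (hC.mem1 u huW) (by (clear * - hl hμ0; positivity)) fun ψ₀ h0 h2 h1 ht => ?_
    -- the test function
    have hμi : 0 < μ⁻¹ := inv_pos.2 hμ0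
    have hwLap := hD.J_isLap hμi h2
    have hw0 := hD.J_nonneg hμi h2 h0
    obtain ⟨B, hB0⟩ := mem_top_iff.1 ht
    have hwb := hD.J_bdd hμi h2 hB0
    have hw1 := hD.J_L1 hμi h2 h1 h0
    set w := C.J μ⁻¹ ψ₀ with hw
    rw [inv_inv] at hwLap
    have hwt : MemLp w ∞ m := mem_top_iff.2 ⟨B, hwb⟩
    have hφLap := hD.isLap_smul μ⁻¹ hwLap
    have e1 : μ⁻¹ • μ • (w - ψ₀) = w - ψ₀ := by
      rw [smul_smul, inv_mul_cancel₀ hμ0.ne', one_smul]
    rw [e1] at hφLap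
    have hbe := be hB hLap hhW hφLap (smul_nonneg' hμi.le hw0) (mem_smul _ hwt) (mem_sub hwt ht)
    -- lower bound of the left hand side
    have hΓuu := hC.mem1 u huW
    have hΓff := hC.mem1 f hf.1
    have hlow : I (μ⁻¹ • w * ((μ / 2) • C.Γ u u - (lam⁻¹ / 2) • C.Γ f f)) ≤
        I (μ⁻¹ • w * (C.Γ u h + κ • C.Γ u u + (2 : ℝ)⁻¹ • h ^ 2)) := by
      refine I_mono (mem_mul_top (mem_smul _ hwt) (mem_sub (mem_smul _ hΓuu) (mem_smul _ hΓff)))
        (mem_mul_top (mem_smul _ hwt) (hC.bracket_mem κ huW hhW)) ?_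
      refine mul_le_mul_of_nonneg_left ?_ (smul_nonneg' hμi.le hw0)
      have e2 : C.Γ u h = lam⁻¹ • (C.Γ u u - C.Γ u f) := by
        rw [hh, hD.Γ_smul_right _ huW (hD.sub_mem huW hf.1), hD.Γ_sub_right huW huW hf.1]
      rw [le_iff_ae, e2]
      have hnn := hC.nonneg _ (hD.sub_mem huW hf.1)
      rw [hD.Γ_sub_left huW hf.1 (hD.sub_mem huW hf.1), hD.Γ_sub_right huW huW hf.1,
        hD.Γ_sub_right hf.1 huW hf.1, hD.symm f hf.1 u huW, nonneg_iff_ae] at hnn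
      filter_upwards [hnn, sub_ae (C.Γ u u - C.Γ u f) (C.Γ u f - C.Γ f f),
        sub_ae (C.Γ u u) (C.Γ u f), sub_ae (C.Γ u f) (C.Γ f f),
        sub_ae ((μ / 2) • C.Γ u u) ((lam⁻¹ / 2) • C.Γ f f), smul_ae (C.Γ u u) (μ / 2),
        smul_ae (C.Γ f f) (lam⁻¹ / 2),
        add_ae (lam⁻¹ • (C.Γ u u - C.Γ u f) + κ • C.Γ u u) ((2 : ℝ)⁻¹ • h ^ 2),
        add_ae (lam⁻¹ • (C.Γ u u - C.Γ u f)) (κ • C.Γ u u),
        smul_ae (C.Γ u u - C.Γ u f) lam⁻¹, smul_ae (C.Γ u u) κ, smul_ae (h ^ 2) (2 : ℝ)⁻¹,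
        sq_ae h] with x a1 a2 a3 a4 a5 a6 a7 a8 a9 a10 a11 a12 a13
      rw [a2, a3, a4] at a1
      rw [a5, a6, a7, a8, a9, a10, a11, a12, a13, a3]
      have hli : 0 < lam⁻¹ := inv_pos.2 hl
      rw [hμ]
      nlinarith only [hli, a1]
    have hlow2 : I (μ⁻¹ • w * ((μ / 2) • C.Γ u u - (lam⁻¹ / 2) • C.Γ f f)) =
        (2 : ℝ)⁻¹ * I (w * C.Γ u u) - (μ⁻¹ * (lam⁻¹ / 2)) * I (w * C.Γ f f) := by
      have e3 : μ⁻¹ • w * ((μ / 2) • C.Γ u u - (lam⁻¹ / 2) • C.Γ f f) =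
          (2 : ℝ)⁻¹ • (w * C.Γ u u) - (μ⁻¹ * (lam⁻¹ / 2)) • (w * C.Γ f f) := by
        rw [mul_sub, smul_mul_smul_comm, smul_mul_smul_comm]
        congr 2
        (clear * - hμ0; field_simp)
      rw [e3, I_sub (mem_smul _ (mem_mul_top hwt hΓuu)) (mem_smul _ (mem_mul_top hwt hΓff)),
        I_smul, I_smul]
    have hR : I (C.Γ u u * (w - ψ₀)) = I (w * C.Γ u u) - I (C.Γ u u * ψ₀) := by
      rw [mul_sub, mul_comm (C.Γ u u) w, I_sub (mem_mul_top hwt hΓuu) (mem_top_mul hΓuu ht)]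
    have h3 : I (w * C.Γ f f) ≤ |L| * I ψ₀ := by
      calc I (w * C.Γ f f) ≤ I (|L| • w) := by
            refine I_mono (mem_mul_top hwt hΓff) (mem_smul _ hw1.1) ?_
            rw [le_iff_ae]
            filter_upwards [mul_ae w (C.Γ f f), smul_ae w |L|, nonneg_iff_ae.1 hw0, hL]
              with x a1 a2 a3 a4
            rw [a1, a2, mul_comm (|L|)]
            exact mul_le_mul_of_nonneg_left (((le_abs_self _).trans a4).trans (le_abs_self L)) a3
        _ = |L| * I w := I_smul _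
        _ ≤ |L| * I ψ₀ := mul_le_mul_of_nonneg_left hw1.2 (abs_nonneg L)
    have h4 : (2 : ℝ)⁻¹ * I (C.Γ u u * ψ₀) ≤ (μ⁻¹ * (lam⁻¹ / 2)) * I (w * C.Γ f f) := by
      rw [hlow2] at hlow
      rw [hR] at hbe
      linarith only [hbe, hlow]
    have h5 : (μ⁻¹ * (lam⁻¹ / 2)) * I (w * C.Γ f f) ≤ (μ⁻¹ * (lam⁻¹ / 2)) * (|L| * I ψ₀) :=
      mul_le_mul_of_nonneg_left h3 (by (clear * - hμ0 hl; positivity))
    have h6 : |L| / (lam * μ) * I ψ₀ = 2 * ((μ⁻¹ * (lam⁻¹ / 2)) * (|L| * I ψ₀)) := by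
      (clear * - hμ0 hl; field_simp)
    rw [h6]
    linarith only [hbe, hlow, hlow2, hR, h5]
  rw [mem_top_iff]
  refine ⟨|L| / (lam * μ), ?_⟩
  filter_upwards [key, hD.Γ_nonneg_ae huW] with x h1 h2
  rwa [abs_of_nonneg h2]

omit hC hB in
/-- `1 + 2 lam κ > 0` for small `lam` -/
theorem exists_small (κ : ℝ) : ∃ N : ℕ, ∀ n ≥ N, 0 < 1 + 2 * ((n : ℝ) + 1)⁻¹ * κ := by
  obtain ⟨N, hN⟩ := exists_nat_ge (2 * |κ|)
  refine ⟨N, fun n hn => ?_⟩
  have h1 : (N : ℝ) ≤ n := by exact_mod_cast hn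
  have h2 : (0 : ℝ) < (n : ℝ) + 1 := by positivity
  have h3 : 0 < ((n : ℝ) + 1 + 2 * κ) / ((n : ℝ) + 1) := by
    apply div_pos _ h2
    linarith only [hN, h1, neg_abs_le κ]
  have h4 : 1 + 2 * ((n : ℝ) + 1)⁻¹ * κ = ((n : ℝ) + 1 + 2 * κ) / ((n : ℝ) + 1) := by
    field_simp
  rw [h4]; exact h3

theorem test_dense [SigmaFinite m] (hf : f ∈ C.W) {ε : ℝ} (hε : 0 < ε) :
    ∃ g ∈ C.Test, C.nrm2 (g - f) < ε := by
  have hD := hC.toIsDir
  obtain ⟨g, hg1, hg2, hg3, hg4⟩ := hC.dense_lip f hf (ε / 4) (by positivity)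
  obtain ⟨N, hN⟩ := exists_small κ
  have h1 := hD.J_tendsto_W hg1
  obtain ⟨n, hn1, hn2⟩ := ((h1.eventually (gt_mem_nhds (show (0 : ℝ) < ε / 4 by positivity))).and
    (eventually_ge_atTop N)).exists
  have hl : (0 : ℝ) < ((n : ℝ) + 1)⁻¹ := by positivity
  have hJ := hC.J_test hB hl (hN n hn2) ⟨hg1, hg2⟩ hg3
  refine ⟨_, hJ, ?_⟩
  have hJW := (hC.test_A hJ).1
  have h2 := hD.nrm2_add_le (hD.sub_mem hJW hg1) (hD.sub_mem hg1 hf)
  have e : C.J ((n : ℝ) + 1)⁻¹ g - g + (g - f) = C.J ((n : ℝ) + 1)⁻¹ g - f := by abel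
  rw [e, hD.nrm2_sub_comm hg1 hf] at h2
  linarith only [hg4, hn1, h2]

/-- bounded `L²` functions are limits of uniformly bounded test functions -/
theorem test_dense_bdd [SigmaFinite m] (hf : MemLp f 2 m) {K : ℝ} (hK : ∀ᵐ x ∂m, |f x| ≤ K) :
    ∃ u : ℕ → M →ₘ[m] ℝ, (∀ n, u n ∈ C.Test) ∧ (∀ n, ∀ᵐ x ∂m, |u n x| ≤ K) ∧
      (∀ᵐ x ∂m, Tendsto (fun n => u n x) atTop (𝓝 (f x))) ∧
      Tendsto (fun n => I ((u n - f) ^ 2)) atTop (𝓝 0) := by
  have hD := hC.toIsDir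
  rcases le_or_gt K 0 with hK0 | hK0
  · -- trivial case
    have hf0 : f = 0 := by
      rw [eq_iff_ae]
      filter_upwards [hK, zero_ae (M := M) (m := m)] with x a1 a2
      rw [a2]
      exact abs_eq_zero.1 (le_antisymm (a1.trans hK0) (abs_nonneg _))
    refine ⟨fun _ => 0, fun _ => hC.test_zero', fun _ => ?_, ?_, ?_⟩
    · filter_upwards [hK, zero_ae (M := M) (m := m)] with x a1 a2
      rw [a2, abs_zero]
      exact (abs_nonneg _).trans a1
    · rw [hf0]; filter_upwards with x; exact tendsto_const_nhds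
    · rw [hf0]
      have e : ((0 : M →ₘ[m] ℝ) - 0) ^ 2 = 0 := by ring
      simp only [e, I_zero]
      exact tendsto_const_nhds
  -- Lipschitz approximations
  have hex : ∀ k : ℕ, ∃ g ∈ C.W, MemLp g ∞ m ∧ MemLp (C.Γ g g) ∞ m ∧
      I ((g - f) ^ 2) < ((k : ℝ) + 1)⁻¹ := by
    intro k
    have hk : (0 : ℝ) < ((k : ℝ) + 1)⁻¹ := by positivity
    obtain ⟨g1, h1, h2⟩ := hC.dense_L2 f hf (((k : ℝ) + 1)⁻¹ / 4) (by positivity)
    obtain ⟨g2, h3, h4, h5, h6⟩ := hC.dense_lip g1 h1 (((k : ℝ) + 1)⁻¹ / 4) (by positivity)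
    refine ⟨g2, h3, h4, h5, ?_⟩
    have h7 := I_sq_add_le (mem_sub (hC.memLp g1 h1) (hC.memLp g2 h3))
      (mem_sub hf (hC.memLp g1 h1))
    have e1 : (g1 - g2 + (f - g1)) ^ 2 = (g2 - f) ^ 2 := by ring
    rw [e1] at h7
    have h8 := hD.I_sq_le_nrm2 (hD.sub_mem h1 h3)
    linarith only [h2, h6, h7, h8]
  choose g hg1 hg2 hg3 hg4 using hex
  choose φ φ' hφc hφ'c hφd hφ0 hφ'b hφb hφl hφi using fun k : ℕ => exists_clamp hK0 k
  have hch := fun k => hC.chain (g k) (hg1 k) (φ k) (φ' k) (hφc k) (hφ'c k) (hφd k) (hφ0 k)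
    ⟨1, fun t => by rw [abs_of_nonneg (hφ'b k t).1]; exact (hφ'b k t).2⟩
  set v : ℕ → M →ₘ[m] ℝ := fun k => AEEqFun.comp (φ k) (hφc k) (g k) with hv
  have hvae : ∀ k, ⇑(v k) =ᵐ[m] fun x => φ k (g k x) := fun k =>
    AEEqFun.coeFn_comp (φ k) (hφc k) (g k)
  have hvW : ∀ k, v k ∈ C.W := fun k => (hch k).1
  have hvK : ∀ k, ∀ᵐ x ∂m, |v k x| ≤ K := by
    intro k
    filter_upwards [hvae k] with x hx
    rw [hx]; exact hφb k _
  have hvA : ∀ k, v k ∈ C.A := fun k => ⟨hvW k, mem_top_iff.2 ⟨K, hvK k⟩⟩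
  have hv2 : ∀ k, MemLp (v k) 2 m := fun k => hC.memLp _ (hvW k)
  have hvΓ : ∀ k, MemLp (C.Γ (v k) (v k)) ∞ m := by
    intro k
    have e1 : C.Γ (v k) (v k) = AEEqFun.comp (φ' k) (hφ'c k) (g k) *
        (AEEqFun.comp (φ' k) (hφ'c k) (g k) * C.Γ (g k) (g k)) := by
      rw [(hch k).2 (v k) (hvW k), hD.symm (g k) (hg1 k) (v k) (hvW k),
        (hch k).2 (g k) (hg1 k)]
    have h1 : MemLp (AEEqFun.comp (φ' k) (hφ'c k) (g k)) ∞ m := by
      rw [mem_top_iff]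
      refine ⟨1, ?_⟩
      filter_upwards [AEEqFun.coeFn_comp (φ' k) (hφ'c k) (g k)] with x hx
      rw [hx, Function.comp_apply, abs_of_nonneg (hφ'b k _).1]
      exact (hφ'b k _).2
    rw [e1]
    exact mem_mul_top h1 (mem_mul_top h1 (hg3 k))
  -- `v k → f` in `L²`
  have hinv : Tendsto (fun k : ℕ => ((k : ℝ) + 1)⁻¹) atTop (𝓝 0) := tendsto_inv_succ
  have hvf : Tendsto (fun k => I ((v k - f) ^ 2)) atTop (𝓝 0) := by
    -- intermediate functions
    set w : ℕ → M →ₘ[m] ℝ := fun k => AEEqFun.comp (φ k) (hφc k) f with hw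
    have hwae : ∀ k, ⇑(w k) =ᵐ[m] fun x => φ k (f x) := fun k =>
      AEEqFun.coeFn_comp (φ k) (hφc k) f
    have hwle : ∀ k, ∀ᵐ x ∂m, |w k x| ≤ |f x| := by
      intro k
      filter_upwards [hwae k] with x hx
      rw [hx]
      have := hφl k (f x) 0
      rwa [hφ0, sub_zero, sub_zero] at this
    have hw2 : ∀ k, MemLp (w k) 2 m := fun k => mem_of_le hf (hwle k)
    have l1 : Tendsto (fun k => I ((w k - f) ^ 2)) atTop (𝓝 (I (0 : M →ₘ[m] ℝ))) := by
      refine I_tendsto_of_dominated (G := fun x => 4 * f x ^ 2)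
        ((int_of_mem (mem_sq hf)).congr (sq_ae f) |>.const_mul 4) (fun n => ?_) ?_
      · filter_upwards [sq_ae (w n - f), sub_ae (w n) f, hwle n] with x h1 h2 h3
        rw [h1, h2, abs_of_nonneg (sq_nonneg _)]
        have h4 : |w n x - f x| ≤ 2 * |f x| := by
          calc |w n x - f x| ≤ |w n x| + |f x| := abs_sub _ _
            _ ≤ 2 * |f x| := by linarith
        calc (w n x - f x) ^ 2 = |w n x - f x| ^ 2 := (sq_abs _).symm
          _ ≤ (2 * |f x|) ^ 2 := by (clear * - h4; gcongr)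
          _ = 4 * f x ^ 2 := by rw [mul_pow, sq_abs]; ring
      · filter_upwards [ae_all_iff.2 fun n => sq_ae (w n - f), ae_all_iff.2 fun n => sub_ae (w n) f,
          ae_all_iff.2 hwae, hK, zero_ae (M := M) (m := m)] with x h1 h2 h3 h4 h5
        simp_rw [h1, h2, h3, h5]
        have h6 : Tendsto (fun k : ℕ => |φ k (f x) - f x|) atTop (𝓝 0) := by
          refine squeeze_zero (fun k => abs_nonneg _) (fun k => hφi k (f x) h4) ?_
          exact tendsto_div_succ K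
        have h7 := h6.pow 2
        simpa [sq_abs] using h7
    rw [I_zero] at l1
    have l2 : Tendsto (fun k : ℕ => 2 * ((k : ℝ) + 1)⁻¹ + 2 * I ((w k - f) ^ 2)) atTop (𝓝 0) := by
      simpa only [mul_zero, add_zero] using (hinv.const_mul 2).add (l1.const_mul 2)
    refine squeeze_zero (fun k => I_sq_nonneg _) (fun k => ?_) l2
    have h1 := I_sq_add_le (mem_sub (hv2 k) (hw2 k)) (mem_sub (hw2 k) hf)
    have e1 : v k - w k + (w k - f) = v k - f := by abel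
    rw [e1] at h1
    have h2 : I ((v k - w k) ^ 2) ≤ I ((g k - f) ^ 2) := by
      refine I_mono (mem_sq (mem_sub (hv2 k) (hw2 k)))
        (mem_sq (mem_sub (hC.memLp _ (hg1 k)) hf)) ?_
      rw [le_iff_ae]
      filter_upwards [sq_ae (v k - w k), sub_ae (v k) (w k), hvae k, hwae k, sq_ae (g k - f),
        sub_ae (g k) f] with x a1 a2 a3 a4 a5 a6
      rw [a1, a2, a3, a4, a5, a6]
      exact sq_le_sq.2 (hφl k _ _)
    linarith only [h1, h2, (hg4 k).le]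
  -- apply the resolvent
  obtain ⟨N, hN⟩ := exists_small κ
  have hl : ∀ n : ℕ, (0 : ℝ) < ((n : ℝ) + 1)⁻¹ := fun n => by (clear * -; positivity)
  set u : ℕ → M →ₘ[m] ℝ := fun k => C.J (((k + N : ℕ) : ℝ) + 1)⁻¹ (v k) with hu
  have huT : ∀ k, u k ∈ C.Test := fun k =>
    hC.J_test hB (hl (k + N)) (hN (k + N) (Nat.le_add_left _ _)) (hvA k) (hvΓ k)
  have huK : ∀ k, ∀ᵐ x ∂m, |u k x| ≤ K := fun k => hD.J_bdd (hl (k + N)) (hv2 k) (hvK k)
  have hu2 : ∀ k, MemLp (u k) 2 m := fun k => hC.memLp _ (hC.test_A (huT k)).1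
  have huf : Tendsto (fun k => I ((u k - f) ^ 2)) atTop (𝓝 0) := by
    have l1 : Tendsto (fun k : ℕ => I ((C.J (((k + N : ℕ) : ℝ) + 1)⁻¹ f - f) ^ 2)) atTop (𝓝 0) :=
      (hD.J_tendsto_L2 hf).comp (tendsto_add_atTop_nat N)
    have l2 : Tendsto (fun k : ℕ => 2 * I ((v k - f) ^ 2) +
        2 * I ((C.J (((k + N : ℕ) : ℝ) + 1)⁻¹ f - f) ^ 2)) atTop (𝓝 0) := by
      simpa only [Nat.cast_add, mul_zero, add_zero] using (hvf.const_mul 2).add (l1.const_mul 2)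
    refine squeeze_zero (fun k => I_sq_nonneg _) (fun k => ?_) l2
    have h1 := hD.J_sq_le (hl (k + N)) (mem_sub (hv2 k) hf)
    rw [hD.J_sub (hl (k + N)) (hv2 k) hf] at h1
    have hJf : MemLp (C.J (((k + N : ℕ) : ℝ) + 1)⁻¹ f) 2 m := hD.J_mem2 (hl (k + N)) hf
    have h2 := I_sq_add_le (mem_sub (hu2 k) hJf) (mem_sub hJf hf)
    have e1 : u k - C.J (((k + N : ℕ) : ℝ) + 1)⁻¹ f + (C.J (((k + N : ℕ) : ℝ) + 1)⁻¹ f - f) =
        u k - f := by abel
    rw [e1] at h2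
    have h3 : I ((u k - C.J (((k + N : ℕ) : ℝ) + 1)⁻¹ f) ^ 2) ≤ I ((v k - f) ^ 2) := h1
    linarith only [h1, h2]
  obtain ⟨ns, hns, hae⟩ := exists_subseq_of_I_sq hu2 hf huf
  exact ⟨fun k => u (ns k), fun k => huT _, fun k => huK _, hae, huf.comp hns.tendsto_atTop⟩

/-- fundamental lemma with test functions -/
theorem eq_zero_of_forall_test [SigmaFinite m] {F : M →ₘ[m] ℝ} (hF : MemLp F 1 m)
    (h : ∀ s ∈ C.Test, I (s * F) = 0) : F = 0 := by
  have hD := hC.toIsDir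
  refine hD.eq_zero_of_forall hF fun s hs => ?_
  obtain ⟨K, hK⟩ := mem_top_iff.1 hs.2
  obtain ⟨u, h1, h2, h3, h4⟩ := hC.test_dense_bdd hB (hC.memLp s hs.1) hK
  have hlim : Tendsto (fun n => I (u n * F)) atTop (𝓝 (I (s * F))) := by
    refine I_tendsto_of_dominated (G := fun x => K * |F x|) ((int_of_mem hF).abs.const_mul K)
      (fun n => ?_) ?_
    · filter_upwards [mul_ae (u n) F, h2 n] with x a1 a2
      rw [a1, abs_mul]
      exact mul_le_mul_of_nonneg_right a2 (abs_nonneg _)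
    · filter_upwards [ae_all_iff.2 fun n => mul_ae (u n) F, mul_ae s F, h3] with x a1 a2 a3
      simp_rw [a1, a2]
      exact a3.mul_const _
  simp_rw [fun n => h (u n) (h1 n)] at hlim
  exact tendsto_nhds_unique hlim tendsto_const_nhds

/-- Savare's regularity -/
theorem Γ_self_mem (hf : f ∈ C.Test) : C.Γ f f ∈ C.W := by
  have hD := hC.toIsDir
  have hfA := hC.test_A hf
  have hfΓ := hC.test_Γ_top hf
  have hfL := hC.test_isLap hf
  have hfLW := hC.test_lap_mem hf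
  set v := C.Γ f f with hv
  have hv0 : 0 ≤ v := hC.nonneg f hfA.1
  have hv2 : MemLp v 2 m := hD.Γ_mem2 hfA.1 hfΓ hfA.1
  set g0 : M →ₘ[m] ℝ := (2 : ℝ) • (C.Γ f (C.lap f) + κ • v) with hg0
  have hg02 : MemLp g0 2 m := mem_smul _ (mem_add (hD.Γ_mem2 hfA.1 hfΓ hfLW) (mem_smul _ hv2))
  -- the basic inequality
  have hstar : ∀ φ ψ : M →ₘ[m] ℝ, C.IsLap φ ψ → 0 ≤ φ → MemLp φ ∞ m → MemLp ψ ∞ m →
      I (φ * g0) ≤ I (v * ψ) := by
    intro φ ψ h1 h2 h3 h4
    have h5 := be hB hfL hfLW h1 h2 h3 h4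
    have hφ2 := hC.memLp φ h1.1
    have h6 : (2 : ℝ)⁻¹ * I (φ * g0) ≤
        I (φ * (C.Γ f (C.lap f) + κ • v + (2 : ℝ)⁻¹ • C.lap f ^ 2)) := by
      rw [← I_smul]
      refine I_mono (mem_smul _ (mem_mul_22 hφ2 hg02))
        (mem_mul_top h3 (hC.bracket_mem κ hfA.1 hfLW)) ?_
      have e1 : (2 : ℝ)⁻¹ • (φ * g0) = φ * (C.Γ f (C.lap f) + κ • v) := by
        rw [hg0, mul_smul_comm, smul_smul]
        norm_num
      rw [e1]
      refine mul_le_mul_of_nonneg_left ?_ h2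
      rw [le_add_iff_nonneg_right]
      exact smul_nonneg' (by norm_num) (sq_nonneg' _)
    linarith only [h5, h6]
  obtain ⟨B, hBv⟩ := mem_top_iff.1 hfΓ
  have hl : ∀ n : ℕ, (0 : ℝ) < ((n : ℝ) + 1)⁻¹ := fun n => by (clear * -; positivity)
  -- the Laplacian of the regularizations
  have hlow : ∀ n : ℕ, C.J ((n : ℝ) + 1)⁻¹ g0 ≤
      (((n : ℝ) + 1)⁻¹)⁻¹ • (C.J ((n : ℝ) + 1)⁻¹ v - v) := by
    intro n
    rw [← sub_nonneg]
    have hJv2 := hD.J_mem2 (hl n) hv2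
    have hJg2 := hD.J_mem2 (hl n) hg02
    have hm : MemLp ((((n : ℝ) + 1)⁻¹)⁻¹ • (C.J ((n : ℝ) + 1)⁻¹ v - v) : M →ₘ[m] ℝ) 2 m :=
      mem_smul _ (mem_sub hJv2 hv2)
    refine nonneg_of_forall_L2 (mem_sub hm hJg2) fun ψ h0 h2 ht => ?_
    have hJψ2 := hD.J_mem2 (hl n) h2
    have hJψ0 := hD.J_nonneg (hl n) h2 h0
    obtain ⟨D, hDψ⟩ := mem_top_iff.1 ht
    have hJψt : MemLp (C.J ((n : ℝ) + 1)⁻¹ ψ) ∞ m := mem_top_iff.2 ⟨D, hD.J_bdd (hl n) h2 hDψ⟩
    have h3 := hstar _ _ (hD.J_isLap (hl n) h2) hJψ0 hJψt (mem_smul _ (mem_sub hJψt ht))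
    rw [sub_mul, I_sub (mem_mul_22 hm h2) (mem_mul_22 hJg2 h2), smul_mul_assoc, I_smul, sub_mul,
      I_sub (mem_mul_22 hJv2 h2) (mem_mul_22 hv2 h2), hD.J_symm (hl n) hv2 h2,
      hD.J_symm (hl n) hg02 h2]
    have e2 : v * ((((n : ℝ) + 1)⁻¹)⁻¹ • (C.J ((n : ℝ) + 1)⁻¹ ψ - ψ)) =
        (((n : ℝ) + 1)⁻¹)⁻¹ • (v * C.J ((n : ℝ) + 1)⁻¹ ψ - v * ψ) := by
      rw [mul_smul_comm, mul_sub]
    rw [e2, I_smul, I_sub (mem_mul_22 hv2 hJψ2) (mem_mul_22 hv2 h2),
      mul_comm (C.J ((n : ℝ) + 1)⁻¹ ψ) g0] at h3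
    linarith only [h3]
  have hbound : ∀ n : ℕ, I (C.Γ (C.J ((n : ℝ) + 1)⁻¹ v) (C.J ((n : ℝ) + 1)⁻¹ v)) ≤
      Real.sqrt (I (v ^ 2)) * Real.sqrt (I (g0 ^ 2)) := by
    intro n
    have hJv2 := hD.J_mem2 (hl n) hv2
    have hJg2 := hD.J_mem2 (hl n) hg02
    have hJvW := hD.J_mem (hl n) hv2
    have hJv0 := hD.J_nonneg (hl n) hv2 hv0
    have hLap := hD.J_isLap (hl n) hv2
    have h1 : I (C.Γ (C.J ((n : ℝ) + 1)⁻¹ v) (C.J ((n : ℝ) + 1)⁻¹ v)) =
        -I ((((n : ℝ) + 1)⁻¹)⁻¹ • (C.J ((n : ℝ) + 1)⁻¹ v - v) * C.J ((n : ℝ) + 1)⁻¹ v) :=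
      hLap.2.2 _ hJvW
    have h2 : I (C.J ((n : ℝ) + 1)⁻¹ g0 * C.J ((n : ℝ) + 1)⁻¹ v) ≤
        I ((((n : ℝ) + 1)⁻¹)⁻¹ • (C.J ((n : ℝ) + 1)⁻¹ v - v) * C.J ((n : ℝ) + 1)⁻¹ v) :=
      I_mono (mem_mul_22 hJg2 hJv2) (mem_mul_22 hLap.2.1 hJv2)
        (mul_le_mul_of_nonneg_right (hlow n) hJv0)
    have h3 := I_abs_le hJg2 hJv2
    have h4 := Real.sqrt_le_sqrt (hD.J_sq_le (hl n) hv2)
    have h5 := Real.sqrt_le_sqrt (hD.J_sq_le (hl n) hg02)
    have h6 := neg_abs_le (I (C.J ((n : ℝ) + 1)⁻¹ g0 * C.J ((n : ℝ) + 1)⁻¹ v))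
    have h7 : Real.sqrt (I (C.J ((n : ℝ) + 1)⁻¹ g0 ^ 2)) * Real.sqrt (I (C.J ((n : ℝ) + 1)⁻¹ v ^ 2))
        ≤ Real.sqrt (I (g0 ^ 2)) * Real.sqrt (I (v ^ 2)) :=
      mul_le_mul h5 h4 (Real.sqrt_nonneg _) (Real.sqrt_nonneg _)
    rw [mul_comm (Real.sqrt (I (v ^ 2)))]
    linarith only [h1, h2, h3, h6, h7]
  exact (hD.mem_of_bounded (fun n => hD.J_mem (hl n) hv2) hbound hv2 (hD.J_tendsto_L2 hv2)).1

theorem Γ_mem (hf : f ∈ C.Test) (hg : g ∈ C.Test) : C.Γ f g ∈ C.A := by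
  have hD := hC.toIsDir
  have hfA := hC.test_A hf
  have hgA := hC.test_A hg
  refine ⟨?_, hD.Γ_memTop hfA.1 (hC.test_Γ_top hf) hgA.1 (hC.test_Γ_top hg)⟩
  have h1 := hC.Γ_self_mem hB (hC.test_add' hf hg)
  have h2 := hC.Γ_self_mem hB hf
  have h3 := hC.Γ_self_mem hB hg
  have h4 := hD.Γ_expand 1 hfA.1 hgA.1
  rw [one_smul, mul_one, one_pow, one_smul] at h4
  have h5 : C.Γ f g = (2 : ℝ)⁻¹ • (C.Γ (f + g) (f + g) - C.Γ f f - C.Γ g g) := by
    rw [h4]
    module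
  rw [h5]
  exact hD.smul_mem _ _ (hD.sub_mem (hD.sub_mem h1 h2) h3)

theorem bochner_weak (hf : f ∈ C.Test) (hφ : φ ∈ C.A) (h0 : 0 ≤ φ) :
    I (φ * (C.Γ f (C.lap f) + κ • C.Γ f f + (2 : ℝ)⁻¹ • C.lap f ^ 2))
      ≤ -((2 : ℝ)⁻¹ * I (C.Γ (C.Γ f f) φ)) := by
  have hD := hC.toIsDir
  have hfA := hC.test_A hf
  have hfL := hC.test_isLap hf
  have hfLW := hC.test_lap_mem hf
  have hv := (hC.Γ_mem hB hf hf).1
  have hφ2 := hC.memLp φ hφ.1
  obtain ⟨K, hK⟩ := mem_top_iff.1 hφ.2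
  have hl : ∀ n : ℕ, (0 : ℝ) < ((n : ℝ) + 1)⁻¹ := fun n => by (clear * -; positivity)
  set G := C.Γ f (C.lap f) + κ • C.Γ f f + (2 : ℝ)⁻¹ • C.lap f ^ 2 with hG
  have hG1 : MemLp G 1 m := hC.bracket_mem κ hfA.1 hfLW
  set u : ℕ → M →ₘ[m] ℝ := fun n => C.J ((n : ℝ) + 1)⁻¹ φ with hu
  have huW : ∀ n, u n ∈ C.W := fun n => hD.J_mem (hl n) hφ2
  have huK : ∀ n, ∀ᵐ x ∂m, |u n x| ≤ K := fun n => hD.J_bdd (hl n) hφ2 hK
  have hut : ∀ n, MemLp (u n) ∞ m := fun n => mem_top_iff.2 ⟨K, huK n⟩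
  have hlimW : Tendsto (fun n => C.nrm2 (u n - φ)) atTop (𝓝 0) := hD.J_tendsto_W hφ.1
  have key : ∀ n, I (u n * G) ≤ -((2 : ℝ)⁻¹ * I (C.Γ (C.Γ f f) (u n))) := by
    intro n
    have hL := hD.J_isLap (hl n) hφ2
    have h1 := be hB hfL hfLW hL (hD.J_nonneg (hl n) hφ2 h0) (hut n)
      (mem_smul _ (mem_sub (hut n) hφ.2))
    have h2 : I (C.Γ (u n) (C.Γ f f)) =
        -I ((((n : ℝ) + 1)⁻¹)⁻¹ • (u n - φ) * C.Γ f f) := hL.2.2 _ hv
    rw [hD.symm _ (huW n) _ hv, mul_comm _ (C.Γ f f)] at h2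
    rw [h2]
    have h3 : I (u n * G) ≤ (2 : ℝ)⁻¹ * I (C.Γ f f * ((((n : ℝ) + 1)⁻¹)⁻¹ • (u n - φ))) := h1
    linarith only [h3]
  obtain ⟨ns, hns, hae⟩ := exists_subseq_of_I_sq (fun n => hC.memLp _ (huW n)) hφ2
    (hD.tendsto_I_sq_of_nrm2 huW hφ.1 hlimW)
  have l1 : Tendsto (fun n => I (u (ns n) * G)) atTop (𝓝 (I (φ * G))) := by
    refine I_tendsto_of_dominated (G := fun x => K * |G x|) ((int_of_mem hG1).abs.const_mul K)
      (fun n => ?_) ?_
    · filter_upwards [mul_ae (u (ns n)) G, huK (ns n)] with x a1 a2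
      rw [a1, abs_mul]
      exact mul_le_mul_of_nonneg_right a2 (abs_nonneg _)
    · filter_upwards [ae_all_iff.2 fun n => mul_ae (u (ns n)) G, mul_ae φ G, hae] with x a1 a2 a3
      simp_rw [a1, a2]
      exact a3.mul_const _
  have l2 : Tendsto (fun n => I (C.Γ (C.Γ f f) (u n))) atTop (𝓝 (I (C.Γ (C.Γ f f) φ))) := by
    rw [tendsto_iff_dist_tendsto_zero]
    have h1 := hD.tendsto_E_of_nrm2 huW hφ.1 hlimW
    have h2 : Tendsto (fun n => Real.sqrt (I (C.Γ (C.Γ f f) (C.Γ f f))) *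
        Real.sqrt (I (C.Γ (u n - φ) (u n - φ)))) atTop (𝓝 0) := by
      have := ((Real.continuous_sqrt.tendsto 0).comp h1).const_mul
        (Real.sqrt (I (C.Γ (C.Γ f f) (C.Γ f f))))
      simpa [Function.comp_def] using this
    refine squeeze_zero (fun n => dist_nonneg) (fun n => ?_) h2
    rw [Real.dist_eq, ← I_sub (hD.Γ_mem1 hv (huW n)) (hD.Γ_mem1 hv hφ.1),
      ← hD.Γ_sub_right hv (huW n) hφ.1]
    exact hD.E_abs_le hv (hD.sub_mem (huW n) hφ.1)
  have l3 : Tendsto (fun n => -((2 : ℝ)⁻¹ * I (C.Γ (C.Γ f f) (u (ns n))))) atTop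
      (𝓝 (-((2 : ℝ)⁻¹ * I (C.Γ (C.Γ f f) φ)))) :=
    ((l2.comp hns.tendsto_atTop).const_mul _).neg
  exact le_of_tendsto_of_tendsto' l1 l3 fun n => key (ns n)

end IsGamma

end Vale.Agent.P233
end
end

section

section

open MeasureTheory Filter Topology
open scoped ENNReal NNReal

namespace Vale.Agent.P233

variable {M : Type*} [MeasurableSpace M] {m : Measure M} {C : Calc m}

/-- dominated convergence for bounded multipliers -/
theorem I_tendsto_of_bdd {u : ℕ → M →ₘ[m] ℝ} {v G : M →ₘ[m] ℝ} {K : ℝ}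
    (hu : ∀ n, ∀ᵐ x ∂m, |u n x| ≤ K) (hlim : ∀ᵐ x ∂m, Tendsto (fun n => u n x) atTop (𝓝 (v x)))
    (hG : MemLp G 1 m) : Tendsto (fun n => I (u n * G)) atTop (𝓝 (I (v * G))) := by
  unfold I
  refine tendsto_integral_of_dominated_convergence (fun x => K * |G x|)
    (fun n => (u n * G).aestronglyMeasurable) ?_ ?_ ?_
  · exact (int_of_mem hG).abs.const_mul K
  · intro n
    filter_upwards [hu n, mul_ae (u n) G] with x h1 h2
    rw [h2, Real.norm_eq_abs, abs_mul]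
    exact mul_le_mul_of_nonneg_right h1 (abs_nonneg _)
  · have : ∀ᵐ x ∂m, ∀ n, (u n * G) x = u n x * G x := by
      rw [ae_all_iff]; intro n; exact mul_ae (u n) G
    filter_upwards [this, mul_ae v G, hlim] with x h1 h2 h3
    rw [h2]
    simp only [h1]
    exact h3.mul_const _

namespace IsDir

/-- a continuous linear functional of the form `h ↦ I(Γ(a,h)) + I(K h)` that vanishes on bounded
functions vanishes -/
theorem ext_A (hC : IsDir C) {a K h : M →ₘ[m] ℝ} (ha : a ∈ C.W) (hK : MemLp K 2 m)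
    (H : ∀ h ∈ C.A, I (C.Γ a h) + I (K * h) = 0) (hh : h ∈ C.W) :
    I (C.Γ a h) + I (K * h) = 0 := by
  obtain ⟨u, hu, -, hlim, -⟩ := hC.exists_trunc hh
  have hd : ∀ n, u n - h ∈ C.W := fun n => hC.sub_mem (hu n).1 hh
  have h1 : ∀ n, (I (C.Γ a h) + I (K * h)) ^ 2
      ≤ 2 * (I (C.Γ a a) + I (K ^ 2)) * C.nrm2 (u n - h) := by
    intro n
    have e1 : I (C.Γ a (u n - h)) = I (C.Γ a (u n)) - I (C.Γ a h) := by
      rw [hC.Γ_sub_right ha (hu n).1 hh, I_sub (hC.Γ_mem1 ha (hu n).1) (hC.Γ_mem1 ha hh)]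
    have e2 : I (K * (u n - h)) = I (K * u n) - I (K * h) := by
      rw [mul_sub, I_sub (mem_mul_22 hK (hC.memLp _ (hu n).1)) (mem_mul_22 hK (hC.memLp _ hh))]
    have e3 := H _ (hu n)
    have c1 := hC.E_cs ha (hd n)
    have c2 := I_cs hK (hC.memLp _ (hd n))
    have p1 : 0 ≤ I (C.Γ a a) := I_nonneg (hC.nonneg _ ha)
    have p2 : 0 ≤ I (K ^ 2) := I_nonneg (sq_nonneg' _)
    have p3 : 0 ≤ I (C.Γ (u n - h) (u n - h)) := I_nonneg (hC.nonneg _ (hd n))
    have p4 : 0 ≤ I ((u n - h) ^ 2) := I_nonneg (sq_nonneg' _)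
    have e4 : I (C.Γ a h) + I (K * h) = -(I (C.Γ a (u n - h)) + I (K * (u n - h))) := by
      rw [e1, e2]; linarith only [e3]
    rw [e4]
    unfold Calc.nrm2
    nlinarith only [c1, c2, mul_nonneg p1 p4, mul_nonneg p2 p3]
  have h2 : Tendsto (fun n => 2 * (I (C.Γ a a) + I (K ^ 2)) * C.nrm2 (u n - h)) atTop (𝓝 0) := by
    simpa using hlim.const_mul (2 * (I (C.Γ a a) + I (K ^ 2)))
  have h3 := ge_of_tendsto h2 (Eventually.of_forall h1)
  have : (I (C.Γ a h) + I (K * h)) ^ 2 = 0 := le_antisymm h3 (sq_nonneg _)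
  exact pow_eq_zero_iff (two_ne_zero) |>.1 this

end IsDir

end Vale.Agent.P233
end
end

section

section

open MeasureTheory Filter Topology
open scoped ENNReal NNReal

namespace Vale.Agent.P233

variable {M : Type*} [MeasurableSpace M] {m : Measure M} {C : Calc m}

section poly
open Polynomial

theorem bern_sum0 (n : ℕ) : ∑ k ∈ Finset.range (n + 1), bernsteinPolynomial ℝ n k = 1 :=
  bernsteinPolynomial.sum ℝ n

theorem bern_sum1 (n : ℕ) :
    ∑ k ∈ Finset.range (n + 1), (k : ℝ) • bernsteinPolynomial ℝ n k = (n : ℝ) • X := by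
  have h := bernsteinPolynomial.sum_smul ℝ n
  have e : ∀ (k : ℕ) (P : ℝ[X]), (k : ℝ) • P = k • P := fun k P => by
    rw [Nat.cast_smul_eq_nsmul]
  simp only [e]
  exact h

theorem bern_sum2 (n : ℕ) :
    ∑ k ∈ Finset.range (n + 1), ((k : ℝ) ^ 2) • bernsteinPolynomial ℝ n k
      = ((n : ℝ) ^ 2) • X ^ 2 + (n : ℝ) • (X * (1 - X)) := by
  have h := bernsteinPolynomial.variance ℝ n
  have h0 := bern_sum0 n
  have h1 := bern_sum1 n
  have e : ∀ k : ℕ, (n • (X : ℝ[X]) - (k : ℝ[X])) ^ 2 * bernsteinPolynomial ℝ n k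
      = ((n : ℝ) ^ 2 • X ^ 2) * bernsteinPolynomial ℝ n k
        - ((2 * (n : ℝ)) • X) * ((k : ℝ) • bernsteinPolynomial ℝ n k)
        + ((k : ℝ) ^ 2) • bernsteinPolynomial ℝ n k := by
    intro k
    simp only [smul_eq_C_mul, nsmul_eq_mul, C_pow, C_mul, map_natCast, map_ofNat]
    ring
  simp only [e] at h
  rw [Finset.sum_add_distrib, Finset.sum_sub_distrib, ← Finset.mul_sum, ← Finset.mul_sum, h0, h1]
    at h
  simp only [smul_eq_C_mul, nsmul_eq_mul, C_pow, C_mul, map_natCast, map_ofNat] at h ⊢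
  linear_combination h

theorem bern_lin (R : ℝ) {n : ℕ} (hn : n ≠ 0) :
    ∑ k ∈ Finset.range (n + 1), (R * (2 * (k : ℝ) / n - 1)) • bernsteinPolynomial ℝ n k
      = (2 * R) • X - R • (1 : ℝ[X]) := by
  have hn' : (n : ℝ) ≠ 0 := by exact_mod_cast hn
  have e : ∀ k : ℕ, (R * (2 * (k : ℝ) / n - 1)) • bernsteinPolynomial ℝ n k
      = (2 * R / n) • ((k : ℝ) • bernsteinPolynomial ℝ n k) - R • bernsteinPolynomial ℝ n k := by
    intro k
    rw [smul_smul, ← sub_smul]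
    congr 1
    (clear * - hn'; field_simp)
  simp only [e]
  rw [Finset.sum_sub_distrib, ← Finset.smul_sum, ← Finset.smul_sum, bern_sum0, bern_sum1, smul_smul]
  congr 2
  field_simp

theorem bern_quad (R : ℝ) {n : ℕ} (hn : n ≠ 0) :
    ∑ k ∈ Finset.range (n + 1), ((R * (2 * (k : ℝ) / n - 1)) ^ 2) • bernsteinPolynomial ℝ n k
      = ((2 * R) • X - R • (1 : ℝ[X])) ^ 2 + (4 * R ^ 2 / n) • (X * (1 - X)) := by
  have hn' : (n : ℝ) ≠ 0 := by exact_mod_cast hn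
  have e : ∀ k : ℕ, ((R * (2 * (k : ℝ) / n - 1)) ^ 2) • bernsteinPolynomial ℝ n k
      = (4 * R ^ 2 / n ^ 2) • (((k : ℝ) ^ 2) • bernsteinPolynomial ℝ n k)
        - (4 * R ^ 2 / n) • ((k : ℝ) • bernsteinPolynomial ℝ n k)
        + (R ^ 2) • bernsteinPolynomial ℝ n k := by
    intro k
    rw [smul_smul, smul_smul, ← sub_smul, ← add_smul]
    congr 1
    field_simp
    ring
  simp only [e]
  rw [Finset.sum_add_distrib, Finset.sum_sub_distrib, ← Finset.smul_sum, ← Finset.smul_sum,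
    ← Finset.smul_sum, bern_sum0, bern_sum1, bern_sum2]
  rw [smul_add, smul_smul, smul_smul, smul_smul]
  have a1 : 4 * R ^ 2 / (n : ℝ) ^ 2 * (n : ℝ) ^ 2 = 4 * R ^ 2 := by field_simp
  have a2 : 4 * R ^ 2 / (n : ℝ) ^ 2 * (n : ℝ) = 4 * R ^ 2 / n := by field_simp
  have a3 : 4 * R ^ 2 / (n : ℝ) * (n : ℝ) = 4 * R ^ 2 := by field_simp
  rw [a1, a2, a3]
  simp only [smul_eq_C_mul, C_pow, C_mul, map_ofNat]
  ring

end poly

namespace IsDir

variable (hC : IsDir C)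
include hC
variable {φ ψ z : M →ₘ[m] ℝ}

theorem A_mul_AP (hφ : φ ∈ C.A) (hz : z ∈ C.AP) : φ * z ∈ C.A := by
  obtain ⟨c, hc⟩ := hz
  have : φ * z = φ * (z - c • (1 : M →ₘ[m] ℝ)) + c • φ := by algebra
  rw [this]
  exact hC.A_add (hC.mul_mem_A hφ hc) (hC.A_smul c hφ)

theorem AP_const (c : ℝ) : c • (1 : M →ₘ[m] ℝ) ∈ C.AP :=
  ⟨c, by rw [sub_self]; exact hC.A_zero⟩

theorem AP_of_A (hφ : φ ∈ C.A) : φ ∈ C.AP := ⟨0, by simpa using hφ⟩

theorem A_aeval (hφ : φ ∈ C.A) (hz : z ∈ C.AP) (P : Polynomial ℝ) :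
    φ * Polynomial.aeval z P ∈ C.A := by
  induction P using Polynomial.induction_on with
  | C a =>
    have : φ * Polynomial.aeval z (Polynomial.C a) = a • φ := by
      rw [Polynomial.aeval_C, Algebra.algebraMap_eq_smul_one]; algebra
    rw [this]; exact hC.A_smul a hφ
  | add p q hp hq => rw [map_add, mul_add]; exact hC.A_add hp hq
  | monomial n a h =>
    have : φ * Polynomial.aeval z (Polynomial.C a * Polynomial.X ^ (n + 1))
        = φ * Polynomial.aeval z (Polynomial.C a * Polynomial.X ^ n) * z := by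
      rw [pow_succ, ← mul_assoc, map_mul, Polynomial.aeval_X, mul_assoc]
    rw [this]; exact hC.A_mul_AP h hz

omit hC in
theorem AP_top (hz : z ∈ C.AP) : MemLp z ∞ m := by
  obtain ⟨c, hc⟩ := hz
  have : z = (z - c • (1 : M →ₘ[m] ℝ)) + c • 1 := by algebra
  rw [this]
  exact mem_add hc.2 (mem_smul _ mem_top_one)

/-- a linear functional on `A` passes through finite linear combinations of polynomials -/
theorem lin_aeval {P0 : (M →ₘ[m] ℝ) → ℝ}
    (h0 : ∀ φ ∈ C.A, ∀ ψ ∈ C.A, P0 (φ + ψ) = P0 φ + P0 ψ)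
    (s0 : ∀ c : ℝ, ∀ φ ∈ C.A, P0 (c • φ) = c * P0 φ) (hφ : φ ∈ C.A) (hz : z ∈ C.AP)
    (s : Finset ℕ) (c : ℕ → ℝ) (B : ℕ → Polynomial ℝ) :
    P0 (φ * Polynomial.aeval z (∑ k ∈ s, c k • B k))
      = ∑ k ∈ s, c k * P0 (φ * Polynomial.aeval z (B k)) := by
  classical
  induction s using Finset.induction_on with
  | empty =>
    have := s0 0 0 hC.A_zero
    simp only [Finset.sum_empty, map_zero, mul_zero]
    simpa using this
  | insert i s hi ih =>
    rw [Finset.sum_insert hi, Finset.sum_insert hi, map_add, mul_add,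
      h0 _ (hC.A_aeval hφ hz _) _ (hC.A_aeval hφ hz _), ih, map_smul, mul_smul_comm,
      s0 _ _ (hC.A_aeval hφ hz _)]

theorem bernstein (P0 P1 P2 : (M →ₘ[m] ℝ) → ℝ)
    (h0 : ∀ φ ∈ C.A, ∀ ψ ∈ C.A, P0 (φ + ψ) = P0 φ + P0 ψ)
    (h1 : ∀ φ ∈ C.A, ∀ ψ ∈ C.A, P1 (φ + ψ) = P1 φ + P1 ψ)
    (h2 : ∀ φ ∈ C.A, ∀ ψ ∈ C.A, P2 (φ + ψ) = P2 φ + P2 ψ)
    (s0 : ∀ c : ℝ, ∀ φ ∈ C.A, P0 (c • φ) = c * P0 φ)
    (s1 : ∀ c : ℝ, ∀ φ ∈ C.A, P1 (c • φ) = c * P1 φ)
    (s2 : ∀ c : ℝ, ∀ φ ∈ C.A, P2 (c • φ) = c * P2 φ)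
    (hpos : ∀ c : ℝ, ∀ φ ∈ C.A, 0 ≤ φ → 0 ≤ P0 φ + c * P1 φ + c ^ 2 * P2 φ)
    {ζ : M →ₘ[m] ℝ} (hζ : ζ ∈ C.AP) (hφ : φ ∈ C.A) (hφ0 : 0 ≤ φ) :
    0 ≤ P0 φ + P1 (φ * ζ) + P2 (φ * ζ ^ 2) := by
  obtain ⟨K, hK⟩ := mem_top_iff.1 (AP_top hζ)
  obtain ⟨c, hc⟩ := hζ
  set R := |K| + 1 with hR
  have hR0 : 0 < R := by (clear * -; positivity)
  have hKR : ∀ᵐ x ∂m, |ζ x| ≤ R := by
    filter_upwards [hK] with x hx
    exact hx.trans ((le_abs_self K).trans (by linarith only []))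
  set z : M →ₘ[m] ℝ := (2 * R)⁻¹ • ζ + (2⁻¹ : ℝ) • 1 with hz
  have hζz : ζ = (2 * R) • z - R • 1 := by
    have a1 : 2 * R * (2 * R)⁻¹ = 1 := by field_simp
    have a2 : 2 * R * (2⁻¹ : ℝ) = R := by ring
    rw [hz, smul_add, smul_smul, smul_smul, a1, a2, one_smul]
    ring
  have hzAP : z ∈ C.AP := by
    refine ⟨(2 * R)⁻¹ * c + 2⁻¹, ?_⟩
    have : z - ((2 * R)⁻¹ * c + 2⁻¹) • (1 : M →ₘ[m] ℝ) = (2 * R)⁻¹ • (ζ - c • 1) := by
      rw [hz]; algebra
    rw [this]; exact hC.A_smul _ hc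
  have hz0 : 0 ≤ z := by
    rw [nonneg_iff_ae]
    filter_upwards [add_ae ((2 * R)⁻¹ • ζ) ((2⁻¹ : ℝ) • (1 : M →ₘ[m] ℝ)), smul_ae ζ (2 * R)⁻¹,
      smul_ae (1 : M →ₘ[m] ℝ) (2⁻¹ : ℝ), one_ae (M := M) (m := m), hKR] with x e1 e2 e3 e4 e5
    rw [hz, e1, e2, e3, e4]
    have := (abs_le.1 e5).1
    have h3 : (2 * R)⁻¹ * (-R) = -2⁻¹ := by field_simp
    have h4 : (2 * R)⁻¹ * (-R) ≤ (2 * R)⁻¹ * ζ x :=
      mul_le_mul_of_nonneg_left this (by (clear * -; positivity))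
    linarith only [h3, h4]
  have hz1 : 0 ≤ 1 - z := by
    rw [nonneg_iff_ae]
    filter_upwards [add_ae ((2 * R)⁻¹ • ζ) ((2⁻¹ : ℝ) • (1 : M →ₘ[m] ℝ)), smul_ae ζ (2 * R)⁻¹,
      smul_ae (1 : M →ₘ[m] ℝ) (2⁻¹ : ℝ), one_ae (M := M) (m := m), hKR,
      sub_ae (1 : M →ₘ[m] ℝ) z] with x e1 e2 e3 e4 e5 e6
    rw [e6, e4, hz, e1, e2, e3, e4]
    have := (abs_le.1 e5).2
    have h3 : (2 * R)⁻¹ * R = 2⁻¹ := by field_simp
    have h4 : (2 * R)⁻¹ * ζ x ≤ (2 * R)⁻¹ * R :=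
      mul_le_mul_of_nonneg_left this (by (clear * -; positivity))
    linarith only [h3, h4]
  have hB0 : ∀ n k : ℕ, 0 ≤ φ * Polynomial.aeval z (bernsteinPolynomial ℝ n k) := by
    intro n k
    refine mul_nonneg hφ0 ?_
    have : Polynomial.aeval z (bernsteinPolynomial ℝ n k)
        = (n.choose k : M →ₘ[m] ℝ) * z ^ k * (1 - z) ^ (n - k) := by
      simp only [bernsteinPolynomial, map_mul, map_natCast, map_pow, Polynomial.aeval_X, Polynomial.aeval_sub, map_one]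
    rw [this]
    have hch : (0 : M →ₘ[m] ℝ) ≤ (n.choose k : M →ₘ[m] ℝ) := by
      have : ((n.choose k : ℕ) : M →ₘ[m] ℝ) = (n.choose k : ℕ) • (1 : M →ₘ[m] ℝ) := by simp only [nsmul_eq_mul, mul_one]
      rw [this]
      exact nsmul_nonneg zero_le_one _
    exact mul_nonneg (mul_nonneg hch (pow_nonneg hz0 _)) (pow_nonneg hz1 _)
  have key : ∀ n : ℕ, 0 ≤ (P0 φ + P1 (φ * ζ) + P2 (φ * ζ ^ 2))
      + 4 * R ^ 2 * P2 (φ * (z * (1 - z))) / ((n + 1 : ℕ) : ℝ) := by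
    intro n
    have hn : n + 1 ≠ 0 := Nat.succ_ne_zero n
    have e0 := hC.lin_aeval h0 s0 hφ hzAP (Finset.range (n + 1 + 1)) (fun _ => 1)
      (bernsteinPolynomial ℝ (n + 1))
    have e1 := hC.lin_aeval h1 s1 hφ hzAP (Finset.range (n + 1 + 1))
      (fun k => R * (2 * (k : ℝ) / (n + 1 : ℕ) - 1)) (bernsteinPolynomial ℝ (n + 1))
    have e2 := hC.lin_aeval h2 s2 hφ hzAP (Finset.range (n + 1 + 1))
      (fun k => (R * (2 * (k : ℝ) / (n + 1 : ℕ) - 1)) ^ 2) (bernsteinPolynomial ℝ (n + 1))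
    simp only [one_smul, one_mul] at e0
    rw [bern_sum0, map_one, mul_one] at e0
    rw [bern_lin R hn] at e1
    rw [bern_quad R hn] at e2
    have a1 : Polynomial.aeval z ((2 * R) • Polynomial.X - R • (1 : Polynomial ℝ)) = ζ := by
      rw [map_sub, map_smul, map_smul, map_one, Polynomial.aeval_X, ← hζz]
    rw [a1] at e1
    rw [map_add, map_pow, a1, map_smul, map_mul, map_sub, map_one, Polynomial.aeval_X, mul_add,
      mul_smul_comm] at e2
    have m1 : φ * ζ ^ 2 ∈ C.A := by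
      rw [sq, ← mul_assoc]
      exact hC.A_mul_AP (hC.A_mul_AP hφ ⟨c, hc⟩) ⟨c, hc⟩
    have m2 : φ * (z * (1 - z)) ∈ C.A := by
      have : φ * (z * (1 - z)) = φ * z + (-1 : ℝ) • (φ * z * z) := by algebra
      rw [this]
      exact hC.A_add (hC.A_mul_AP hφ hzAP) (hC.A_smul _ (hC.A_mul_AP (hC.A_mul_AP hφ hzAP) hzAP))
    rw [h2 _ m1 _ (hC.A_smul _ m2), s2 _ _ m2] at e2
    have e3 : (P0 φ + P1 (φ * ζ) + P2 (φ * ζ ^ 2))
        + 4 * R ^ 2 * P2 (φ * (z * (1 - z))) / ((n + 1 : ℕ) : ℝ)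
        = P0 φ + P1 (φ * ζ) + (P2 (φ * ζ ^ 2)
          + 4 * R ^ 2 / ((n + 1 : ℕ) : ℝ) * P2 (φ * (z * (1 - z)))) := by ring
    rw [e3, e0, e1, e2, ← Finset.sum_add_distrib, ← Finset.sum_add_distrib]
    exact Finset.sum_nonneg fun k _ => hpos _ _ (hC.A_aeval hφ hzAP _) (hB0 _ _)
  have hlim : Tendsto (fun n : ℕ => (P0 φ + P1 (φ * ζ) + P2 (φ * ζ ^ 2))
      + 4 * R ^ 2 * P2 (φ * (z * (1 - z))) / ((n + 1 : ℕ) : ℝ)) atTop
      (𝓝 ((P0 φ + P1 (φ * ζ) + P2 (φ * ζ ^ 2)) + 0)) := by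
    refine Tendsto.add tendsto_const_nhds ?_
    exact (tendsto_const_div_atTop_nhds_zero_nat (4 * R ^ 2 * P2 (φ * (z * (1 - z))))).comp
      (tendsto_add_atTop_nat 1)
  rw [add_zero] at hlim
  exact ge_of_tendsto hlim (Eventually.of_forall key)

section master
variable {ι : Type*} [Fintype ι] [DecidableEq ι] {Q : ι → ι → (M →ₘ[m] ℝ) → ℝ}

theorem update_identity (hadd : ∀ i j, ∀ φ ∈ C.A, ∀ ψ ∈ C.A, Q i j (φ + ψ) = Q i j φ + Q i j ψ)
    (hsmul : ∀ i j, ∀ c : ℝ, ∀ φ ∈ C.A, Q i j (c • φ) = c * Q i j φ)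
    {a : ι → M →ₘ[m] ℝ} (ha : ∀ i, a i ∈ C.AP) (i₀ : ι) {ζ : M →ₘ[m] ℝ} (hζ : ζ ∈ C.AP)
    (hφ : φ ∈ C.A) :
    ∑ i, ∑ j, Q i j (φ * (Function.update a i₀ ζ i * Function.update a i₀ ζ j))
      = ∑ i, ∑ j, Q i j (φ * (Function.update a i₀ 0 i * Function.update a i₀ 0 j))
        + (∑ j, Q i₀ j (φ * ζ * Function.update a i₀ 0 j)
          + ∑ i, Q i i₀ (φ * ζ * Function.update a i₀ 0 i)) + Q i₀ i₀ (φ * ζ ^ 2) := by
  set a0 := Function.update a i₀ 0 with ha0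
  have ha0' : ∀ i, a0 i ∈ C.AP := by
    intro i
    by_cases h : i = i₀
    · rw [h, ha0, Function.update_self]; exact hC.AP_of_A hC.A_zero
    · rw [ha0, Function.update_of_ne h]; exact ha i
  have hz : ∀ i j, Q i j 0 = 0 := by
    intro i j
    have := hsmul i j 0 0 hC.A_zero
    simpa using this
  have e : ∀ i j, Q i j (φ * (Function.update a i₀ ζ i * Function.update a i₀ ζ j))
      = Q i j (φ * (a0 i * a0 j)) + ((if i = i₀ then Q i j (φ * ζ * a0 j) else 0)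
        + (if j = i₀ then Q i j (φ * ζ * a0 i) else 0))
        + (if i = i₀ then (if j = i₀ then Q i j (φ * ζ ^ 2) else 0) else 0) := by
    intro i j
    by_cases hi : i = i₀
    · by_cases hj : j = i₀
      · subst hi
        subst hj
        simp only [if_true, Function.update_self, ha0, mul_zero, hz, zero_add]
        rw [sq]
      · subst hi
        simp only [if_true, if_neg hj, Function.update_self, Function.update_of_ne hj, ha0,
          zero_mul, mul_zero, hz, zero_add, add_zero]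
        rw [mul_assoc]
    · by_cases hj : j = i₀
      · subst hj
        simp only [if_true, if_neg hi, Function.update_self, Function.update_of_ne hi, ha0,
          mul_zero, hz, zero_add, add_zero]
        rw [mul_assoc, mul_comm (a i)]
      · simp only [if_neg hi, if_neg hj, Function.update_of_ne hi, Function.update_of_ne hj, ha0,
          add_zero]
  simp only [e, Finset.sum_add_distrib]
  congr 1
  · congr 1
    congr 1
    · have : ∀ i, ∑ j, (if i = i₀ then Q i j (φ * ζ * a0 j) else 0)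
          = if i = i₀ then ∑ j, Q i j (φ * ζ * a0 j) else 0 := by
        intro i; split_ifs <;> simp
      simp only [this, Finset.sum_ite_eq', Finset.mem_univ, if_true]
    · simp only [Finset.sum_ite_eq', Finset.mem_univ, if_true]
  · have : ∀ i, ∑ j, (if i = i₀ then (if j = i₀ then Q i j (φ * ζ ^ 2) else 0) else 0)
        = if i = i₀ then Q i i₀ (φ * ζ ^ 2) else 0 := by
      intro i; split_ifs <;> simp
    simp only [this, Finset.sum_ite_eq', Finset.mem_univ, if_true]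

/-- positivity for constant coefficients implies positivity for coefficients in `AP` -/
theorem master_fintype
    (hadd : ∀ i j, ∀ φ ∈ C.A, ∀ ψ ∈ C.A, Q i j (φ + ψ) = Q i j φ + Q i j ψ)
    (hsmul : ∀ i j, ∀ c : ℝ, ∀ φ ∈ C.A, Q i j (c • φ) = c * Q i j φ)
    (hpos : ∀ c : ι → ℝ, ∀ φ ∈ C.A, 0 ≤ φ → 0 ≤ ∑ i, ∑ j, c i * c j * Q i j φ)
    {a : ι → M →ₘ[m] ℝ} (ha : ∀ i, a i ∈ C.AP) (hφ : φ ∈ C.A) (hφ0 : 0 ≤ φ) :
    0 ≤ ∑ i, ∑ j, Q i j (φ * (a i * a j)) := by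
  suffices H : ∀ S : Finset ι, ∀ a : ι → M →ₘ[m] ℝ, (∀ i, a i ∈ C.AP) →
      (∀ i ∉ S, ∃ c : ℝ, a i = c • (1 : M →ₘ[m] ℝ)) → ∀ φ ∈ C.A, 0 ≤ φ →
      0 ≤ ∑ i, ∑ j, Q i j (φ * (a i * a j)) from
    H Finset.univ a ha (fun i hi => absurd (Finset.mem_univ i) hi) φ hφ hφ0
  intro S
  induction S using Finset.induction_on with
  | empty =>
    intro a _ hc φ hφ hφ0
    choose c hc using fun i => hc i (Finset.notMem_empty i)
    have : ∀ i j, Q i j (φ * (a i * a j)) = c i * c j * Q i j φ := by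
      intro i j
      have e : φ * (a i * a j) = (c i * c j) • φ := by rw [hc i, hc j]; algebra
      rw [e, hsmul _ _ _ _ hφ]
    simp only [this]
    exact hpos c φ hφ hφ0
  | insert i₀ S hi ih =>
    intro a ha hc φ hφ hφ0
    have hA0 : ∀ i, Function.update a i₀ 0 i ∈ C.AP := by
      intro i
      by_cases h : i = i₀
      · rw [h, Function.update_self]; exact hC.AP_of_A hC.A_zero
      · rw [Function.update_of_ne h]; exact ha i
    have key := hC.bernstein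
      (fun φ => ∑ i, ∑ j, Q i j (φ * (Function.update a i₀ 0 i * Function.update a i₀ 0 j)))
      (fun φ => ∑ j, Q i₀ j (φ * Function.update a i₀ 0 j)
          + ∑ i, Q i i₀ (φ * Function.update a i₀ 0 i))
      (fun φ => Q i₀ i₀ φ) ?_ ?_ ?_ ?_ ?_ ?_ ?_ (ha i₀) hφ hφ0
    · have e := hC.update_identity hadd hsmul ha i₀ (ha i₀) hφ
      rw [Function.update_eq_self] at e
      rw [e]
      exact key
    · intro φ hφ ψ hψ
      simp only [← Finset.sum_add_distrib]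
      refine Finset.sum_congr rfl fun i _ => Finset.sum_congr rfl fun j _ => ?_
      rw [add_mul, ← mul_assoc, ← mul_assoc]
      exact hadd _ _ _ (hC.A_mul_AP (hC.A_mul_AP hφ (hA0 i)) (hA0 j)) _
        (hC.A_mul_AP (hC.A_mul_AP hψ (hA0 i)) (hA0 j))
    · intro φ hφ ψ hψ
      have e1 : ∀ i j k, Q i j ((φ + ψ) * Function.update a i₀ 0 k)
          = Q i j (φ * Function.update a i₀ 0 k) + Q i j (ψ * Function.update a i₀ 0 k) := by
        intro i j k
        rw [add_mul]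
        exact hadd _ _ _ (hC.A_mul_AP hφ (hA0 k)) _ (hC.A_mul_AP hψ (hA0 k))
      simp only [e1, Finset.sum_add_distrib]
      ring
    · intro φ hφ ψ hψ
      exact hadd _ _ _ hφ _ hψ
    · intro c φ hφ
      simp only [Finset.mul_sum]
      refine Finset.sum_congr rfl fun i _ => Finset.sum_congr rfl fun j _ => ?_
      rw [smul_mul_assoc, hsmul]
      rw [← mul_assoc]
      exact hC.A_mul_AP (hC.A_mul_AP hφ (hA0 i)) (hA0 j)
    · intro c φ hφ
      simp only [mul_add, Finset.mul_sum]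
      congr 1 <;> refine Finset.sum_congr rfl fun i _ => ?_
      all_goals rw [smul_mul_assoc, hsmul _ _ _ _ (hC.A_mul_AP hφ (hA0 i))]
    · intro c φ hφ
      exact hsmul _ _ _ _ hφ
    · intro c φ hφ hφ0
      have e := hC.update_identity hadd hsmul ha i₀ (hC.AP_const c) hφ
      have h1 := ih (Function.update a i₀ (c • (1 : M →ₘ[m] ℝ))) ?_ ?_ φ hφ hφ0
      · rw [e] at h1
        have e1 : ∀ i j k, Q i j (φ * c • (1 : M →ₘ[m] ℝ) * Function.update a i₀ 0 k)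
            = c * Q i j (φ * Function.update a i₀ 0 k) := by
          intro i j k
          rw [← hsmul _ _ _ _ (hC.A_mul_AP hφ (hA0 k))]
          congr 1
          algebra
        have e2 : Q i₀ i₀ (φ * (c • (1 : M →ₘ[m] ℝ)) ^ 2) = c ^ 2 * Q i₀ i₀ φ := by
          rw [← hsmul _ _ _ _ hφ]
          congr 1
          algebra
        simp only [e1, e2, ← Finset.mul_sum] at h1
        convert h1 using 1
        ring
      · intro i
        by_cases h : i = i₀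
        · rw [h, Function.update_self]; exact hC.AP_const c
        · rw [Function.update_of_ne h]; exact ha i
      · intro i hi'
        by_cases h : i = i₀
        · exact ⟨c, by rw [h, Function.update_self]⟩
        · rw [Function.update_of_ne h]
          exact hc i (by simp [h, hi'])

end master

end IsDir

end Vale.Agent.P233
end
end

section

section

open MeasureTheory Filter Topology
open scoped ENNReal NNReal

namespace Vale.Agent.P233

variable {M : Type*} [MeasurableSpace M] {m : Measure M} {C : Calc m}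

/-- `N(f,g;φ)`: the weak form of `Γ₂(f,g) - κ Γ(f,g) - ½ Δf Δg` tested with `φ` -/
noncomputable def Calc.NN (C : Calc m) (κ : ℝ) (f g φ : M →ₘ[m] ℝ) : ℝ :=
  -((2 : ℝ)⁻¹ * I (C.Γ (C.Γ f g) φ))
    - (2 : ℝ)⁻¹ * I (φ * (C.Γ f (C.lap g) + C.Γ g (C.lap f)))
    - κ * I (φ * C.Γ f g) - (2 : ℝ)⁻¹ * I (φ * (C.lap f * C.lap g))

/-- twice the trace-modified Hessian: `2 Hess h (f,g) - Γ(f,g) Δh` -/
noncomputable def Calc.KK (C : Calc m) (h f g : M →ₘ[m] ℝ) : M →ₘ[m] ℝ :=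
  (2 : ℝ) • C.hess h f g - C.Γ f g * C.lap h

/-- `Γ(h,f)Γ(k,g) + Γ(h,g)Γ(k,f) - Γ(f,g)Γ(h,k)` -/
noncomputable def Calc.MM (C : Calc m) (f g h k : M →ₘ[m] ℝ) : M →ₘ[m] ℝ :=
  C.Γ h f * C.Γ k g + C.Γ h g * C.Γ k f - C.Γ f g * C.Γ h k

namespace IsGamma

variable (hC : IsGamma C) {κ : ℝ} (hB : C.BE κ 2)
variable {f g h k φ ψ : M →ₘ[m] ℝ}

include hC hB

/-! ### the algebra of test functions -/

theorem test_add (hf : f ∈ C.Test) (hg : g ∈ C.Test) : f + g ∈ C.Test := by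
  rw [hC.mem_test_iff] at hf hg ⊢
  obtain ⟨f1, f2, f3, f4, f5, f6⟩ := hf
  obtain ⟨g1, g2, g3, g4, g5, g6⟩ := hg
  refine ⟨hC.add_mem _ f1 _ g1, mem_add f2 g2, ?_, f4 + g4, hC.isLap_add f5 g5,
    hC.add_mem _ f6 _ g6⟩
  have : C.Γ (f + g) (f + g) = C.Γ f f + (2 : ℝ) • C.Γ f g + C.Γ g g := by
    rw [hC.add_left _ f1 _ g1 _ (hC.add_mem _ f1 _ g1), hC.Γ_add_right f1 f1 g1,
      hC.Γ_add_right g1 f1 g1, hC.symm _ g1 _ f1]
    algebra
  rw [this]
  exact mem_add (mem_add f3 (mem_smul _ (hC.Γ_memTop f1 f3 g1 g3))) g3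

theorem test_smul (c : ℝ) (hf : f ∈ C.Test) : c • f ∈ C.Test := by
  rw [hC.mem_test_iff] at hf ⊢
  obtain ⟨f1, f2, f3, f4, f5, f6⟩ := hf
  refine ⟨hC.smul_mem _ _ f1, mem_smul _ f2, ?_, c • f4, hC.isLap_smul c f5,
    hC.smul_mem _ _ f6⟩
  rw [hC.smul_left _ _ f1 _ (hC.smul_mem _ _ f1), hC.Γ_smul_right _ f1 f1]
  exact mem_smul _ (mem_smul _ f3)

theorem test_zero : (0 : M →ₘ[m] ℝ) ∈ C.Test := by
  rw [hC.mem_test_iff]
  refine ⟨hC.zero_mem, mem_zero, by rw [hC.Γ_zero_left hC.zero_mem]; exact mem_zero, 0,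
    ⟨hC.zero_mem, mem_zero, fun g hg => ?_⟩, hC.zero_mem⟩
  change I (C.Γ 0 g) = -I (0 * g)
  rw [hC.Γ_zero_left hg, zero_mul, I_zero, neg_zero]

theorem lap_add (hf : f ∈ C.Test) (hg : g ∈ C.Test) : C.lap (f + g) = C.lap f + C.lap g := by
  exact hC.lap_eq (hC.isLap_add (hC.test_isLap hf) (hC.test_isLap hg))

theorem lap_smul (c : ℝ) (hf : f ∈ C.Test) : C.lap (c • f) = c • C.lap f := by
  exact hC.lap_eq (hC.isLap_smul c (hC.test_isLap hf))

theorem isLap_mul (hf : f ∈ C.Test) (hg : g ∈ C.Test) :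
    C.IsLap (f * g) (f * C.lap g + g * C.lap f + (2 : ℝ) • C.Γ f g) := by
  have fA := hC.test_A hf
  have gA := hC.test_A hg
  have lf := hC.test_isLap hf
  have lg := hC.test_isLap hg
  have hfg := hC.Γ_mem hB hf hg
  have hK : MemLp (f * C.lap g + g * C.lap f + (2 : ℝ) • C.Γ f g : M →ₘ[m] ℝ) 2 m :=
    mem_add (mem_add (mem_mul_top fA.2 lg.2.1) (mem_mul_top gA.2 lf.2.1))
      (mem_smul _ (hC.memLp _ hfg.1))
  have hmem : f * g ∈ C.W := (hC.mul_mem_A fA gA).1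
  refine ⟨hmem, hK, fun h hh => ?_⟩
  change I (C.Γ (f * g) h) = -I ((f * C.lap g + g * C.lap f + (2 : ℝ) • C.Γ f g) * h)
  suffices H : I (C.Γ (f * g) h)
      + I ((f * C.lap g + g * C.lap f + (2 : ℝ) • C.Γ f g) * h) = 0 by linarith
  refine hC.ext_A hmem hK (fun h hh => ?_) hh
  have e1 : I (C.Γ g (f * h)) = -I (C.lap g * (f * h)) := lg.2.2 _ (hC.mul_mem_A fA hh).1
  have e2 : I (C.Γ f (g * h)) = -I (C.lap f * (g * h)) := lf.2.2 _ (hC.mul_mem_A gA hh).1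
  rw [hC.Γ_mul_right fA hh gA.1] at e1
  rw [hC.Γ_mul_right gA hh fA.1] at e2
  have n1 := mem_mul_top fA.2 (hC.Γ_mem1 gA.1 hh.1)
  have n2 := mem_mul_top hh.2 (hC.Γ_mem1 gA.1 fA.1)
  have n3 := mem_mul_top gA.2 (hC.Γ_mem1 fA.1 hh.1)
  have n4 := mem_mul_top hh.2 (hC.Γ_mem1 fA.1 gA.1)
  have n5 := mem_mul_22 lg.2.1 (mem_mul_top fA.2 (hC.memLp _ hh.1))
  have n6 := mem_mul_22 lf.2.1 (mem_mul_top gA.2 (hC.memLp _ hh.1))
  rw [I_add n1 n2] at e1
  rw [I_add n3 n4] at e2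
  rw [hC.Γ_mul_left fA gA hh.1, I_add n1 n3]
  have e3 : (f * C.lap g + g * C.lap f + (2 : ℝ) • C.Γ f g) * h
      = C.lap g * (f * h) + C.lap f * (g * h) + (2 : ℝ) • (h * C.Γ f g) := by algebra
  rw [e3, I_add (mem_add n5 n6) (mem_smul _ n4), I_add n5 n6, I_smul]
  rw [hC.symm _ gA.1 _ fA.1] at e1
  linarith

theorem lap_mul (hf : f ∈ C.Test) (hg : g ∈ C.Test) :
    C.lap (f * g) = f * C.lap g + g * C.lap f + (2 : ℝ) • C.Γ f g :=
  hC.lap_eq (hC.isLap_mul hB hf hg)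

theorem test_mul (hf : f ∈ C.Test) (hg : g ∈ C.Test) : f * g ∈ C.Test := by
  have fA := hC.test_A hf
  have gA := hC.test_A hg
  have h1 := hC.test_Γ_top hf
  have h2 := hC.test_Γ_top hg
  have h3 := hC.Γ_memTop fA.1 h1 gA.1 h2
  have hmem : f * g ∈ C.A := hC.mul_mem_A fA gA
  rw [hC.mem_test_iff]
  refine ⟨hmem.1, hmem.2, ?_, _, hC.isLap_mul hB hf hg, ?_⟩
  · rw [hC.Γ_mul_left fA gA hmem.1, hC.Γ_mul_right fA gA gA.1, hC.Γ_mul_right fA gA fA.1]
    refine mem_add (mem_mul_top fA.2 (mem_add (mem_mul_top fA.2 h2) (mem_mul_top gA.2 ?_)))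
      (mem_mul_top gA.2 (mem_add (mem_mul_top fA.2 h3) (mem_mul_top gA.2 h1)))
    rw [hC.symm _ gA.1 _ fA.1]; exact h3
  · exact hC.add_mem _ (hC.add_mem _ (hC.mul_mem_lip fA h1 (hC.test_lap_mem hg)) _
      (hC.mul_mem_lip gA h2 (hC.test_lap_mem hf))) _ (hC.smul_mem _ _ (hC.Γ_mem hB hf hg).1)

theorem test_sum {ι : Type*} (s : Finset ι) {F : ι → M →ₘ[m] ℝ} (hF : ∀ i, F i ∈ C.Test) :
    ∑ i ∈ s, F i ∈ C.Test := by
  classical
  induction s using Finset.induction_on with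
  | empty => simpa using hC.test_zero hB
  | insert i s hi ih => rw [Finset.sum_insert hi]; exact hC.test_add hB (hF i) ih

/-! ### the functional `NN` -/

theorem NN_int1 (hf : f ∈ C.Test) (hg : g ∈ C.Test) (hφ : φ ∈ C.A) :
    MemLp (C.Γ (C.Γ f g) φ) 1 m ∧ MemLp (φ * (C.Γ f (C.lap g) + C.Γ g (C.lap f))) 1 m ∧
      MemLp (φ * C.Γ f g) 1 m ∧ MemLp (φ * (C.lap f * C.lap g)) 1 m := by
  have fA := hC.test_A hf
  have gA := hC.test_A hg
  refine ⟨hC.Γ_mem1 (hC.Γ_mem hB hf hg).1 hφ.1, mem_mul_top hφ.2 (mem_add ?_ ?_),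
    mem_mul_top hφ.2 (hC.Γ_mem1 fA.1 gA.1),
    mem_mul_top hφ.2 (mem_mul_22 (hC.test_isLap hf).2.1 (hC.test_isLap hg).2.1)⟩
  · exact hC.Γ_mem1 fA.1 (hC.test_lap_mem hg)
  · exact hC.Γ_mem1 gA.1 (hC.test_lap_mem hf)

/-- `NN` as the integral of one function -/
theorem NN_eq (hf : f ∈ C.Test) (hg : g ∈ C.Test) (hφ : φ ∈ C.A) :
    C.NN κ f g φ = I (-((2 : ℝ)⁻¹ • C.Γ (C.Γ f g) φ)
      - (2 : ℝ)⁻¹ • (φ * (C.Γ f (C.lap g) + C.Γ g (C.lap f))) - κ • (φ * C.Γ f g)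
      - (2 : ℝ)⁻¹ • (φ * (C.lap f * C.lap g))) := by
  obtain ⟨n1, n2, n3, n4⟩ := hC.NN_int1 hB hf hg hφ
  rw [I_sub (mem_sub (mem_sub (mem_neg (mem_smul _ n1)) (mem_smul _ n2)) (mem_smul _ n3))
    (mem_smul _ n4), I_sub (mem_sub (mem_neg (mem_smul _ n1)) (mem_smul _ n2)) (mem_smul _ n3),
    I_sub (mem_neg (mem_smul _ n1)) (mem_smul _ n2), I_neg, I_smul, I_smul, I_smul, I_smul]
  rfl

theorem NN_int (hf : f ∈ C.Test) (hg : g ∈ C.Test) (hφ : φ ∈ C.A) :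
    MemLp (-((2 : ℝ)⁻¹ • C.Γ (C.Γ f g) φ)
      - (2 : ℝ)⁻¹ • (φ * (C.Γ f (C.lap g) + C.Γ g (C.lap f))) - κ • (φ * C.Γ f g)
      - (2 : ℝ)⁻¹ • (φ * (C.lap f * C.lap g)) : M →ₘ[m] ℝ) 1 m := by
  obtain ⟨n1, n2, n3, n4⟩ := hC.NN_int1 hB hf hg hφ
  exact mem_sub (mem_sub (mem_sub (mem_neg (mem_smul _ n1)) (mem_smul _ n2)) (mem_smul _ n3))
    (mem_smul _ n4)

theorem NN_symm (hf : f ∈ C.Test) (hg : g ∈ C.Test) : C.NN κ f g φ = C.NN κ g f φ := by
  have fA := hC.test_A hf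
  have gA := hC.test_A hg
  unfold Calc.NN
  rw [hC.symm _ gA.1 _ fA.1, add_comm (C.Γ g (C.lap f)), mul_comm (C.lap g)]

theorem NN_add_left (hf : f ∈ C.Test) (hg : g ∈ C.Test) (hh : h ∈ C.Test) (hφ : φ ∈ C.A) :
    C.NN κ (f + g) h φ = C.NN κ f h φ + C.NN κ g h φ := by
  have fA := hC.test_A hf
  have gA := hC.test_A hg
  have hA := hC.test_A hh
  have hfg := hC.test_add hB hf hg
  have lf := hC.test_lap_mem hf
  have lg := hC.test_lap_mem hg
  have lh := hC.test_lap_mem hh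
  rw [hC.NN_eq hB hfg hh hφ, hC.NN_eq hB hf hh hφ, hC.NN_eq hB hg hh hφ,
    ← I_add (hC.NN_int hB hf hh hφ) (hC.NN_int hB hg hh hφ), hC.lap_add hB hf hg,
    hC.add_left _ fA.1 _ gA.1 _ hA.1, hC.add_left _ fA.1 _ gA.1 _ lh,
    hC.Γ_add_right hA.1 lf lg,
    hC.add_left _ (hC.Γ_mem hB hf hh).1 _ (hC.Γ_mem hB hg hh).1 _ hφ.1]
  congr 1
  algebra

theorem NN_smul_left (c : ℝ) (hf : f ∈ C.Test) (hh : h ∈ C.Test) (hφ : φ ∈ C.A) :
    C.NN κ (c • f) h φ = c * C.NN κ f h φ := by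
  have fA := hC.test_A hf
  have hA := hC.test_A hh
  have hcf := hC.test_smul hB c hf
  have lf := hC.test_lap_mem hf
  have lh := hC.test_lap_mem hh
  rw [hC.NN_eq hB hcf hh hφ, hC.NN_eq hB hf hh hφ, ← I_smul, hC.lap_smul hB c hf,
    hC.smul_left _ _ fA.1 _ hA.1, hC.smul_left _ _ fA.1 _ lh, hC.Γ_smul_right _ hA.1 lf,
    hC.smul_left _ _ (hC.Γ_mem hB hf hh).1 _ hφ.1]
  congr 1
  algebra

theorem NN_add_φ (hf : f ∈ C.Test) (hg : g ∈ C.Test) (hφ : φ ∈ C.A) (hψ : ψ ∈ C.A) :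
    C.NN κ f g (φ + ψ) = C.NN κ f g φ + C.NN κ f g ψ := by
  have hφψ : φ + ψ ∈ C.A := ⟨hC.add_mem _ hφ.1 _ hψ.1, mem_add hφ.2 hψ.2⟩
  rw [hC.NN_eq hB hf hg hφψ, hC.NN_eq hB hf hg hφ, hC.NN_eq hB hf hg hψ,
    ← I_add (hC.NN_int hB hf hg hφ) (hC.NN_int hB hf hg hψ),
    hC.Γ_add_right (hC.Γ_mem hB hf hg).1 hφ.1 hψ.1]
  congr 1
  algebra

theorem NN_smul_φ (c : ℝ) (hf : f ∈ C.Test) (hg : g ∈ C.Test) (hφ : φ ∈ C.A) :
    C.NN κ f g (c • φ) = c * C.NN κ f g φ := by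
  have hcφ : c • φ ∈ C.A := ⟨hC.smul_mem _ _ hφ.1, mem_smul _ hφ.2⟩
  rw [hC.NN_eq hB hf hg hcφ, hC.NN_eq hB hf hg hφ, ← I_smul,
    hC.Γ_smul_right _ (hC.Γ_mem hB hf hg).1 hφ.1]
  congr 1
  algebra

theorem NN_nonneg (hf : f ∈ C.Test) (hφ : φ ∈ C.A) (h0 : 0 ≤ φ) : 0 ≤ C.NN κ f f φ := by
  have h1 := hC.bochner_weak hB hf hφ h0
  obtain ⟨n1, n2, n3, n4⟩ := hC.NN_int1 hB hf hf hφ
  have e : φ * (C.Γ f (C.lap f) + κ • C.Γ f f + (2 : ℝ)⁻¹ • C.lap f ^ 2)
      = (2 : ℝ)⁻¹ • (φ * (C.Γ f (C.lap f) + C.Γ f (C.lap f))) + κ • (φ * C.Γ f f)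
        + (2 : ℝ)⁻¹ • (φ * (C.lap f * C.lap f)) := by algebra
  rw [e, I_add (mem_add (mem_smul _ n2) (mem_smul _ n3)) (mem_smul _ n4),
    I_add (mem_smul _ n2) (mem_smul _ n3), I_smul, I_smul, I_smul] at h1
  unfold Calc.NN
  linarith only [h1]

/-- product rule for `NN` -/
theorem NN_mul (hf : f ∈ C.Test) (hg : g ∈ C.Test) (hh : h ∈ C.Test) (hφ : φ ∈ C.A) :
    C.NN κ (f * g) h φ = C.NN κ g h (f * φ) + C.NN κ f h (g * φ) + I (φ * C.KK h f g) := by
  have fA := hC.test_A hf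
  have gA := hC.test_A hg
  have hA := hC.test_A hh
  have fT := hC.test_Γ_top hf
  have gT := hC.test_Γ_top hg
  have hT := hC.test_Γ_top hh
  have hfg := hC.test_mul hB hf hg
  have lf := hC.test_lap_mem hf
  have lg := hC.test_lap_mem hg
  have lh := hC.test_lap_mem hh
  have fφ : f * φ ∈ C.A := hC.mul_mem_A fA hφ
  have gφ : g * φ ∈ C.A := hC.mul_mem_A gA hφ
  have aA := hC.Γ_mem hB hg hh
  have bA := hC.Γ_mem hB hf hh
  have cA := hC.Γ_mem hB hf hg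
  set a := C.Γ g h with ha
  set b := C.Γ f h with hb
  set c := C.Γ f g with hc
  -- the two integration by parts
  have p1 : I (C.Γ f (a * φ)) + I (C.lap f * (a * φ)) = 0 := by
    have : I (C.Γ f (a * φ)) = -I (C.lap f * (a * φ)) :=
      (hC.test_isLap hf).2.2 _ (hC.mul_mem_A aA hφ).1
    linarith
  have p2 : I (C.Γ g (b * φ)) + I (C.lap g * (b * φ)) = 0 := by
    have : I (C.Γ g (b * φ)) = -I (C.lap g * (b * φ)) :=
      (hC.test_isLap hg).2.2 _ (hC.mul_mem_A bA hφ).1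
    linarith
  have k1 := mem_mul_22 (hC.memLp _ lf) (hC.memLp _ (hC.mul_mem_A aA hφ).1)
  have k2 := mem_mul_22 (hC.memLp _ lg) (hC.memLp _ (hC.mul_mem_A bA hφ).1)
  have k3 := hC.Γ_mem1 fA.1 (hC.mul_mem_A aA hφ).1
  have k4 := hC.Γ_mem1 gA.1 (hC.mul_mem_A bA hφ).1
  rw [← I_add k3 k1] at p1
  rw [← I_add k4 k2] at p2
  have hK : MemLp (φ * C.KK h f g) 1 m := by
    refine mem_mul_top hφ.2 ?_
    unfold Calc.KK Calc.hess
    refine mem_sub (mem_smul _ (mem_smul _ (mem_sub (mem_add ?_ ?_) ?_)))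
      (mem_mul_22 (hC.memLp _ cA.1) (hC.memLp _ lh))
    · exact hC.Γ_mem1 fA.1 (hC.Γ_mem hB hh hg).1
    · exact hC.Γ_mem1 gA.1 (hC.Γ_mem hB hh hf).1
    · exact hC.Γ_mem1 hA.1 cA.1
  have q1 := hC.NN_int (κ := κ) hB hfg hh hφ
  have q2 := hC.NN_int (κ := κ) hB hg hh fφ
  have q3 := hC.NN_int (κ := κ) hB hf hh gφ
  rw [hC.NN_eq hB hfg hh hφ, hC.NN_eq hB hg hh fφ, hC.NN_eq hB hf hh gφ,
    ← I_add q2 q3, ← I_add (mem_add q2 q3) hK]
  -- the pointwise identity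
  have e1 : C.Γ (f * g) h = f * a + g * b := hC.Γ_mul_left fA gA hA.1
  have e2 : C.Γ (f * a + g * b) φ = (f * C.Γ a φ + a * C.Γ f φ) + (g * C.Γ b φ + b * C.Γ g φ) := by
    rw [hC.add_left _ (hC.mul_mem_A fA aA).1 _ (hC.mul_mem_A gA bA).1 _ hφ.1,
      hC.Γ_mul_left fA aA hφ.1, hC.Γ_mul_left gA bA hφ.1]
  have e3 : C.Γ (f * g) (C.lap h) = f * C.Γ g (C.lap h) + g * C.Γ f (C.lap h) :=
    hC.Γ_mul_left fA gA lh
  have e4 : C.Γ h (C.lap (f * g)) = (f * C.Γ h (C.lap g) + C.lap g * b)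
      + (g * C.Γ h (C.lap f) + C.lap f * a) + (2 : ℝ) • C.Γ h c := by
    have m1 := hC.mul_mem_lip fA fT lg
    have m2 := hC.mul_mem_lip gA gT lf
    rw [hC.lap_mul hB hf hg, hC.Γ_add_right hA.1 (hC.add_mem _ m1 _ m2) (hC.smul_mem _ _ cA.1),
      hC.Γ_add_right hA.1 m1 m2, hC.Γ_smul_right _ hA.1 cA.1, hC.symm _ hA.1 _ m1,
      hC.symm _ hA.1 _ m2, hC.Γ_mul_left_lip fA fT lg hA.1, hC.Γ_mul_left_lip gA gT lf hA.1,
      hC.symm _ hA.1 _ lg, hC.symm _ hA.1 _ lf]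
  have e5 : C.Γ a (f * φ) = f * C.Γ a φ + φ * C.Γ f a := by
    rw [hC.Γ_mul_right fA hφ aA.1, hC.symm _ aA.1 _ fA.1]
  have e6 : C.Γ b (g * φ) = g * C.Γ b φ + φ * C.Γ g b := by
    rw [hC.Γ_mul_right gA hφ bA.1, hC.symm _ bA.1 _ gA.1]
  have e7 : C.Γ f (a * φ) = a * C.Γ f φ + φ * C.Γ f a := hC.Γ_mul_right aA hφ fA.1
  have e8 : C.Γ g (b * φ) = b * C.Γ g φ + φ * C.Γ g b := hC.Γ_mul_right bA hφ gA.1
  have e9 : C.KK h f g = C.Γ f a + C.Γ g b - C.Γ h c - c * C.lap h := by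
    unfold Calc.KK Calc.hess
    rw [hC.symm _ hA.1 _ gA.1, hC.symm _ hA.1 _ fA.1, ← ha, ← hb, ← hc]
    algebra
  have s1 : MemLp (C.Γ f (a * φ) + C.lap f * (a * φ) : M →ₘ[m] ℝ) 1 m := mem_add k3 k1
  have s2 : MemLp (C.Γ g (b * φ) + C.lap g * (b * φ) : M →ₘ[m] ℝ) 1 m := mem_add k4 k2
  have hD : (-((2 : ℝ)⁻¹ • C.Γ (C.Γ (f * g) h) φ)
      - (2 : ℝ)⁻¹ • (φ * (C.Γ (f * g) (C.lap h) + C.Γ h (C.lap (f * g))))
      - κ • (φ * C.Γ (f * g) h) - (2 : ℝ)⁻¹ • (φ * (C.lap (f * g) * C.lap h)))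
      = ((-((2 : ℝ)⁻¹ • C.Γ (C.Γ g h) (f * φ))
      - (2 : ℝ)⁻¹ • (f * φ * (C.Γ g (C.lap h) + C.Γ h (C.lap g)))
      - κ • (f * φ * C.Γ g h) - (2 : ℝ)⁻¹ • (f * φ * (C.lap g * C.lap h)))
      + (-((2 : ℝ)⁻¹ • C.Γ (C.Γ f h) (g * φ))
      - (2 : ℝ)⁻¹ • (g * φ * (C.Γ f (C.lap h) + C.Γ h (C.lap f)))
      - κ • (g * φ * C.Γ f h) - (2 : ℝ)⁻¹ • (g * φ * (C.lap f * C.lap h)))
      + φ * C.KK h f g)
      + (-(2 : ℝ)⁻¹) • (C.Γ f (a * φ) + C.lap f * (a * φ)) 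
      + (-(2 : ℝ)⁻¹) • (C.Γ g (b * φ) + C.lap g * (b * φ)) := by
    rw [e1, e2, e3, e4, ← ha, ← hb, e5, e6, e7, e8, e9, hC.lap_mul hB hf hg, ← hc]
    algebra
  rw [hD, I_add (mem_add (mem_add (mem_add q2 q3) hK) (mem_smul _ s1)) (mem_smul _ s2),
    I_add (mem_add (mem_add q2 q3) hK) (mem_smul _ s1), I_smul, I_smul, p1, p2]
  ring

theorem KK_mem2 (hf : f ∈ C.Test) (hg : g ∈ C.Test) (hh : h ∈ C.Test) :
    MemLp (C.KK h f g) 2 m := by
  have fA := hC.test_A hf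
  have gA := hC.test_A hg
  have hA := hC.test_A hh
  have fT := hC.test_Γ_top hf
  have gT := hC.test_Γ_top hg
  have hT := hC.test_Γ_top hh
  unfold Calc.KK Calc.hess
  refine mem_sub (mem_smul _ (mem_smul _ (mem_sub (mem_add ?_ ?_) ?_)))
    (mem_mul_top (hC.Γ_mem hB hf hg).2 (hC.memLp _ (hC.test_lap_mem hh)))
  · exact hC.Γ_mem2 fA.1 fT (hC.Γ_mem hB hh hg).1
  · exact hC.Γ_mem2 gA.1 gT (hC.Γ_mem hB hh hf).1
  · exact hC.Γ_mem2 hA.1 hT (hC.Γ_mem hB hf hg).1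

theorem KK_mul (hf : f ∈ C.Test) (hg : g ∈ C.Test) (hh : h ∈ C.Test) (hk : k ∈ C.Test) :
    C.KK (h * k) f g = h * C.KK k f g + k * C.KK h f g + (2 : ℝ) • C.MM f g h k := by
  have fA := hC.test_A hf
  have gA := hC.test_A hg
  have hA := hC.test_A hh
  have kA := hC.test_A hk
  have fg := hC.Γ_mem hB hf hg
  have kg := hC.Γ_mem hB hk hg
  have hg' := hC.Γ_mem hB hh hg
  have kf := hC.Γ_mem hB hk hf
  have hf' := hC.Γ_mem hB hh hf
  unfold Calc.KK Calc.hess Calc.MM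
  rw [hC.Γ_mul_left hA kA gA.1, hC.Γ_mul_left hA kA fA.1, hC.Γ_mul_left hA kA fg.1,
    hC.Γ_add_right fA.1 (hC.mul_mem_A hA kg).1 (hC.mul_mem_A kA hg').1,
    hC.Γ_add_right gA.1 (hC.mul_mem_A hA kf).1 (hC.mul_mem_A kA hf').1,
    hC.Γ_mul_right hA kg fA.1, hC.Γ_mul_right kA hg' fA.1,
    hC.Γ_mul_right hA kf gA.1, hC.Γ_mul_right kA hf' gA.1, hC.lap_mul hB hh hk,
    hC.symm _ fA.1 _ hA.1, hC.symm _ fA.1 _ kA.1, hC.symm _ gA.1 _ hA.1, hC.symm _ gA.1 _ kA.1]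
  algebra

theorem MM_mem1 (hf : f ∈ C.Test) (hg : g ∈ C.Test) (hh : h ∈ C.Test) (hk : k ∈ C.Test) :
    MemLp (C.MM f g h k) 1 m := by
  have fA := hC.test_A hf
  have gA := hC.test_A hg
  have hA := hC.test_A hh
  have kA := hC.test_A hk
  unfold Calc.MM
  exact mem_sub (mem_add (mem_mul_top (hC.Γ_mem hB hh hf).2 (hC.Γ_mem1 kA.1 gA.1))
    (mem_mul_top (hC.Γ_mem hB hh hg).2 (hC.Γ_mem1 kA.1 fA.1)))
    (mem_mul_top (hC.Γ_mem hB hf hg).2 (hC.Γ_mem1 hA.1 kA.1))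

/-! ### from constant to function coefficients (Bernstein polynomials) -/

/-- A general positivity principle: a symmetric family of linear functionals that is positive
for constant coefficients is positive for coefficients in `AP`. -/
theorem master_general {n : ℕ} (Q : Fin n → Fin n → (M →ₘ[m] ℝ) → ℝ)
    (hsymm : ∀ i j, ∀ φ ∈ C.A, Q i j φ = Q j i φ)
    (hadd : ∀ i j, ∀ φ ∈ C.A, ∀ ψ ∈ C.A, Q i j (φ + ψ) = Q i j φ + Q i j ψ)
    (hsmul : ∀ i j, ∀ c : ℝ, ∀ φ ∈ C.A, Q i j (c • φ) = c * Q i j φ)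
    (hpos : ∀ c : Fin n → ℝ, ∀ φ ∈ C.A, 0 ≤ φ → 0 ≤ ∑ i, ∑ j, c i * c j * Q i j φ)
    {a : Fin n → M →ₘ[m] ℝ} (ha : ∀ i, a i ∈ C.AP) (hφ : φ ∈ C.A) (hφ0 : 0 ≤ φ) :
    0 ≤ ∑ i, ∑ j, Q i j (φ * (a i * a j)) :=
  hC.master_fintype hadd hsmul hpos ha hφ hφ0

section fintype
variable {ι : Type*}

theorem NN_zero_left (hh : h ∈ C.Test) (hφ : φ ∈ C.A) : C.NN κ 0 h φ = 0 := by
  have := hC.NN_smul_left (κ := κ) hB 0 (hC.test_zero hB) hh hφ
  simpa using this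

theorem NN_sum_left (s : Finset ι) {F : ι → M →ₘ[m] ℝ} (hF : ∀ i, F i ∈ C.Test) (c : ι → ℝ)
    (hh : h ∈ C.Test) (hφ : φ ∈ C.A) :
    C.NN κ (∑ i ∈ s, c i • F i) h φ = ∑ i ∈ s, c i * C.NN κ (F i) h φ := by
  classical
  induction s using Finset.induction_on with
  | empty => simpa using hC.NN_zero_left hB hh hφ
  | insert i s hi ih =>
    rw [Finset.sum_insert hi, Finset.sum_insert hi,
      hC.NN_add_left hB (hC.test_smul hB _ (hF i))
        (hC.test_sum hB s (fun i => hC.test_smul hB _ (hF i))) hh hφ,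
      ih, hC.NN_smul_left hB _ (hF i) hh hφ]

theorem NN_master' [Fintype ι] [DecidableEq ι] {F : ι → M →ₘ[m] ℝ} (hF : ∀ i, F i ∈ C.Test)
    {a : ι → M →ₘ[m] ℝ} (ha : ∀ i, a i ∈ C.AP) (hφ : φ ∈ C.A) (hφ0 : 0 ≤ φ) :
    0 ≤ ∑ i, ∑ j, C.NN κ (F i) (F j) (φ * (a i * a j)) := by
  refine hC.master_fintype (Q := fun i j φ => C.NN κ (F i) (F j) φ) ?_ ?_ ?_ ha hφ hφ0
  · intro i j φ hφ ψ hψ
    exact hC.NN_add_φ hB (hF i) (hF j) hφ hψ
  · intro i j c φ hφ
    exact hC.NN_smul_φ hB c (hF i) (hF j) hφ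
  · intro c φ hφ hφ0
    have hS := hC.test_sum hB Finset.univ (fun i => hC.test_smul hB (c i) (hF i))
    have h1 := hC.NN_nonneg hB hS hφ hφ0
    rw [hC.NN_sum_left hB _ hF c hS hφ] at h1
    have h2 : ∀ i, C.NN κ (F i) (∑ j, c j • F j) φ = ∑ j, c j * C.NN κ (F i) (F j) φ := by
      intro i
      rw [hC.NN_symm hB (hF i) hS, hC.NN_sum_left hB _ hF c (hF i) hφ]
      exact Finset.sum_congr rfl fun j _ => by rw [hC.NN_symm hB (hF j) (hF i)]
    simp only [h2, Finset.mul_sum] at h1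
    convert h1 using 1
    refine Finset.sum_congr rfl fun i _ => Finset.sum_congr rfl fun j _ => ?_
    ring

end fintype

/-- a block of three terms -/
theorem block (hf : f ∈ C.Test) (hh : h ∈ C.Test) (hg : g ∈ C.Test) {s a : M →ₘ[m] ℝ}
    (hs : s ∈ C.A) (ha : a ∈ C.AP) (hφ : φ ∈ C.A) :
    C.NN κ (f * h) g (φ * (s * a)) + C.NN κ h g (φ * (-(s * f) * a))
      + C.NN κ f g (φ * (-(s * h) * a)) = I (φ * (s * a) * C.KK g f h) := by
  have hψ : φ * (s * a) ∈ C.A := by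
    rw [← mul_assoc]; exact hC.A_mul_AP (hC.mul_mem_A hφ hs) ha
  have h1 := hC.NN_mul (κ := κ) hB hf hh hg hψ
  have e1 : φ * (-(s * f) * a) = (-1 : ℝ) • (f * (φ * (s * a))) := by algebra
  have e2 : φ * (-(s * h) * a) = (-1 : ℝ) • (h * (φ * (s * a))) := by algebra
  rw [e1, e2, hC.NN_smul_φ hB _ hh hg (hC.mul_mem_A (hC.test_A hf) hψ),
    hC.NN_smul_φ hB _ hf hg (hC.mul_mem_A (hC.test_A hh) hψ), h1]
  ring

/-- the key inequality, for tensors `∑ s_r (∇f_r ⊗ ∇h_r + ∇h_r ⊗ ∇f_r)` -/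
theorem tensor_ineq {n : ℕ} {b : M →ₘ[m] ℝ} (hb : b ∈ C.Test) {F H s : Fin n → M →ₘ[m] ℝ}
    (hF : ∀ i, F i ∈ C.Test) (hH : ∀ i, H i ∈ C.Test) (hs : ∀ i, s i ∈ C.A)
    (hφ : φ ∈ C.A) (hφ0 : 0 ≤ φ) :
    0 ≤ C.NN κ b b φ + 2 * ∑ i, I (φ * (s i * C.KK b (F i) (H i)))
      + 2 * ∑ i, ∑ j, I (φ * (s i * s j * C.MM (F i) (H i) (F j) (H j))) := by
  set G : Option (Fin n × Fin 3) → M →ₘ[m] ℝ :=
    fun o => o.elim b (fun p => (![F p.1 * H p.1, H p.1, F p.1] : Fin 3 → M →ₘ[m] ℝ) p.2) with hG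
  set a : Option (Fin n × Fin 3) → M →ₘ[m] ℝ :=
    fun o => o.elim 1 (fun p => (![s p.1, -(s p.1 * F p.1), -(s p.1 * H p.1)] :
      Fin 3 → M →ₘ[m] ℝ) p.2) with ha
  have hGT : ∀ o, G o ∈ C.Test := by
    rintro (_ | ⟨i, t⟩)
    · exact hb
    · fin_cases t
      · exact hC.test_mul hB (hF i) (hH i)
      · exact hH i
      · exact hF i
  have haA : ∀ o, a o ∈ C.AP := by
    rintro (_ | ⟨i, t⟩)
    · have := hC.AP_const 1
      simpa only [ha, Option.elim_none, one_smul] using this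
    · fin_cases t
      · exact hC.AP_of_A (hs i)
      · have := hC.A_smul (-1) (hC.mul_mem_A (hs i) (hC.test_A (hF i)))
        exact hC.AP_of_A (by simpa only [ha, Fin.mk_one, Fin.isValue, Option.elim_some, Matrix.cons_val_one, Matrix.cons_val_zero,     neg_smul, one_smul] using this)
      · have := hC.A_smul (-1) (hC.mul_mem_A (hs i) (hC.test_A (hH i)))
        exact hC.AP_of_A (by simpa only [ha, Fin.reduceFinMk, Fin.isValue, Option.elim_some, Matrix.cons_val, neg_smul, one_smul] using     this)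
  have key := hC.NN_master' (κ := κ) hB hGT haA hφ hφ0
  -- sum over a block against a fixed partner
  have hblock : ∀ (i : Fin n) (o : Option (Fin n × Fin 3)),
      ∑ t : Fin 3, C.NN κ (G (some (i, t))) (G o) (φ * (a (some (i, t)) * a o))
        = I (φ * (s i * a o) * C.KK (G o) (F i) (H i)) := by
    intro i o
    rw [Fin.sum_univ_three]
    exact hC.block hB (hF i) (hH i) (hGT o) (hs i) (haA o) hφ
  have hsum : ∑ o, ∑ o', C.NN κ (G o) (G o') (φ * (a o * a o'))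
      = C.NN κ b b φ + 2 * ∑ i, I (φ * (s i * C.KK b (F i) (H i)))
      + 2 * ∑ i, ∑ j, I (φ * (s i * s j * C.MM (F i) (H i) (F j) (H j))) := by
    have n0 : C.NN κ (G none) (G none) (φ * (a none * a none)) = C.NN κ b b φ := by
      simp [hG, ha]
    have n1 : ∑ p : Fin n × Fin 3, C.NN κ (G (some p)) (G none) (φ * (a (some p) * a none))
        = ∑ i, I (φ * (s i * C.KK b (F i) (H i))) := by
      rw [Fintype.sum_prod_type]
      refine Finset.sum_congr rfl fun i _ => ?_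
      rw [hblock i none]
      congr 1
      simp only [hG, ha, Option.elim_none]
      ring
    have n2 : ∑ p : Fin n × Fin 3, C.NN κ (G none) (G (some p)) (φ * (a none * a (some p)))
        = ∑ i, I (φ * (s i * C.KK b (F i) (H i))) := by
      rw [← n1]
      refine Finset.sum_congr rfl fun p _ => ?_
      rw [hC.NN_symm hB (hGT _) (hGT _), mul_comm (a none)]
    have n3 : ∑ p : Fin n × Fin 3, ∑ q : Fin n × Fin 3,
        C.NN κ (G (some p)) (G (some q)) (φ * (a (some p) * a (some q)))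
        = 2 * ∑ i, ∑ j, I (φ * (s i * s j * C.MM (F i) (H i) (F j) (H j))) := by
      have : ∀ (t : Fin 3) (j : Fin n), ∑ p : Fin n × Fin 3,
          C.NN κ (G (some p)) (G (some (j, t))) (φ * (a (some p) * a (some (j, t))))
          = ∑ i, I (φ * (s i * a (some (j, t))) * C.KK (G (some (j, t))) (F i) (H i)) := by
        intro t j
        rw [Fintype.sum_prod_type]
        exact Finset.sum_congr rfl fun i _ => hblock i _
      have h2 : ∀ j i : Fin n, ∑ t : Fin 3,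
          I (φ * (s i * a (some (j, t))) * C.KK (G (some (j, t))) (F i) (H i))
          = 2 * I (φ * (s i * s j * C.MM (F i) (H i) (F j) (H j))) := by
        intro j i
        rw [Fin.sum_univ_three]
        have k0 := mem_mul_22 (hC.memLp _ (hC.mul_mem_A hφ (hC.mul_mem_A (hs i) (hs j))).1)
          (hC.KK_mem2 hB (hF i) (hH i) (hC.test_mul hB (hF j) (hH j)))
        have k1 := mem_mul_22 (hC.memLp _ (hC.mul_mem_A hφ (hC.mul_mem_A (hs i)
          (hC.mul_mem_A (hs j) (hC.test_A (hF j))))).1)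
          (hC.KK_mem2 hB (hF i) (hH i) (hH j))
        have k2 := mem_mul_22 (hC.memLp _ (hC.mul_mem_A hφ (hC.mul_mem_A (hs i)
          (hC.mul_mem_A (hs j) (hC.test_A (hH j))))).1)
          (hC.KK_mem2 hB (hF i) (hH i) (hF j))
        have e0 : φ * (s i * a (some (j, 0))) * C.KK (G (some (j, 0))) (F i) (H i)
            = φ * (s i * s j) * C.KK (F j * H j) (F i) (H i) := by
          simp [hG, ha]
        have e1 : φ * (s i * a (some (j, 1))) * C.KK (G (some (j, 1))) (F i) (H i)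
            = -(φ * (s i * (s j * F j)) * C.KK (H j) (F i) (H i)) := by
          simp only [ha, Fin.isValue, Option.elim_some, Matrix.cons_val_one, Matrix.cons_val_zero, mul_neg, hG, neg_mul]
        have e2 : φ * (s i * a (some (j, 2))) * C.KK (G (some (j, 2))) (F i) (H i)
            = -(φ * (s i * (s j * H j)) * C.KK (F j) (F i) (H i)) := by
          simp only [ha, Fin.isValue, Option.elim_some, Matrix.cons_val, mul_neg, hG, neg_mul]
        rw [e0, e1, e2, ← I_add k0 (mem_neg k1), ← I_add (mem_add k0 (mem_neg k1)) (mem_neg k2),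
          ← I_smul]
        congr 1
        rw [hC.KK_mul hB (hF i) (hH i) (hF j) (hH j)]
        algebra
      have h3 : ∀ j : Fin n, ∑ t : Fin 3, ∑ i : Fin n,
          I (φ * (s i * a (some (j, t))) * C.KK (G (some (j, t))) (F i) (H i))
          = ∑ i, 2 * I (φ * (s i * s j * C.MM (F i) (H i) (F j) (H j))) := by
        intro j
        rw [Finset.sum_comm]
        exact Finset.sum_congr rfl fun i _ => h2 j i
      rw [Finset.sum_comm, Fintype.sum_prod_type]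
      simp only [this, h3, ← Finset.mul_sum]
      rw [Finset.sum_comm]
    rw [Fintype.sum_option, Fintype.sum_option, n0, n2]
    simp only [Fintype.sum_option, Finset.sum_add_distrib, n1, n3]
    ring
  rw [hsum] at key
  exact key

/-- the same with bounded measurable coefficients -/
theorem tensor_ineq' [SigmaFinite m] {n : ℕ} {b : M →ₘ[m] ℝ} (hb : b ∈ C.Test)
    {F H s : Fin n → M →ₘ[m] ℝ}
    (hF : ∀ i, F i ∈ C.Test) (hH : ∀ i, H i ∈ C.Test) (hs : ∀ i, MemLp (s i) ∞ m)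
    (hs2 : ∀ i, MemLp (s i) 2 m) (hφ : φ ∈ C.A) (hφ0 : 0 ≤ φ) :
    0 ≤ C.NN κ b b φ + 2 * ∑ i, I (φ * (s i * C.KK b (F i) (H i)))
      + 2 * ∑ i, ∑ j, I (φ * (s i * s j * C.MM (F i) (H i) (F j) (H j))) := by
  choose K hK using fun i => mem_top_iff.1 (hs i)
  choose u hu1 hu2 hu3 _ using fun i => hC.test_dense_bdd hB (hs2 i) (hK i)
  have key : ∀ k : ℕ, 0 ≤ C.NN κ b b φ + 2 * ∑ i, I (u i k * (φ * C.KK b (F i) (H i)))
      + 2 * ∑ i, ∑ j, I (u i k * u j k * (φ * C.MM (F i) (H i) (F j) (H j))) := by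
    intro k
    have h1 := hC.tensor_ineq (κ := κ) hB hb hF hH (fun i => hC.test_A (hu1 i k)) hφ hφ0
    have e1 : ∀ i, φ * (u i k * C.KK b (F i) (H i)) = u i k * (φ * C.KK b (F i) (H i)) := by
      intro i; ring
    have e2 : ∀ i j, φ * (u i k * u j k * C.MM (F i) (H i) (F j) (H j))
        = u i k * u j k * (φ * C.MM (F i) (H i) (F j) (H j)) := by
      intro i j; ring
    simp only [e1, e2] at h1
    exact h1
  have l1 : ∀ i, Tendsto (fun k => I (u i k * (φ * C.KK b (F i) (H i)))) atTop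
      (𝓝 (I (s i * (φ * C.KK b (F i) (H i))))) := fun i =>
    I_tendsto_of_bdd (hu2 i) (hu3 i)
      (mem_mul_22 (hC.memLp _ hφ.1) (hC.KK_mem2 hB (hF i) (hH i) hb))
  have l2 : ∀ i j, Tendsto (fun k => I (u i k * u j k * (φ * C.MM (F i) (H i) (F j) (H j)))) atTop
      (𝓝 (I (s i * s j * (φ * C.MM (F i) (H i) (F j) (H j))))) := by
    intro i j
    refine I_tendsto_of_bdd (K := K i * K j) ?_ ?_
      (mem_mul_top hφ.2 (hC.MM_mem1 hB (hF i) (hH i) (hF j) (hH j)))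
    · intro k
      filter_upwards [hu2 i k, hu2 j k, mul_ae (u i k) (u j k)] with x h1 h2 h3
      rw [h3, abs_mul]
      exact mul_le_mul h1 h2 (abs_nonneg _) ((abs_nonneg _).trans h1)
    · have hm : ∀ᵐ x ∂m, ∀ k, (u i k * u j k) x = u i k x * u j k x := by
        rw [ae_all_iff]; intro k; exact mul_ae _ _
      filter_upwards [hm, mul_ae (s i) (s j), hu3 i, hu3 j] with x h1 h2 h3 h4
      rw [h2]
      simp only [h1]
      exact h3.mul h4
  have hlim := ((tendsto_const_nhds (x := C.NN κ b b φ)).add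
    ((tendsto_finset_sum Finset.univ fun i _ => l1 i).const_mul 2)).add
    ((tendsto_finset_sum Finset.univ fun i _ => tendsto_finset_sum Finset.univ
      fun j _ => l2 i j).const_mul 2)
  have h0 := ge_of_tendsto hlim (Eventually.of_forall key)
  have e1 : ∀ i, φ * (s i * C.KK b (F i) (H i)) = s i * (φ * C.KK b (F i) (H i)) := by
    intro i; ring
  have e2 : ∀ i j, φ * (s i * s j * C.MM (F i) (H i) (F j) (H j))
      = s i * s j * (φ * C.MM (F i) (H i) (F j) (H j)) := by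
    intro i j; ring
  simp only [e1, e2]
  exact h0

end IsGamma

end Vale.Agent.P233
end
end

section

section

open MeasureTheory Filter Topology
open scoped ENNReal NNReal

namespace Vale.Agent.P233

variable {M : Type*} [MeasurableSpace M] {m : Measure M} {C : Calc m}

/-- `(D₁,D₂)` is a representation of the gradient: linear and isometric on `W`. -/
structure IsFrame (C : Calc m) (D₁ D₂ : (M →ₘ[m] ℝ) → (M →ₘ[m] ℝ)) : Prop where
  add₁ : ∀ f ∈ C.W, ∀ g ∈ C.W, D₁ (f + g) = D₁ f + D₁ g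
  add₂ : ∀ f ∈ C.W, ∀ g ∈ C.W, D₂ (f + g) = D₂ f + D₂ g
  smul₁ : ∀ (c : ℝ), ∀ f ∈ C.W, D₁ (c • f) = c • D₁ f
  smul₂ : ∀ (c : ℝ), ∀ f ∈ C.W, D₂ (c • f) = c • D₂ f
  Γ_eq : ∀ f ∈ C.W, ∀ g ∈ C.W, C.Γ f g = D₁ f * D₁ g + D₂ f * D₂ g

end Vale.Agent.P233
end
end

section

section

open MeasureTheory Filter Topology
open scoped ENNReal NNReal

namespace Vale.Agent.P233

variable {M : Type*} [MeasurableSpace M] {m : Measure M} {C : Calc m}

/-- fast convergence in `L¹` implies convergence almost everywhere -/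
theorem ae_tendsto_zero_of_fast {v : ℕ → M →ₘ[m] ℝ} (hv : ∀ n, MemLp (v n) 1 m)
    (h0 : ∀ n, 0 ≤ v n) (h : ∀ n, I (v n) ≤ (1 / 2 : ℝ) ^ n) :
    ∀ᵐ x ∂m, Tendsto (fun n => v n x) atTop (𝓝 0) := by
  have h1 : ∀ n, ∫⁻ x, ENNReal.ofReal (v n x) ∂m ≤ ENNReal.ofReal ((1 / 2 : ℝ) ^ n) := by
    intro n
    rw [← ofReal_integral_eq_lintegral_ofReal (int_of_mem (hv n)) (nonneg_iff_ae.1 (h0 n))]
    exact ENNReal.ofReal_le_ofReal (h n)
  have hm : ∀ n, AEMeasurable (fun x => ENNReal.ofReal (v n x)) m := fun n =>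
    (v n).aestronglyMeasurable.aemeasurable.ennreal_ofReal
  have h2 : ∫⁻ x, ∑' n, ENNReal.ofReal (v n x) ∂m ≠ ∞ := by
    rw [lintegral_tsum hm]
    refine ne_top_of_le_ne_top ?_ (ENNReal.tsum_le_tsum h1)
    rw [← ENNReal.ofReal_tsum_of_nonneg (fun n => by positivity)
      (summable_geometric_of_lt_one (by norm_num) (by norm_num))]
    exact ENNReal.ofReal_ne_top
  have h3 : ∀ᵐ x ∂m, ∑' n, ENNReal.ofReal (v n x) < ∞ :=
    ae_lt_top' (AEMeasurable.ennreal_tsum hm) h2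
  filter_upwards [h3, ae_all_iff.2 fun n => nonneg_iff_ae.1 (h0 n)] with x hx hx0
  have h4 := ENNReal.tendsto_atTop_zero_of_tsum_ne_top hx.ne
  have h5 := (ENNReal.tendsto_toReal (by simp : (0 : ℝ≥0∞) ≠ ∞)).comp h4
  refine (h5.congr fun n => ?_).trans (by simp)
  rw [Function.comp_apply, ENNReal.toReal_ofReal (hx0 n)]

namespace IsDir

variable (hC : IsDir C)
include hC

/-- pointwise convergence of `Γ` from pointwise convergence of the energy densities -/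
theorem Γ_tendsto_ae {u v : ℕ → M →ₘ[m] ℝ} {f g : M →ₘ[m] ℝ} (hu : ∀ n, u n ∈ C.W)
    (hv : ∀ n, v n ∈ C.W) (hf : f ∈ C.W) (hg : g ∈ C.W)
    (h1 : ∀ᵐ x ∂m, Tendsto (fun n => C.Γ (u n - f) (u n - f) x) atTop (𝓝 0))
    (h2 : ∀ᵐ x ∂m, Tendsto (fun n => C.Γ (v n - g) (v n - g) x) atTop (𝓝 0)) :
    ∀ᵐ x ∂m, Tendsto (fun n => C.Γ (u n) (v n) x) atTop (𝓝 (C.Γ f g x)) := by
  have a1 : ∀ᵐ x ∂m, ∀ n, |C.Γ (u n - f) (v n - g) x| ≤
      Real.sqrt (C.Γ (u n - f) (u n - f) x) * Real.sqrt (C.Γ (v n - g) (v n - g) x) :=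
    ae_all_iff.2 fun n => hC.Γ_abs_ae (hC.sub_mem (hu n) hf) (hC.sub_mem (hv n) hg)
  have a2 : ∀ᵐ x ∂m, ∀ n, |C.Γ (u n - f) g x| ≤
      Real.sqrt (C.Γ (u n - f) (u n - f) x) * Real.sqrt (C.Γ g g x) :=
    ae_all_iff.2 fun n => hC.Γ_abs_ae (hC.sub_mem (hu n) hf) hg
  have a3 : ∀ᵐ x ∂m, ∀ n, |C.Γ f (v n - g) x| ≤
      Real.sqrt (C.Γ f f x) * Real.sqrt (C.Γ (v n - g) (v n - g) x) :=
    ae_all_iff.2 fun n => hC.Γ_abs_ae hf (hC.sub_mem (hv n) hg)
  have a4 : ∀ᵐ x ∂m, ∀ n, C.Γ (u n) (v n) x - C.Γ f g x =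
      C.Γ (u n - f) (v n - g) x + C.Γ (u n - f) g x + C.Γ f (v n - g) x := by
    refine ae_all_iff.2 fun n => ?_
    have e : C.Γ (u n) (v n) - C.Γ f g =
        C.Γ (u n - f) (v n - g) + C.Γ (u n - f) g + C.Γ f (v n - g) := by
      rw [hC.Γ_sub_left (hu n) hf (hC.sub_mem (hv n) hg), hC.Γ_sub_left (hu n) hf hg,
        hC.Γ_sub_right (hu n) (hv n) hg, hC.Γ_sub_right hf (hv n) hg]
      abel
    filter_upwards [eq_iff_ae.1 e, sub_ae (C.Γ (u n) (v n)) (C.Γ f g),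
      add_ae (C.Γ (u n - f) (v n - g) + C.Γ (u n - f) g) (C.Γ f (v n - g)),
      add_ae (C.Γ (u n - f) (v n - g)) (C.Γ (u n - f) g)] with x b1 b2 b3 b4
    rw [← b2, b1, b3, b4]
  filter_upwards [h1, h2, a1, a2, a3, a4] with x l1 l2 b1 b2 b3 b4
  have s1 : Tendsto (fun n => Real.sqrt (C.Γ (u n - f) (u n - f) x)) atTop (𝓝 0) := by
    have := (Real.continuous_sqrt.tendsto 0).comp l1
    simpa [Function.comp_def] using this
  have s2 : Tendsto (fun n => Real.sqrt (C.Γ (v n - g) (v n - g) x)) atTop (𝓝 0) := by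
    have := (Real.continuous_sqrt.tendsto 0).comp l2
    simpa [Function.comp_def] using this
  rw [tendsto_iff_dist_tendsto_zero]
  have s3 : Tendsto (fun n => Real.sqrt (C.Γ (u n - f) (u n - f) x) *
      Real.sqrt (C.Γ (v n - g) (v n - g) x) + Real.sqrt (C.Γ (u n - f) (u n - f) x) *
      Real.sqrt (C.Γ g g x) + Real.sqrt (C.Γ f f x) * Real.sqrt (C.Γ (v n - g) (v n - g) x))
      atTop (𝓝 0) := by
    have := ((s1.mul s2).add (s1.mul_const (Real.sqrt (C.Γ g g x)))).add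
      (s2.const_mul (Real.sqrt (C.Γ f f x)))
    simpa using this
  refine squeeze_zero (fun n => dist_nonneg) (fun n => ?_) s3
  rw [Real.dist_eq, b4 n]
  refine (abs_add_le _ _).trans (add_le_add ((abs_add_le _ _).trans (add_le_add (b1 n) (b2 n)))
    (b3 n))

/-- fast approximation gives pointwise convergence of the energy densities -/
theorem ae_of_fast {u : ℕ → M →ₘ[m] ℝ} {f : M →ₘ[m] ℝ} (hu : ∀ n, u n ∈ C.W)
    (hf : f ∈ C.W) (h : ∀ n, C.nrm2 (u n - f) < (1 / 2 : ℝ) ^ n) :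
    ∀ᵐ x ∂m, Tendsto (fun n => C.Γ (u n - f) (u n - f) x) atTop (𝓝 0) :=
  ae_tendsto_zero_of_fast (fun n => hC.mem1 _ (hC.sub_mem (hu n) hf))
    (fun n => hC.nonneg _ (hC.sub_mem (hu n) hf))
    (fun n => (hC.E_le_nrm2 _).trans (h n).le)

end IsDir

end Vale.Agent.P233
end
end

section

section

open MeasureTheory Filter Topology
open scoped ENNReal NNReal

namespace Vale.Agent.P233

variable {M : Type*} [MeasurableSpace M] {m : Measure M} {C : Calc m}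

theorem I_sum {ι : Type*} (s : Finset ι) {F : ι → M →ₘ[m] ℝ} (hF : ∀ i ∈ s, MemLp (F i) 1 m) :
    I (∑ i ∈ s, F i) = ∑ i ∈ s, I (F i) := by
  classical
  induction s using Finset.induction_on with
  | empty => simp [I_zero]
  | insert i s hi ih =>
    have h1 : ∀ t : Finset ι, (∀ j ∈ t, MemLp (F j) 1 m) → MemLp (∑ j ∈ t, F j : M →ₘ[m] ℝ) 1 m := by
      intro t
      induction t using Finset.induction_on with
      | empty => intro _; simpa only [Finset.sum_empty] using (mem_zero : MemLp (0 : M →ₘ[m] ℝ) 1 m)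
      | insert j t hj ih =>
        intro h
        rw [Finset.sum_insert hj]
        exact mem_add (h j (Finset.mem_insert_self _ _))
          (ih fun k hk => h k (Finset.mem_insert_of_mem hk))
    rw [Finset.sum_insert hi, Finset.sum_insert hi, I_add (hF i (Finset.mem_insert_self _ _))
      (h1 s fun j hj => hF j (Finset.mem_insert_of_mem hj)),
      ih fun j hj => hF j (Finset.mem_insert_of_mem hj)]

namespace IsGamma

/-- gradients span at most a plane: the 3x3 Gram determinants vanish (test functions) -/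
theorem gram3_test [SigmaFinite m] (hC : IsGamma C) {κ : ℝ} (hB : C.BE κ 2) {f g h : M →ₘ[m] ℝ}
    (hf : f ∈ C.Test) (hg : g ∈ C.Test) (hh : h ∈ C.Test) :
    C.Γ f f * (C.Γ g g * C.Γ h h - C.Γ g h ^ 2) - C.Γ f g * (C.Γ f g * C.Γ h h - C.Γ g h * C.Γ f h)
      + C.Γ f h * (C.Γ f g * C.Γ g h - C.Γ g g * C.Γ f h) = 0 := by
  have hD := hC.toIsDir
  have hfW := (hC.test_A hf).1
  have hgW := (hC.test_A hg).1
  have hhW := (hC.test_A hh).1
  have sgf : C.Γ g f = C.Γ f g := hD.symm g hgW f hfW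
  have shf : C.Γ h f = C.Γ f h := hD.symm h hhW f hfW
  have shg : C.Γ h g = C.Γ g h := hD.symm h hhW g hgW
  have A11 := hC.Γ_mem hB hf hf
  have A12 := hC.Γ_mem hB hf hg
  have A13 := hC.Γ_mem hB hf hh
  have A22 := hC.Γ_mem hB hg hg
  have A23 := hC.Γ_mem hB hg hh
  have A33 := hC.Γ_mem hB hh hh
  set a := C.Γ f f with ha
  set b := C.Γ f g with hb
  set c := C.Γ f h with hc
  set d := C.Γ g g with hd
  set e := C.Γ g h with he
  set k := C.Γ h h with hk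
  set D := a * (d * k - e ^ 2) - b * (b * k - e * c) + c * (b * e - d * c) with hDdef
  -- the tensor
  set F : Fin 6 → M →ₘ[m] ℝ := ![f, g, h, f, f, g] with hF
  set H : Fin 6 → M →ₘ[m] ℝ := ![f, g, h, g, h, h] with hH
  set s : Fin 6 → M →ₘ[m] ℝ := ![d * k - e * e, a * k - c * c, a * d - b * b,
    (c * e - b * k) + (c * e - b * k), (b * e - c * d) + (b * e - c * d),
    (b * c - a * e) + (b * c - a * e)] with hs
  have hFT : ∀ i, F i ∈ C.Test := by
    intro i; fin_cases i <;> assumption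
  have hHT : ∀ i, H i ∈ C.Test := by
    intro i; fin_cases i <;> assumption
  have M2 : ∀ {p q : M →ₘ[m] ℝ}, p ∈ C.A → q ∈ C.A → p * q ∈ C.A := fun hp hq => hD.mul_mem_A hp hq
  have hsA : ∀ i, s i ∈ C.A := by
    intro i
    fin_cases i
    · exact hD.A_sub (M2 A22 A33) (M2 A23 A23)
    · exact hD.A_sub (M2 A11 A33) (M2 A13 A13)
    · exact hD.A_sub (M2 A11 A22) (M2 A12 A12)
    · exact hD.A_add (hD.A_sub (M2 A13 A23) (M2 A12 A33)) (hD.A_sub (M2 A13 A23) (M2 A12 A33))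
    · exact hD.A_add (hD.A_sub (M2 A12 A23) (M2 A13 A22)) (hD.A_sub (M2 A12 A23) (M2 A13 A22))
    · exact hD.A_add (hD.A_sub (M2 A12 A13) (M2 A11 A23)) (hD.A_sub (M2 A12 A13) (M2 A11 A23))
  -- the algebraic identity
  have hsum : ∑ i, ∑ j, s i * s j * C.MM (F i) (H i) (F j) (H j) = -(3 * D ^ 2) := by
    simp only [Fin.sum_univ_six]
    simp only [hs, hF, hH, Calc.MM, Matrix.cons_val_zero, Matrix.cons_val_one, Matrix.cons_val,
      ← ha, ← hb, ← hc, ← hd, ← he, ← hk, sgf, shf, shg]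
    rw [hDdef]
    ring
  -- memberships
  have hDA : D ∈ C.A := by
    have e1 : D = a * (d * k - e * e) - b * (b * k - e * c) + c * (b * e - d * c) := by
      rw [hDdef]; ring
    rw [e1]
    exact hD.A_add (hD.A_sub (M2 A11 (hD.A_sub (M2 A22 A33) (M2 A23 A23)))
      (M2 A12 (hD.A_sub (M2 A12 A33) (M2 A23 A13))))
      (M2 A13 (hD.A_sub (M2 A12 A23) (M2 A22 A13)))
  have hDD : MemLp (D ^ 2 : M →ₘ[m] ℝ) 1 m := mem_sq (hC.memLp _ hDA.1)
  have hkey : 0 ≤ -(3 * D ^ 2) := by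
    have e3 : (3 : M →ₘ[m] ℝ) * D ^ 2 = (3 : ℝ) • D ^ 2 := by
      rw [Algebra.smul_def]
      congr 1
      exact (map_ofNat (algebraMap ℝ (M →ₘ[m] ℝ)) 3).symm
    refine hD.nonneg_of_forall (by rw [e3]; exact mem_neg (mem_smul _ hDD)) fun φ hφ h0 => ?_
    have h1 := hC.tensor_ineq (κ := κ) hB (hC.test_zero hB) hFT hHT hsA hφ h0
    have n0 : C.NN κ 0 0 φ = 0 := hC.NN_zero_left hB (hC.test_zero hB) hφ
    have z1 : C.lap (0 : M →ₘ[m] ℝ) = 0 := by
      have := hC.lap_smul hB 0 (hC.test_zero hB)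
      simpa using this
    have z2 : ∀ i, C.KK 0 (F i) (H i) = 0 := by
      intro i
      have w1 := (hC.test_A (hFT i)).1
      have w2 := (hC.test_A (hHT i)).1
      unfold Calc.KK Calc.hess
      rw [z1, hD.Γ_zero_left w2, hD.Γ_zero_left w1, hD.Γ_zero_right w1, hD.Γ_zero_right w2,
        hD.Γ_zero_left (hC.Γ_mem hB (hFT i) (hHT i)).1]
      simp only [add_zero, sub_self, smul_zero, mul_zero]
    have z3 : ∀ i, I (φ * (s i * C.KK 0 (F i) (H i))) = 0 := by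
      intro i; rw [z2 i, mul_zero, mul_zero, I_zero]
    rw [n0] at h1
    simp only [z3, Finset.sum_const_zero, mul_zero, zero_add] at h1
    have hm : ∀ i j, MemLp (φ * (s i * s j * C.MM (F i) (H i) (F j) (H j)) : M →ₘ[m] ℝ) 1 m :=
      fun i j => mem_mul_top hφ.2 (mem_mul_top (M2 (hsA i) (hsA j)).2
        (hC.MM_mem1 hB (hFT i) (hHT i) (hFT j) (hHT j)))
    have e4 : I (φ * -(3 * D ^ 2)) =
        ∑ i, ∑ j, I (φ * (s i * s j * C.MM (F i) (H i) (F j) (H j))) := by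
      rw [← hsum, Finset.mul_sum, I_sum]
      · refine Finset.sum_congr rfl fun i _ => ?_
        rw [Finset.mul_sum, I_sum]
        exact fun j _ => hm i j
      · intro i _
        rw [Finset.mul_sum]
        have : ∀ t : Finset (Fin 6), MemLp (∑ j ∈ t,
            φ * (s i * s j * C.MM (F i) (H i) (F j) (H j)) : M →ₘ[m] ℝ) 1 m := by
          intro t
          induction t using Finset.induction_on with
          | empty => simpa only [Finset.sum_empty] using (mem_zero : MemLp (0 : M →ₘ[m] ℝ) 1 m)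
          | insert j t hj ih =>
            rw [Finset.sum_insert hj]
            exact mem_add (hm i j) ih
        exact this _
    rw [e4]
    linarith only [h1]
  have h5 : D ^ 2 = 0 := by
    have h6 : 3 * D ^ 2 ≤ 0 := by
      rw [← neg_nonneg]; exact hkey
    rw [eq_iff_ae]
    have e3 : (3 : M →ₘ[m] ℝ) * D ^ 2 = D ^ 2 + D ^ 2 + D ^ 2 := by ring
    rw [e3, le_iff_ae] at h6
    filter_upwards [h6, add_ae (D ^ 2 + D ^ 2) (D ^ 2), add_ae (D ^ 2) (D ^ 2), sq_ae D,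
      zero_ae (M := M) (m := m)] with x b1 b2 b3 b4 b5
    rw [b2, b3, b4, b5] at b1
    rw [b4, b5]
    nlinarith only [b1]
  have h6 : I (D ^ 2) = 0 := by rw [h5, I_zero]
  exact I_sq_eq_zero (hC.memLp _ hDA.1) h6

/-- gradients span at most a plane -/
theorem gram3 [SigmaFinite m] (hC : IsGamma C) {κ : ℝ} (hB : C.BE κ 2) {f g h : M →ₘ[m] ℝ}
    (hf : f ∈ C.W) (hg : g ∈ C.W) (hh : h ∈ C.W) :
    C.Γ f f * (C.Γ g g * C.Γ h h - C.Γ g h ^ 2) - C.Γ f g * (C.Γ f g * C.Γ h h - C.Γ g h * C.Γ f h)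
      + C.Γ f h * (C.Γ f g * C.Γ g h - C.Γ g g * C.Γ f h) = 0 := by
  have hD := hC.toIsDir
  -- the pointwise form of the expression
  have expand : ∀ a b c d e k : M →ₘ[m] ℝ, ∀ᵐ x ∂m,
      (a * (d * k - e ^ 2) - b * (b * k - e * c) + c * (b * e - d * c)) x =
      a x * (d x * k x - e x ^ 2) - b x * (b x * k x - e x * c x) +
        c x * (b x * e x - d x * c x) := by
    intro a b c d e k
    filter_upwards [add_ae (a * (d * k - e ^ 2) - b * (b * k - e * c)) (c * (b * e - d * c)),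
      sub_ae (a * (d * k - e ^ 2)) (b * (b * k - e * c)), mul_ae a (d * k - e ^ 2),
      sub_ae (d * k) (e ^ 2), mul_ae d k, sq_ae e, mul_ae b (b * k - e * c),
      sub_ae (b * k) (e * c), mul_ae b k, mul_ae e c, mul_ae c (b * e - d * c),
      sub_ae (b * e) (d * c), mul_ae b e, mul_ae d c]
      with x a1 a2 a3 a4 a5 a6 a7 a8 a9 a10 a11 a12 a13 a14
    rw [a1, a2, a3, a4, a5, a6, a7, a8, a9, a10, a11, a12, a13, a14]
  choose u hu1 hu2 using fun n : ℕ => hC.test_dense hB hf (show (0 : ℝ) < (1 / 2) ^ n by positivity)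
  choose v hv1 hv2 using fun n : ℕ => hC.test_dense hB hg (show (0 : ℝ) < (1 / 2) ^ n by positivity)
  choose w hw1 hw2 using fun n : ℕ => hC.test_dense hB hh (show (0 : ℝ) < (1 / 2) ^ n by positivity)
  have huW := fun n => (hC.test_A (hu1 n)).1
  have hvW := fun n => (hC.test_A (hv1 n)).1
  have hwW := fun n => (hC.test_A (hw1 n)).1
  have lu := hD.ae_of_fast huW hf hu2
  have lv := hD.ae_of_fast hvW hg hv2
  have lw := hD.ae_of_fast hwW hh hw2
  have huvw := fun n => hC.gram3_test hB (hu1 n) (hv1 n) (hw1 n)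
  rw [eq_iff_ae]
  filter_upwards [expand (C.Γ f f) (C.Γ f g) (C.Γ f h) (C.Γ g g) (C.Γ g h) (C.Γ h h),
    ae_all_iff.2 fun n => expand (C.Γ (u n) (u n)) (C.Γ (u n) (v n)) (C.Γ (u n) (w n))
      (C.Γ (v n) (v n)) (C.Γ (v n) (w n)) (C.Γ (w n) (w n)),
    ae_all_iff.2 fun n => eq_iff_ae.1 (huvw n), zero_ae (M := M) (m := m),
    hD.Γ_tendsto_ae huW huW hf hf lu lu, hD.Γ_tendsto_ae huW hvW hf hg lu lv,
    hD.Γ_tendsto_ae huW hwW hf hh lu lw, hD.Γ_tendsto_ae hvW hvW hg hg lv lv,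
    hD.Γ_tendsto_ae hvW hwW hg hh lv lw, hD.Γ_tendsto_ae hwW hwW hh hh lw lw]
    with x a1 a2 a3 a4 l1 l2 l3 l4 l5 l6
  rw [a1, a4]
  have hlim := ((l1.mul ((l4.mul l6).sub (l5.pow 2))).sub
    (l2.mul ((l2.mul l6).sub (l5.mul l3)))).add (l3.mul ((l2.mul l5).sub (l4.mul l3)))
  refine tendsto_nhds_unique hlim ?_
  refine tendsto_const_nhds.congr fun n => ?_
  rw [← a2 n, a3 n, a4]

end IsGamma

/-! ### measurable selection -/

theorem measurable_select {F : ℕ → M → ℝ} (hF : ∀ n, Measurable (F n)) {i : M → ℕ}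
    (hi : Measurable i) : Measurable fun x => F (i x) x := by
  have h : Measurable fun p : M × ℕ => F p.2 p.1 :=
    measurable_from_prod_countable_left fun n => hF n
  exact h.comp (measurable_id.prodMk hi)

theorem exists_select {p : ℕ → M → ℝ} (hp : ∀ n, Measurable (p n)) :
    ∃ i : M → ℕ, Measurable i ∧ ∀ x, 0 < p (i x) x ∨ ∀ l, ¬ 0 < p l x := by
  classical
  have hex : ∀ x, ∃ N, (0 < p N x ∨ ∀ l, ¬ 0 < p l x) := by
    intro x
    by_cases h : ∃ N, 0 < p N x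
    · obtain ⟨N, hN⟩ := h
      exact ⟨N, Or.inl hN⟩
    · exact ⟨0, Or.inr fun l hl => h ⟨l, hl⟩⟩
  refine ⟨fun x => Nat.find (hex x), measurable_find hex fun k => ?_, fun x => Nat.find_spec (hex x)⟩
  have h1 : MeasurableSet {x | 0 < p k x} := measurableSet_lt measurable_const (hp k)
  have h2 : MeasurableSet {x | ∀ l, ¬ 0 < p l x} := by
    have e : {x | ∀ l, ¬ 0 < p l x} = ⋂ l, {x | 0 < p l x}ᶜ := by
      ext x; simp only [not_lt, Set.mem_ofPred_eq, Set.mem_iInter, Set.mem_compl_iff]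
    rw [e]
    exact MeasurableSet.iInter fun l => (measurableSet_lt measurable_const (hp l)).compl
  exact h1.union h2

/-- the algebra of the second case -/
theorem frame_alg {a b c d e k : ℝ} (hd : 0 < d) (hQ : 0 < k - e ^ 2 / d)
    (hdet : a * (d * k - e ^ 2) - b * (b * k - e * c) + c * (b * e - d * c) = 0) :
    a = (b / Real.sqrt d) ^ 2 + ((c - e * b / d) / Real.sqrt (k - e ^ 2 / d)) ^ 2 := by
  rw [div_pow, div_pow, Real.sq_sqrt hd.le, Real.sq_sqrt hQ.le]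
  have hQ' : 0 < d * k - e ^ 2 := by
    have : d * (k - e ^ 2 / d) = d * k - e ^ 2 := by (clear * - hd; field_simp)
    rw [← this]; positivity
  have e1 : k - e ^ 2 / d = (d * k - e ^ 2) / d := by field_simp
  rw [e1]
  have hne := hQ'.ne'
  field_simp
  nlinarith only [hd, hdet]

namespace IsGamma

/-- Existence of a frame. Only the vanishing of 3x3 Gram determinants and a countable dense set
are needed. -/
theorem exists_frame (hC : IsGamma C)
    (hgram : ∀ f ∈ C.W, ∀ g ∈ C.W, ∀ h ∈ C.W,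
      C.Γ f f * (C.Γ g g * C.Γ h h - C.Γ g h ^ 2)
        - C.Γ f g * (C.Γ f g * C.Γ h h - C.Γ g h * C.Γ f h)
        + C.Γ f h * (C.Γ f g * C.Γ g h - C.Γ g g * C.Γ f h) = 0)
    (hdense : ∃ u : ℕ → M →ₘ[m] ℝ, (∀ n, u n ∈ C.W) ∧
      ∀ f ∈ C.W, ∀ ε > 0, ∃ n, C.nrm2 (u n - f) < ε) :
    ∃ D₁ D₂, IsFrame C D₁ D₂ := by
  have hD := hC.toIsDir
  obtain ⟨u, hu, hdense⟩ := hdense
  have hGm : ∀ (f g : M →ₘ[m] ℝ), Measurable (C.Γ f g : M → ℝ) := fun f g =>
    (C.Γ f g).stronglyMeasurable.measurable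
  obtain ⟨ix, hix, hixs⟩ := exists_select (p := fun n x => C.Γ (u n) (u n) x) fun n => hGm _ _
  -- the second index
  set Gii : M → ℝ := fun x => C.Γ (u (ix x)) (u (ix x)) x with hGii
  have hGiim : Measurable Gii := measurable_select (F := fun n x => C.Γ (u n) (u n) x)
    (fun n => hGm _ _) hix
  set Q : ℕ → M → ℝ := fun j x => C.Γ (u j) (u j) x - C.Γ (u j) (u (ix x)) x ^ 2 / Gii x with hQ
  have hQm : ∀ j, Measurable (Q j) := fun j =>
    (hGm _ _).sub (((measurable_select (F := fun n x => C.Γ (u j) (u n) x)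
      (fun n => hGm _ _) hix).pow_const 2).div hGiim)
  obtain ⟨jx, hjx, hjxs⟩ := exists_select hQm
  have hQjm : Measurable fun x => Q (jx x) x := measurable_select hQm hjx
  have hGijm : Measurable fun x => C.Γ (u (jx x)) (u (ix x)) x := by
    have h1 : ∀ j, Measurable fun x => C.Γ (u j) (u (ix x)) x := fun j =>
      measurable_select (F := fun n x => C.Γ (u j) (u n) x) (fun n => hGm _ _) hix
    exact measurable_select (F := fun j x => C.Γ (u j) (u (ix x)) x) h1 hjx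
  -- the frame
  set d1 : (M →ₘ[m] ℝ) → M → ℝ := fun f x => C.Γ f (u (ix x)) x / Real.sqrt (Gii x) with hd1
  set d2 : (M →ₘ[m] ℝ) → M → ℝ := fun f x =>
    (C.Γ f (u (jx x)) x - C.Γ (u (jx x)) (u (ix x)) x * C.Γ f (u (ix x)) x / Gii x) /
      Real.sqrt (Q (jx x) x) with hd2
  have hfi : ∀ f : M →ₘ[m] ℝ, Measurable fun x => C.Γ f (u (ix x)) x := fun f =>
    measurable_select (F := fun n x => C.Γ f (u n) x) (fun n => hGm _ _) hix
  have hfj : ∀ f : M →ₘ[m] ℝ, Measurable fun x => C.Γ f (u (jx x)) x := fun f =>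
    measurable_select (F := fun n x => C.Γ f (u n) x) (fun n => hGm _ _) hjx
  have hd1m : ∀ f, Measurable (d1 f) := fun f => (hfi f).div hGiim.sqrt
  have hd2m : ∀ f, Measurable (d2 f) := fun f =>
    ((hfj f).sub ((hGijm.mul (hfi f)).div hGiim)).div hQjm.sqrt
  set D₁ : (M →ₘ[m] ℝ) → (M →ₘ[m] ℝ) := fun f =>
    AEEqFun.mk (d1 f) (hd1m f).aestronglyMeasurable with hD₁
  set D₂ : (M →ₘ[m] ℝ) → (M →ₘ[m] ℝ) := fun f =>
    AEEqFun.mk (d2 f) (hd2m f).aestronglyMeasurable with hD₂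
  have hD₁ae : ∀ f, ⇑(D₁ f) =ᵐ[m] d1 f := fun f => AEEqFun.coeFn_mk _ _
  have hD₂ae : ∀ f, ⇑(D₂ f) =ᵐ[m] d2 f := fun f => AEEqFun.coeFn_mk _ _
  -- linearity of `Γ` with all the `u n` simultaneously
  have ladd : ∀ f ∈ C.W, ∀ g ∈ C.W, ∀ᵐ x ∂m, ∀ n, C.Γ (f + g) (u n) x =
      C.Γ f (u n) x + C.Γ g (u n) x := by
    intro f hf g hg
    refine ae_all_iff.2 fun n => ?_
    have e := hC.add_left f hf g hg (u n) (hu n)
    filter_upwards [eq_iff_ae.1 e, add_ae (C.Γ f (u n)) (C.Γ g (u n))] with x a1 a2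
    rw [a1, a2]
  have lsmul : ∀ (c : ℝ), ∀ f ∈ C.W, ∀ᵐ x ∂m, ∀ n, C.Γ (c • f) (u n) x = c * C.Γ f (u n) x := by
    intro c f hf
    refine ae_all_iff.2 fun n => ?_
    have e := hC.smul_left c f hf (u n) (hu n)
    filter_upwards [eq_iff_ae.1 e, smul_ae (C.Γ f (u n)) c] with x a1 a2
    rw [a1, a2]
  have add₁ : ∀ f ∈ C.W, ∀ g ∈ C.W, D₁ (f + g) = D₁ f + D₁ g := by
    intro f hf g hg
    rw [eq_iff_ae]
    filter_upwards [hD₁ae (f + g), hD₁ae f, hD₁ae g, add_ae (D₁ f) (D₁ g), ladd f hf g hg]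
      with x a1 a2 a3 a4 a5
    rw [a1, a4, a2, a3]
    simp only [hd1]
    rw [a5]
    ring
  have add₂ : ∀ f ∈ C.W, ∀ g ∈ C.W, D₂ (f + g) = D₂ f + D₂ g := by
    intro f hf g hg
    rw [eq_iff_ae]
    filter_upwards [hD₂ae (f + g), hD₂ae f, hD₂ae g, add_ae (D₂ f) (D₂ g), ladd f hf g hg]
      with x a1 a2 a3 a4 a5
    rw [a1, a4, a2, a3]
    simp only [hd2]
    rw [a5, a5]
    ring
  have smul₁ : ∀ (c : ℝ), ∀ f ∈ C.W, D₁ (c • f) = c • D₁ f := by
    intro c f hf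
    rw [eq_iff_ae]
    filter_upwards [hD₁ae (c • f), hD₁ae f, smul_ae (D₁ f) c, lsmul c f hf] with x a1 a2 a3 a4
    rw [a1, a3, a2]
    simp only [hd1]
    rw [a4]
    ring
  have smul₂ : ∀ (c : ℝ), ∀ f ∈ C.W, D₂ (c • f) = c • D₂ f := by
    intro c f hf
    rw [eq_iff_ae]
    filter_upwards [hD₂ae (c • f), hD₂ae f, smul_ae (D₂ f) c, lsmul c f hf] with x a1 a2 a3 a4
    rw [a1, a3, a2]
    simp only [hd2]
    rw [a4, a4]
    ring
  -- the isometry on the dense sequence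
  have base : ∀ᵐ x ∂m, ∀ n, C.Γ (u n) (u n) x = d1 (u n) x ^ 2 + d2 (u n) x ^ 2 := by
    have c1 : ∀ᵐ x ∂m, ∀ n, 0 ≤ C.Γ (u n) (u n) x := ae_all_iff.2 fun n => hD.Γ_nonneg_ae (hu n)
    have c2 : ∀ᵐ x ∂m, ∀ n k, C.Γ (u n) (u k) x ^ 2 ≤ C.Γ (u n) (u n) x * C.Γ (u k) (u k) x :=
      ae_all_iff.2 fun n => ae_all_iff.2 fun k => hD.Γ_cs_ae (hu n) (hu k)
    have c3 : ∀ᵐ x ∂m, ∀ n k, C.Γ (u n) (u k) x = C.Γ (u k) (u n) x :=
      ae_all_iff.2 fun n => ae_all_iff.2 fun k => by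
        rw [hC.symm _ (hu n) _ (hu k)]; filter_upwards with x; rfl
    have c4 : ∀ᵐ x ∂m, ∀ n i j, C.Γ (u n) (u n) x * (C.Γ (u i) (u i) x * C.Γ (u j) (u j) x -
        C.Γ (u i) (u j) x ^ 2) - C.Γ (u n) (u i) x * (C.Γ (u n) (u i) x * C.Γ (u j) (u j) x -
        C.Γ (u i) (u j) x * C.Γ (u n) (u j) x) + C.Γ (u n) (u j) x * (C.Γ (u n) (u i) x *
        C.Γ (u i) (u j) x - C.Γ (u i) (u i) x * C.Γ (u n) (u j) x) = 0 := by
      refine ae_all_iff.2 fun n => ae_all_iff.2 fun i => ae_all_iff.2 fun j => ?_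
      have e0 := hgram (u n) (hu n) (u i) (hu i) (u j) (hu j)
      generalize C.Γ (u n) (u n) = a at *
      generalize C.Γ (u n) (u i) = b at *
      generalize C.Γ (u n) (u j) = c at *
      generalize C.Γ (u i) (u i) = d at *
      generalize C.Γ (u i) (u j) = e at *
      generalize C.Γ (u j) (u j) = k at *
      filter_upwards [eq_iff_ae.1 e0, zero_ae (M := M) (m := m),
        add_ae (a * (d * k - e ^ 2) - b * (b * k - e * c)) (c * (b * e - d * c)),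
        sub_ae (a * (d * k - e ^ 2)) (b * (b * k - e * c)), mul_ae a (d * k - e ^ 2),
        sub_ae (d * k) (e ^ 2), mul_ae d k, sq_ae e, mul_ae b (b * k - e * c),
        sub_ae (b * k) (e * c), mul_ae b k, mul_ae e c, mul_ae c (b * e - d * c),
        sub_ae (b * e) (d * c), mul_ae b e, mul_ae d c]
        with x z1 z2 a1 a2 a3 a4 a5 a6 a7 a8 a9 a10 a11 a12 a13 a14
      rw [a1, a2, a3, a4, a5, a6, a7, a8, a9, a10, a11, a12, a13, a14, z2] at z1
      exact z1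
    filter_upwards [c1, c2, c3, c4] with x k1 k2 k3 k4 n
    simp only [hd1, hd2]
    rcases hixs x with hi | hi
    · -- `Gii x > 0`
      have hi' : 0 < Gii x := hi
      have hQn : ∀ l, 0 ≤ Q l x := by
        intro l
        simp only [hQ]
        rw [sub_nonneg, div_le_iff₀ hi']
        exact k2 l (ix x)
      rcases hjxs x with hj | hj
      · -- both positive
        have h4 := k4 n (ix x) (jx x)
        rw [k3 (ix x) (jx x)] at h4
        exact frame_alg hi' hj h4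
      · have hQ0 : ∀ l, Q l x = 0 := fun l => le_antisymm (not_lt.1 (hj l)) (hQn l)
        rw [hQ0 (jx x), Real.sqrt_zero, div_zero, div_pow, Real.sq_sqrt hi'.le]
        have h5 := hQ0 n
        simp only [hQ] at h5
        rw [sub_eq_zero] at h5
        rw [h5]; ring
    · -- all vanish
      have h0 : ∀ l, C.Γ (u l) (u l) x = 0 := fun l => le_antisymm (not_lt.1 (hi l)) (k1 l)
      have hG0 : Gii x = 0 := h0 (ix x)
      have hQ0 : Q (jx x) x = 0 := by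
        simp only [hQ]
        rw [h0, hG0, div_zero, sub_zero]
      rw [hQ0, hG0, h0 n, Real.sqrt_zero, div_zero, div_zero]
      ring
  -- the isometry on `W`
  have isom : ∀ f ∈ C.W, C.Γ f f = D₁ f * D₁ f + D₂ f * D₂ f := by
    intro f hf
    choose nk hnk using fun k : ℕ => hdense f hf ((1 / 2 : ℝ) ^ k) (by positivity)
    have hW : ∀ k, u (nk k) ∈ C.W := fun k => hu (nk k)
    have l0 := hD.ae_of_fast hW hf hnk
    have l1 := hD.Γ_tendsto_ae hW hW hf hf l0 l0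
    have l2 : ∀ᵐ x ∂m, ∀ n, Tendsto (fun k => C.Γ (u (nk k)) (u n) x) atTop
        (𝓝 (C.Γ f (u n) x)) := by
      refine ae_all_iff.2 fun n => ?_
      refine hD.Γ_tendsto_ae (v := fun _ => u n) hW (fun _ => hu n) hf (hu n) l0 ?_
      rw [sub_self, hD.Γ_zero_left hC.zero_mem]
      filter_upwards [zero_ae (M := M) (m := m)] with x hx
      rw [hx]; exact tendsto_const_nhds
    rw [eq_iff_ae]
    filter_upwards [l1, l2, base, hD₁ae f, hD₂ae f, add_ae (D₁ f * D₁ f) (D₂ f * D₂ f),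
      mul_ae (D₁ f) (D₁ f), mul_ae (D₂ f) (D₂ f)] with x b1 b2 b3 b4 b5 b6 b7 b8
    rw [b6, b7, b8, b4, b5]
    have t1 : Tendsto (fun k => d1 (u (nk k)) x) atTop (𝓝 (d1 f x)) := (b2 (ix x)).div_const _
    have t2 : Tendsto (fun k => d2 (u (nk k)) x) atTop (𝓝 (d2 f x)) :=
      ((b2 (jx x)).sub (((b2 (ix x)).const_mul _).div_const _)).div_const _
    have t3 := (t1.pow 2).add (t2.pow 2)
    have t4 : Tendsto (fun k => C.Γ (u (nk k)) (u (nk k)) x) atTop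
        (𝓝 (d1 f x ^ 2 + d2 f x ^ 2)) := t3.congr fun k => (b3 (nk k)).symm
    rw [tendsto_nhds_unique b1 t4]
    ring
  refine ⟨D₁, D₂, add₁, add₂, smul₁, smul₂, fun f hf g hg => ?_⟩
  -- polarization
  have e1 := isom (f + g) (hC.add_mem f hf g hg)
  have h4 := hD.Γ_expand 1 hf hg
  rw [one_smul, mul_one, one_pow, one_smul] at h4
  rw [h4, isom f hf, isom g hg, add₁ f hf g hg, add₂ f hf g hg] at e1
  have e2 : (2 : ℝ) • C.Γ f g = (2 : ℝ) • (D₁ f * D₁ g + D₂ f * D₂ g) := by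
    have e3 : (2 : ℝ) • (D₁ f * D₁ g + D₂ f * D₂ g) =
        (D₁ f + D₁ g) * (D₁ f + D₁ g) + (D₂ f + D₂ g) * (D₂ f + D₂ g) -
          (D₁ f * D₁ f + D₂ f * D₂ f) - (D₁ g * D₁ g + D₂ g * D₂ g) := by
      rw [two_smul]; ring
    rw [e3, ← e1]
    abel
  have e5 := congrArg (fun z => (2 : ℝ)⁻¹ • z) e2
  simpa only [smul_smul, ne_eq, OfNat.ofNat_ne_zero, not_false_eq_true, inv_mul_cancel₀, one_smul,     smul_add] using e5

end IsGamma

end Vale.Agent.P233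
end
end

section

section

open MeasureTheory Filter Topology
open scoped ENNReal NNReal

namespace Vale.Agent.P233

variable {M : Type*} [MeasurableSpace M] {m : Measure M} {C : Calc m}

namespace IsFrame

variable {D₁ D₂ : (M →ₘ[m] ℝ) → (M →ₘ[m] ℝ)} (hC : IsGamma C) (hD : IsFrame C D₁ D₂)
include hC hD
variable {f g h : M →ₘ[m] ℝ}

omit hC in
theorem sq_le₁ (hf : f ∈ C.W) : ∀ᵐ x ∂m, D₁ f x ^ 2 ≤ C.Γ f f x := by
  rw [hD.Γ_eq _ hf _ hf]
  filter_upwards [add_ae (D₁ f * D₁ f) (D₂ f * D₂ f), mul_ae (D₁ f) (D₁ f),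
    mul_ae (D₂ f) (D₂ f)] with x h1 h2 h3
  rw [h1, h2, h3]
  nlinarith only []

omit hC in
theorem sq_le₂ (hf : f ∈ C.W) : ∀ᵐ x ∂m, D₂ f x ^ 2 ≤ C.Γ f f x := by
  rw [hD.Γ_eq _ hf _ hf]
  filter_upwards [add_ae (D₁ f * D₁ f) (D₂ f * D₂ f), mul_ae (D₁ f) (D₁ f),
    mul_ae (D₂ f) (D₂ f)] with x h1 h2 h3
  rw [h1, h2, h3]
  nlinarith only []

theorem mem2₁ (hf : f ∈ C.W) : MemLp (D₁ f) 2 m := by
  rw [memLp_two_iff_integrable_sq (D₁ f).aestronglyMeasurable]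
  refine Integrable.mono' (int_of_mem (hC.mem1 f hf)) ?_ ?_
  · exact (D₁ f).aestronglyMeasurable.pow 2
  · filter_upwards [hD.sq_le₁ hf] with x hx
    rwa [Real.norm_eq_abs, abs_of_nonneg (sq_nonneg _)]
theorem mem2₂ (hf : f ∈ C.W) : MemLp (D₂ f) 2 m := by
  rw [memLp_two_iff_integrable_sq (D₂ f).aestronglyMeasurable]
  refine Integrable.mono' (int_of_mem (hC.mem1 f hf)) ?_ ?_
  · exact (D₂ f).aestronglyMeasurable.pow 2
  · filter_upwards [hD.sq_le₂ hf] with x hx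
    rwa [Real.norm_eq_abs, abs_of_nonneg (sq_nonneg _)]
theorem memTop₁ (hf : f ∈ C.W) (hf' : MemLp (C.Γ f f) ∞ m) : MemLp (D₁ f) ∞ m := by
  obtain ⟨K, hK⟩ := mem_top_iff.1 hf'
  refine mem_top_iff.2 ⟨Real.sqrt K, ?_⟩
  filter_upwards [hD.sq_le₁ hf, hK] with x h1 h2
  exact Real.abs_le_sqrt (h1.trans ((le_abs_self _).trans h2))
theorem memTop₂ (hf : f ∈ C.W) (hf' : MemLp (C.Γ f f) ∞ m) : MemLp (D₂ f) ∞ m := by
  obtain ⟨K, hK⟩ := mem_top_iff.1 hf'
  refine mem_top_iff.2 ⟨Real.sqrt K, ?_⟩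
  filter_upwards [hD.sq_le₂ hf, hK] with x h1 h2
  exact Real.abs_le_sqrt (h1.trans ((le_abs_self _).trans h2))

theorem mul_both (hf : f ∈ C.A) (hg : g ∈ C.A) :
    D₁ (f * g) = f * D₁ g + g * D₁ f ∧ D₂ (f * g) = f * D₂ g + g * D₂ f := by
  have hfg := hC.mul_mem_A hf hg
  have e1 := hC.Γ_mul_left hf hg hf.1
  have e2 := hC.Γ_mul_left hf hg hg.1
  have e3 := hC.Γ_mul_left hf hg hfg.1
  rw [hC.symm _ hg.1 _ hfg.1, hC.symm _ hf.1 _ hfg.1, e1, e2] at e3
  rw [hD.Γ_eq _ hfg.1 _ hf.1, hD.Γ_eq _ hg.1 _ hf.1, hD.Γ_eq _ hf.1 _ hf.1] at e1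
  rw [hD.Γ_eq _ hfg.1 _ hg.1, hD.Γ_eq _ hg.1 _ hg.1, hD.Γ_eq _ hf.1 _ hg.1] at e2
  rw [hD.Γ_eq _ hfg.1 _ hfg.1, hD.Γ_eq _ hg.1 _ hf.1, hD.Γ_eq _ hf.1 _ hf.1,
    hD.Γ_eq _ hg.1 _ hg.1, hD.Γ_eq _ hf.1 _ hg.1] at e3
  have key : (D₁ (f * g) - (f * D₁ g + g * D₁ f)) ^ 2
      + (D₂ (f * g) - (f * D₂ g + g * D₂ f)) ^ 2 = 0 := by
    linear_combination e3 - 2 * f * e2 - 2 * g * e1
  have hpt : ∀ᵐ x ∂m, D₁ (f * g) x = (f * D₁ g + g * D₁ f) x ∧
      D₂ (f * g) x = (f * D₂ g + g * D₂ f) x := by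
    rw [eq_iff_ae] at key
    filter_upwards [key, add_ae ((D₁ (f * g) - (f * D₁ g + g * D₁ f)) ^ 2)
      ((D₂ (f * g) - (f * D₂ g + g * D₂ f)) ^ 2), sq_ae (D₁ (f * g) - (f * D₁ g + g * D₁ f)),
      sq_ae (D₂ (f * g) - (f * D₂ g + g * D₂ f)), sub_ae (D₁ (f * g)) (f * D₁ g + g * D₁ f),
      sub_ae (D₂ (f * g)) (f * D₂ g + g * D₂ f), zero_ae (M := M) (m := m)]
      with x k0 k1 k2 k3 k4 k5 k6
    rw [k1, k2, k3, k4, k5, k6] at k0
    constructor <;> nlinarith only [k0]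
  exact ⟨eq_iff_ae.2 (hpt.mono fun x h => h.1), eq_iff_ae.2 (hpt.mono fun x h => h.2)⟩

/-- the Leibniz rule follows from that of `Γ` -/
theorem mul₁ (hf : f ∈ C.A) (hg : g ∈ C.A) : D₁ (f * g) = f * D₁ g + g * D₁ f :=
  (hD.mul_both hC hf hg).1
theorem mul₂ (hf : f ∈ C.A) (hg : g ∈ C.A) : D₂ (f * g) = f * D₂ g + g * D₂ f :=
  (hD.mul_both hC hf hg).2

end IsFrame

end Vale.Agent.P233
end
end

section

section

open MeasureTheory Filter Topology
open scoped ENNReal NNReal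

namespace Vale.Agent.P233

variable {M : Type*} [MeasurableSpace M] {m : Measure M} {C : Calc m}

theorem I_fsum {ι : Type*} (s : Finset ι) {f : ι → M →ₘ[m] ℝ} (hf : ∀ i ∈ s, MemLp (f i) 1 m) :
    I (∑ i ∈ s, f i) = ∑ i ∈ s, I (f i) ∧ MemLp (∑ i ∈ s, f i : M →ₘ[m] ℝ) 1 m := by
  classical
  induction s using Finset.induction_on with
  | empty => simpa only [Finset.sum_empty] using ⟨I_zero, mem_zero⟩
  | insert i s hi ih =>
    obtain ⟨h1, h2⟩ := ih fun j hj => hf j (Finset.mem_insert_of_mem hj)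
    have h3 := hf i (Finset.mem_insert_self i s)
    rw [Finset.sum_insert hi, Finset.sum_insert hi, I_add h3 h2, h1]
    exact ⟨rfl, mem_add h3 h2⟩

theorem mem_fsum {ι : Type*} {p : ℝ≥0∞} (s : Finset ι) {f : ι → M →ₘ[m] ℝ}
    (hf : ∀ i ∈ s, MemLp (f i) p m) : MemLp (∑ i ∈ s, f i : M →ₘ[m] ℝ) p m := by
  classical
  induction s using Finset.induction_on with
  | empty => simpa using mem_zero
  | insert i s hi ih =>
    rw [Finset.sum_insert hi]
    exact mem_add (hf i (Finset.mem_insert_self i s))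
      (ih fun j hj => hf j (Finset.mem_insert_of_mem hj))

/-- dominated convergence for bounded multipliers -/
theorem I_tendsto_of_bdd' {u : ℕ → M →ₘ[m] ℝ} {G G' : M →ₘ[m] ℝ} {K : ℝ}
    (hu : ∀ n, ∀ᵐ x ∂m, |u n x| ≤ K)
    (hlim : ∀ᵐ x ∂m, Tendsto (fun n => u n x * G x) atTop (𝓝 (G' x)))
    (hG : MemLp G 1 m) : Tendsto (fun n => I (u n * G)) atTop (𝓝 (I G')) := by
  unfold I
  refine tendsto_integral_of_dominated_convergence (fun x => K * |G x|)
    (fun n => (u n * G).aestronglyMeasurable) ?_ ?_ ?_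
  · exact (int_of_mem hG).abs.const_mul K
  · intro n
    filter_upwards [hu n, mul_ae (u n) G] with x h1 h2
    rw [h2, Real.norm_eq_abs, abs_mul]
    exact mul_le_mul_of_nonneg_right h1 (abs_nonneg _)
  · have : ∀ᵐ x ∂m, ∀ n, (u n * G) x = u n x * G x := by
      rw [ae_all_iff]; intro n; exact mul_ae (u n) G
    filter_upwards [this, hlim] with x h1 h3
    simp only [h1]
    exact h3

theorem I_mul_le {w G : M →ₘ[m] ℝ} {K : ℝ} (hw : ∀ᵐ x ∂m, |w x| ≤ K) (hG : MemLp G 1 m) :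
    |I (w * G)| ≤ K * ∫ x, |G x| ∂m := by
  unfold I
  rw [← integral_const_mul]
  refine (abs_integral_le_integral_abs).trans (integral_mono_ae ?_ ?_ ?_)
  · exact (int_of_mem (mem_mul_top (mem_top_iff.2 ⟨K, hw⟩) hG)).abs
  · exact (int_of_mem hG).abs.const_mul K
  · filter_upwards [hw, mul_ae w G] with x h1 h2
    simp only [h2, abs_mul]
    exact mul_le_mul_of_nonneg_right h1 (abs_nonneg _)

/-- the trace free tensor `∇f ⊙ ∇h` in the frame -/
noncomputable def tt1 (D₁ D₂ : (M →ₘ[m] ℝ) → (M →ₘ[m] ℝ)) (f h : M →ₘ[m] ℝ) : M →ₘ[m] ℝ :=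
  D₁ f * D₁ h - D₂ f * D₂ h
noncomputable def tt2 (D₁ D₂ : (M →ₘ[m] ℝ) → (M →ₘ[m] ℝ)) (f h : M →ₘ[m] ℝ) : M →ₘ[m] ℝ :=
  D₁ f * D₂ h + D₂ f * D₁ h

variable {D₁ D₂ : (M →ₘ[m] ℝ) → (M →ₘ[m] ℝ)}

theorem IsFrame.MM_eq (hD : IsFrame C D₁ D₂) {f g h k : M →ₘ[m] ℝ} (hf : f ∈ C.W) (hg : g ∈ C.W)
    (hh : h ∈ C.W) (hk : k ∈ C.W) :
    C.MM f g h k = tt1 D₁ D₂ f g * tt1 D₁ D₂ h k + tt2 D₁ D₂ f g * tt2 D₁ D₂ h k := by
  unfold Calc.MM tt1 tt2
  rw [hD.Γ_eq _ hh _ hf, hD.Γ_eq _ hk _ hg, hD.Γ_eq _ hh _ hg, hD.Γ_eq _ hk _ hf,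
    hD.Γ_eq _ hf _ hg, hD.Γ_eq _ hh _ hk]
  ring

/-- elementary tensors `s (∇F ⊙ ∇H)` -/
structure Elt (C : Calc m) where
  s : M →ₘ[m] ℝ
  F : M →ₘ[m] ℝ
  H : M →ₘ[m] ℝ
  hs : MemLp s ∞ m
  hF : F ∈ C.Test
  hH : H ∈ C.Test

/-- elementary tensors with `L²` coefficients -/
structure Elt2 (C : Calc m) extends Elt C where
  hs2 : MemLp s 2 m

namespace IsGamma

variable (hC : IsGamma C) {κ : ℝ} (hB : C.BE κ 2) (hD : IsFrame C D₁ D₂)
include hC hD

theorem D1_2 {f : M →ₘ[m] ℝ} (hf : f ∈ C.Test) : MemLp (D₁ f) 2 m :=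
  hD.mem2₁ hC (hC.test_A hf).1
theorem D2_2 {f : M →ₘ[m] ℝ} (hf : f ∈ C.Test) : MemLp (D₂ f) 2 m :=
  hD.mem2₂ hC (hC.test_A hf).1
theorem D1_T {f : M →ₘ[m] ℝ} (hf : f ∈ C.Test) : MemLp (D₁ f) ∞ m :=
  hD.memTop₁ hC (hC.test_A hf).1 (hC.test_Γ_top hf)
theorem D2_T {f : M →ₘ[m] ℝ} (hf : f ∈ C.Test) : MemLp (D₂ f) ∞ m :=
  hD.memTop₂ hC (hC.test_A hf).1 (hC.test_Γ_top hf)

theorem tt1_2 {f h : M →ₘ[m] ℝ} (hf : f ∈ C.Test) (hh : h ∈ C.Test) :
    MemLp (tt1 D₁ D₂ f h) 2 m :=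
  mem_sub (mem_mul_top (hC.D1_T hD hf) (hC.D1_2 hD hh))
    (mem_mul_top (hC.D2_T hD hf) (hC.D2_2 hD hh))
theorem tt2_2 {f h : M →ₘ[m] ℝ} (hf : f ∈ C.Test) (hh : h ∈ C.Test) :
    MemLp (tt2 D₁ D₂ f h) 2 m :=
  mem_add (mem_mul_top (hC.D1_T hD hf) (hC.D2_2 hD hh))
    (mem_mul_top (hC.D2_T hD hf) (hC.D1_2 hD hh))
include hB

/-- the tensor inequality in the frame, for finite families -/
theorem TI [SigmaFinite m] {ι : Type*} (S : Finset ι) (e : ι → Elt C) {b : M →ₘ[m] ℝ}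
    (hb : b ∈ C.Test) (w : M →ₘ[m] ℝ) (hw : ∀ i, MemLp (w * (e i).s : M →ₘ[m] ℝ) 2 m)
    (hw' : MemLp w ∞ m)
    {φ : M →ₘ[m] ℝ} (hφ : φ ∈ C.A) (hφ0 : 0 ≤ φ) :
    0 ≤ C.NN κ b b φ + 2 * ∑ i ∈ S, I (φ * (w * ((e i).s * C.KK b (e i).F (e i).H)))
      + 2 * I (φ * (w ^ 2 * ((∑ i ∈ S, (e i).s * tt1 D₁ D₂ (e i).F (e i).H) ^ 2
        + (∑ i ∈ S, (e i).s * tt2 D₁ D₂ (e i).F (e i).H) ^ 2))) := by
  classical
  have key := hC.tensor_ineq' (κ := κ) hB hb (n := S.card)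
    (F := fun k => (e (S.equivFin.symm k)).F) (H := fun k => (e (S.equivFin.symm k)).H)
    (s := fun k => w * (e (S.equivFin.symm k)).s) (fun k => (e _).hF) (fun k => (e _).hH)
    (fun k => mem_mul_top hw' (e _).hs) (fun k => hw _) hφ hφ0
  have sum_eq : ∀ {β : Type _} [AddCommMonoid β] (f : ι → β),
      ∑ k : Fin S.card, f (S.equivFin.symm k) = ∑ i ∈ S, f i := by
    intro β _ f
    rw [← Finset.sum_coe_sort S f]
    exact Equiv.sum_comp S.equivFin.symm (fun i : S => f i)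
  have e1 : ∑ k : Fin S.card, I (φ * (w * (e (S.equivFin.symm k)).s
      * C.KK b (e (S.equivFin.symm k)).F (e (S.equivFin.symm k)).H))
      = ∑ i ∈ S, I (φ * (w * ((e i).s * C.KK b (e i).F (e i).H))) := by
    rw [← sum_eq]
    refine Finset.sum_congr rfl fun k _ => ?_
    rw [mul_assoc w]
  have e2 : ∑ i : Fin S.card, ∑ j : Fin S.card, I (φ * (w * (e (S.equivFin.symm i)).s
      * (w * (e (S.equivFin.symm j)).s)
      * C.MM (e (S.equivFin.symm i)).F (e (S.equivFin.symm i)).H (e (S.equivFin.symm j)).F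
        (e (S.equivFin.symm j)).H))
      = I (φ * (w ^ 2 * ((∑ i ∈ S, (e i).s * tt1 D₁ D₂ (e i).F (e i).H) ^ 2
        + (∑ i ∈ S, (e i).s * tt2 D₁ D₂ (e i).F (e i).H) ^ 2))) := by
    have e3 : ∀ i j : ι, I (φ * (w * (e i).s * (w * (e j).s)
        * C.MM (e i).F (e i).H (e j).F (e j).H))
        = I (φ * (w ^ 2 * (((e i).s * tt1 D₁ D₂ (e i).F (e i).H) *
          ((e j).s * tt1 D₁ D₂ (e j).F (e j).H) + ((e i).s * tt2 D₁ D₂ (e i).F (e i).H) *
          ((e j).s * tt2 D₁ D₂ (e j).F (e j).H)))) := by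
      intro i j
      rw [hD.MM_eq (hC.test_A (e i).hF).1 (hC.test_A (e i).hH).1 (hC.test_A (e j).hF).1
        (hC.test_A (e j).hH).1]
      congr 1
      ring
    have hint : ∀ i j : ι, MemLp (φ * (w ^ 2 * (((e i).s * tt1 D₁ D₂ (e i).F (e i).H) *
          ((e j).s * tt1 D₁ D₂ (e j).F (e j).H) + ((e i).s * tt2 D₁ D₂ (e i).F (e i).H) *
          ((e j).s * tt2 D₁ D₂ (e j).F (e j).H))) : M →ₘ[m] ℝ) 1 m := by
      intro i j
      refine mem_mul_top hφ.2 (mem_mul_top (by rw [sq]; exact mem_mul_top hw' hw')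
        (mem_add (mem_mul_22 ?_ ?_) (mem_mul_22 ?_ ?_)))
      · exact mem_mul_top (e i).hs (hC.tt1_2 hD (e i).hF (e i).hH)
      · exact mem_mul_top (e j).hs (hC.tt1_2 hD (e j).hF (e j).hH)
      · exact mem_mul_top (e i).hs (hC.tt2_2 hD (e i).hF (e i).hH)
      · exact mem_mul_top (e j).hs (hC.tt2_2 hD (e j).hF (e j).hH)
    calc _ = ∑ i ∈ S, ∑ j ∈ S, I (φ * (w * (e i).s * (w * (e j).s)
        * C.MM (e i).F (e i).H (e j).F (e j).H)) := by
          rw [← sum_eq]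
          refine Finset.sum_congr rfl fun i _ => ?_
          rw [← sum_eq]
      _ = ∑ i ∈ S, I (∑ j ∈ S, φ * (w ^ 2 * (((e i).s * tt1 D₁ D₂ (e i).F (e i).H) *
          ((e j).s * tt1 D₁ D₂ (e j).F (e j).H) + ((e i).s * tt2 D₁ D₂ (e i).F (e i).H) *
          ((e j).s * tt2 D₁ D₂ (e j).F (e j).H)))) := by
          refine Finset.sum_congr rfl fun i _ => ?_
          rw [(I_fsum S (fun j _ => hint i j)).1]
          exact Finset.sum_congr rfl fun j _ => e3 i j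
      _ = _ := by
          rw [← (I_fsum S (fun i _ => (I_fsum S (fun j _ => hint i j)).2)).1]
          congr 1
          simp only [← Finset.mul_sum, Finset.sum_add_distrib, ← Finset.sum_mul]
          ring
  rw [e1, e2] at key
  exact key

/-- weighted version without the bounded `L²` weight -/
theorem TI2 [SigmaFinite m] {ι : Type*} (S : Finset ι) (e : ι → Elt C) {b : M →ₘ[m] ℝ}
    (hb : b ∈ C.Test) {χ : M →ₘ[m] ℝ} (hχ : χ ∈ C.A) :
    0 ≤ C.NN κ b b (χ ^ 2) + 2 * ∑ i ∈ S, I (χ * ((e i).s * C.KK b (e i).F (e i).H))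
      + 2 * I ((∑ i ∈ S, (e i).s * tt1 D₁ D₂ (e i).F (e i).H) ^ 2
        + (∑ i ∈ S, (e i).s * tt2 D₁ D₂ (e i).F (e i).H) ^ 2) := by
  set S1 := ∑ i ∈ S, (e i).s * tt1 D₁ D₂ (e i).F (e i).H with hS1
  set S2 := ∑ i ∈ S, (e i).s * tt2 D₁ D₂ (e i).F (e i).H with hS2
  have hχ2 : χ ^ 2 ∈ C.A := by rw [sq]; exact hC.mul_mem_A hχ hχ
  have m1 : MemLp S1 2 m := mem_fsum S fun i _ =>
    mem_mul_top (e i).hs (hC.tt1_2 hD (e i).hF (e i).hH)
  have m2 : MemLp S2 2 m := mem_fsum S fun i _ =>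
    mem_mul_top (e i).hs (hC.tt2_2 hD (e i).hF (e i).hH)
  have m3 : MemLp (S1 ^ 2 + S2 ^ 2 : M →ₘ[m] ℝ) 1 m := mem_add (mem_sq m1) (mem_sq m2)
  have hpos : ∀ n : ℕ, ∀ t : ℝ, 0 < t ^ 2 + ((n : ℝ) + 1)⁻¹ := fun n t => by (clear * -; positivity)
  have hcont : ∀ n : ℕ, Continuous fun t : ℝ => t / (t ^ 2 + ((n : ℝ) + 1)⁻¹) := fun n =>
    continuous_id.div (by fun_prop) fun t => (hpos n t).ne'
  set r : ℕ → M →ₘ[m] ℝ := fun n =>
    AEEqFun.comp (fun t : ℝ => t / (t ^ 2 + ((n : ℝ) + 1)⁻¹)) (hcont n) χ with hr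
  have hrx : ∀ n, ∀ᵐ x ∂m, r n x = χ x / (χ x ^ 2 + ((n : ℝ) + 1)⁻¹) := fun n =>
    AEEqFun.coeFn_comp _ _ _
  have hr1 : ∀ n, MemLp (r n) 2 m := by
    intro n
    refine mem_of_le (mem_smul ((n : ℝ) + 1) (hC.memLp _ hχ.1)) ?_
    filter_upwards [hrx n, smul_ae χ ((n : ℝ) + 1)] with x h1 h2
    rw [h1, h2, abs_div, abs_of_pos (hpos n _), abs_mul, abs_of_pos (by (clear * -; positivity) : (0:ℝ) < n + 1),
      div_le_iff₀ (hpos n _)]
    have h3 : ((n : ℝ) + 1) * |χ x| * (χ x ^ 2 + ((n : ℝ) + 1)⁻¹)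
        = ((n : ℝ) + 1) * |χ x| * χ x ^ 2 + |χ x| := by
      have : ((n : ℝ) + 1) * ((n : ℝ) + 1)⁻¹ = 1 := mul_inv_cancel₀ (by (clear * -; positivity))
      linear_combination |χ x| * this
    rw [h3]
    have : 0 ≤ ((n : ℝ) + 1) * |χ x| * χ x ^ 2 := by (clear * -; positivity)
    linarith only [this]
  have hr2 : ∀ n, MemLp (r n) ∞ m := by
    intro n
    refine mem_of_le (mem_smul ((n : ℝ) + 1) hχ.2) ?_
    filter_upwards [hrx n, smul_ae χ ((n : ℝ) + 1)] with x h1 h2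
    rw [h1, h2, abs_div, abs_of_pos (hpos n _), abs_mul, abs_of_pos (by (clear * -; positivity) : (0:ℝ) < n + 1),
      div_le_iff₀ (hpos n _)]
    have h3 : ((n : ℝ) + 1) * |χ x| * (χ x ^ 2 + ((n : ℝ) + 1)⁻¹)
        = ((n : ℝ) + 1) * |χ x| * χ x ^ 2 + |χ x| := by
      have : ((n : ℝ) + 1) * ((n : ℝ) + 1)⁻¹ = 1 := mul_inv_cancel₀ (by (clear * -; positivity))
      linear_combination |χ x| * this
    rw [h3]
    have : 0 ≤ ((n : ℝ) + 1) * |χ x| * χ x ^ 2 := by (clear * -; positivity)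
    linarith only [this]
  have hθ : ∀ n, ∀ᵐ x ∂m, (χ * r n) x = χ x ^ 2 / (χ x ^ 2 + ((n : ℝ) + 1)⁻¹) := by
    intro n
    filter_upwards [hrx n, mul_ae χ (r n)] with x h1 h2
    rw [h2, h1]; ring
  have hθ1 : ∀ n, ∀ᵐ x ∂m, |(χ * r n) x| ≤ 1 := by
    intro n
    filter_upwards [hθ n] with x h1
    rw [h1, abs_of_nonneg (div_nonneg (sq_nonneg _) (hpos n _).le), div_le_one (hpos n _)]
    have : 0 < ((n : ℝ) + 1)⁻¹ := by (clear * -; positivity)
    linarith only [this]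
  have key : ∀ n : ℕ, 0 ≤ C.NN κ b b (χ ^ 2)
      + 2 * ∑ i ∈ S, I ((χ * r n) * (χ * ((e i).s * C.KK b (e i).F (e i).H)))
      + 2 * I (S1 ^ 2 + S2 ^ 2) := by
    intro n
    have h1 := hC.TI (κ := κ) hB hD S e hb (r n) (fun i => mem_top_mul (hr1 n) (e i).hs)
      (hr2 n) hχ2 (sq_nonneg' _)
    have h2 : ∀ i, χ ^ 2 * (r n * ((e i).s * C.KK b (e i).F (e i).H))
        = (χ * r n) * (χ * ((e i).s * C.KK b (e i).F (e i).H)) := by intro i; ring
    have h3 : I (χ ^ 2 * (r n ^ 2 * (S1 ^ 2 + S2 ^ 2))) ≤ I (S1 ^ 2 + S2 ^ 2) := by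
      refine I_mono ?_ m3 ?_
      · refine mem_mul_top hχ2.2 (mem_mul_top ?_ m3)
        rw [sq]; exact mem_mul_top (hr2 n) (hr2 n)
      · have : χ ^ 2 * (r n ^ 2 * (S1 ^ 2 + S2 ^ 2)) = (χ * r n) ^ 2 * (S1 ^ 2 + S2 ^ 2) := by ring
        rw [this, le_iff_ae]
        have hp : 0 ≤ S1 ^ 2 + S2 ^ 2 := add_nonneg (sq_nonneg' _) (sq_nonneg' _)
        rw [nonneg_iff_ae] at hp
        filter_upwards [mul_ae ((χ * r n) ^ 2) (S1 ^ 2 + S2 ^ 2), sq_ae (χ * r n), hθ1 n, hp]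
          with x k1 k2 k3 k4
        rw [k1, k2]
        have : (χ * r n) x ^ 2 ≤ 1 := by
          rw [← sq_abs]
          exact pow_le_one₀ (abs_nonneg _) k3
        nlinarith only [k4, this]
    simp only [h2] at h1
    linarith only [h3, h1]
  have l1 : ∀ i, Tendsto (fun n => I ((χ * r n) * (χ * ((e i).s * C.KK b (e i).F (e i).H)))) atTop
      (𝓝 (I (χ * ((e i).s * C.KK b (e i).F (e i).H)))) := by
    intro i
    refine I_tendsto_of_bdd' hθ1 ?_ (mem_mul_22 (hC.memLp _ hχ.1) (mem_mul_top (e i).hs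
      (hC.KK_mem2 hB (e i).hF (e i).hH hb)))
    have hall : ∀ᵐ x ∂m, ∀ n, (χ * r n) x = χ x ^ 2 / (χ x ^ 2 + ((n : ℝ) + 1)⁻¹) := by
      rw [ae_all_iff]; exact hθ
    filter_upwards [hall, mul_ae χ ((e i).s * C.KK b (e i).F (e i).H)] with x k1 k2
    simp only [k1, k2]
    by_cases hx : χ x = 0
    · simp [hx]
    · have hx2 : χ x ^ 2 ≠ 0 := by (clear * - hx; positivity)
      have l2 : Tendsto (fun n : ℕ => χ x ^ 2 / (χ x ^ 2 + ((n : ℝ) + 1)⁻¹)) atTop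
          (𝓝 (χ x ^ 2 / (χ x ^ 2 + 0))) := by
        refine tendsto_const_nhds.div (tendsto_const_nhds.add tendsto_inv_succ) ?_
        simpa using hx
      rw [add_zero, div_self hx2] at l2
      simpa only [one_mul] using l2.mul_const (χ x * ((e i).s * C.KK b (e i).F (e i).H) x)
  have hlim := ((tendsto_const_nhds (x := C.NN κ b b (χ ^ 2))).add
    ((tendsto_finsetSum S fun i _ => l1 i).const_mul 2)).add
    (tendsto_const_nhds (x := 2 * I (S1 ^ 2 + S2 ^ 2)))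
  exact ge_of_tendsto hlim (Eventually.of_forall key)

end IsGamma

end Vale.Agent.P233
end
end

section

section

open MeasureTheory Filter Topology
open scoped ENNReal NNReal InnerProductSpace

namespace Vale.Agent.P233

variable {M : Type*} [MeasurableSpace M] {m : Measure M} {C : Calc m}

/-- an `L²` convergent sequence has an a.e. convergent subsequence -/
theorem exists_subseq_ae {u : ℕ → M →ₘ[m] ℝ} (hu : ∀ n, MemLp (u n) 2 m)
    (h : Tendsto (fun n => I (u n ^ 2)) atTop (𝓝 0)) :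
    ∃ ns : ℕ → ℕ, StrictMono ns ∧ ∀ᵐ x ∂m, Tendsto (fun k => u (ns k) x) atTop (𝓝 0) := by
  have h1 : Tendsto (fun n => eLpNorm (fun x => u n x - (fun _ => (0 : ℝ)) x) 2 m) atTop (𝓝 0) := by
    have h2 : Tendsto (fun n => ‖(hu n).toLp‖) atTop (𝓝 0) := by
      have h3 := (Real.continuous_sqrt.tendsto 0).comp h
      simp only [Real.sqrt_zero] at h3
      refine h3.congr fun n => ?_
      simp only [Function.comp]
      rw [I_sq_eq_norm (hu n), Real.sqrt_sq (norm_nonneg _)]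
    have h4 : ∀ n, eLpNorm (fun x => u n x - (fun _ => (0 : ℝ)) x) 2 m
        = ENNReal.ofReal ‖(hu n).toLp‖ := by
      intro n
      rw [Lp.norm_toLp, ENNReal.ofReal_toReal (hu n).2.ne]
      simp only [sub_zero]
    simp only [h4]
    have := ENNReal.continuous_ofReal.tendsto 0
    rw [ENNReal.ofReal_zero] at this
    exact this.comp h2
  exact (tendstoInMeasure_of_tendsto_eLpNorm (two_ne_zero)
    (fun n => (u n).aestronglyMeasurable) aestronglyMeasurable_const h1).exists_seq_tendsto_ae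

namespace IsGamma

variable (hC : IsGamma C) {κ : ℝ} (hB : C.BE κ 2)

/-- cut-off functions made of test functions -/
theorem test_cutoff [SigmaFinite m] (hC : IsGamma C) (hB : C.BE κ 2) :
    ∃ χ : ℕ → M →ₘ[m] ℝ, (∀ k, χ k ∈ C.Test) ∧
    (∀ k, ∀ᵐ x ∂m, |χ k x| ≤ 1) ∧ (∀ᵐ x ∂m, Tendsto (fun k => χ k x) atTop (𝓝 1)) ∧
    ∀ b ∈ C.Test, ∃ E : ℝ, ∀ k, I (C.Γ b b * C.Γ (χ k) (χ k)) ≤ E := by
  obtain ⟨η, h1, -, h3⟩ := hC.cutoff
  have hη1 : ∀ k, ∀ᵐ x ∂m, |η k x| ≤ 1 := by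
    intro k
    have a1 := nonneg_iff_ae.1 (h1 k).2.1
    have a2 := le_iff_ae.1 (h1 k).2.2.1
    filter_upwards [a1, a2, one_ae (M := M) (m := m)] with x b1 b2 b3
    rw [abs_of_nonneg b1]
    rwa [b3] at b2
  have hηA : ∀ k, η k ∈ C.A := fun k => ⟨(h1 k).1, mem_top_iff.2 ⟨1, hη1 k⟩⟩
  have hηΓ : ∀ k, ∀ᵐ x ∂m, C.Γ (η k) (η k) x ≤ 1 := by
    intro k
    filter_upwards [le_iff_ae.1 (h1 k).2.2.2, smul_ae (1 : M →ₘ[m] ℝ) ((k : ℝ) + 1)⁻¹,
      one_ae (M := M) (m := m)] with x b1 b2 b3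
    rw [b2, b3, mul_one] at b1
    refine b1.trans ?_
    exact inv_le_one_of_one_le₀ (by linarith only [])
  have hηT : ∀ k, MemLp (C.Γ (η k) (η k)) ∞ m := by
    intro k
    refine mem_top_iff.2 ⟨1, ?_⟩
    filter_upwards [hηΓ k, nonneg_iff_ae.1 (hC.nonneg _ (h1 k).1)] with x b1 b2
    rwa [abs_of_nonneg b2]
  have hex : ∀ k : ℕ, ∃ g, g ∈ C.Test ∧ (∀ᵐ x ∂m, |g x| ≤ 1) ∧
      C.nrm2 (g - η k) < ((k : ℝ) + 1)⁻¹ := by
    intro k
    have t1 := hC.J_tendsto_W (h1 k).1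
    have t2 : ∀ᶠ n : ℕ in atTop, C.nrm2 (C.J ((n : ℝ) + 1)⁻¹ (η k) - η k) < ((k : ℝ) + 1)⁻¹ :=
      t1.eventually (gt_mem_nhds (by positivity))
    have t3 : ∀ᶠ n : ℕ in atTop, 0 < 1 + 2 * ((n : ℝ) + 1)⁻¹ * κ := by
      have : Tendsto (fun n : ℕ => 1 + 2 * ((n : ℝ) + 1)⁻¹ * κ) atTop (𝓝 (1 + 2 * 0 * κ)) :=
        tendsto_const_nhds.add ((tendsto_inv_succ.const_mul 2).mul_const κ)
      exact this.eventually (lt_mem_nhds (by norm_num))
    obtain ⟨n, hn1, hn2⟩ := (t2.and t3).exists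
    exact ⟨C.J ((n : ℝ) + 1)⁻¹ (η k), hC.J_test hB (by (clear * -; positivity)) hn2 (hηA k) (hηT k),
      hC.J_bdd (by positivity) (hC.memLp _ (h1 k).1) (hη1 k), hn1⟩
  choose χ hχ1 hχ2 hχ3 using hex
  have hχW : ∀ k, χ k ∈ C.W := fun k => (hC.test_A (hχ1 k)).1
  have hdW : ∀ k, χ k - η k ∈ C.W := fun k => hC.sub_mem (hχW k) (h1 k).1
  have hL2 : Tendsto (fun k => I ((χ k - η k) ^ 2)) atTop (𝓝 0) := by
    refine squeeze_zero (fun k => I_sq_nonneg _) (fun k => ?_) tendsto_inv_succ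
    have a1 := (hχ3 k).le
    have a2 : 0 ≤ I (C.Γ (χ k - η k) (χ k - η k)) := I_nonneg (hC.nonneg _ (hdW k))
    unfold Calc.nrm2 at a1
    linarith only [a1, a2]
  obtain ⟨ns, hns, hae⟩ := exists_subseq_ae (fun k => hC.memLp _ (hdW k)) hL2
  refine ⟨fun k => χ (ns k), fun k => hχ1 _, fun k => hχ2 _, ?_, ?_⟩
  · have hs : ∀ᵐ x ∂m, ∀ k, (χ (ns k) - η (ns k)) x = χ (ns k) x - η (ns k) x := by
      rw [ae_all_iff]; intro k; exact sub_ae _ _
    filter_upwards [hae, hs, h3, one_ae (M := M) (m := m)] with x b1 b2 b3 b4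
    simp only [b2] at b1
    have b5 := b1.add (b3.comp hns.tendsto_atTop)
    simpa using b5
  · intro b hb
    have bW := (hC.test_A hb).1
    obtain ⟨K, hK⟩ := mem_top_iff.1 (hC.test_Γ_top hb)
    have hK0 : ∀ᵐ x ∂m, 0 ≤ C.Γ b b x := nonneg_iff_ae.1 (hC.nonneg _ bW)
    have hKpos : 0 ≤ |K| := abs_nonneg K
    refine ⟨2 * I (C.Γ b b) + 2 * |K| * 1, fun k => ?_⟩
    set n := ns k
    set d := χ n - η n with hd
    have e0 : χ n = d + η n := by rw [hd]; ring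
    have nd : I (C.Γ d d) ≤ 1 := by
      have a1 := (hχ3 n).le
      have a2 : 0 ≤ I (d ^ 2) := I_sq_nonneg _
      unfold Calc.nrm2 at a1
      have a3 : ((n : ℝ) + 1)⁻¹ ≤ 1 :=
        inv_le_one_of_one_le₀ (by linarith only [])
      linarith
    have hle : C.Γ b b * C.Γ (χ n) (χ n) ≤ (2 : ℝ) • C.Γ b b + (2 * |K|) • C.Γ d d := by
      have c1 : C.Γ (χ n) (χ n) = C.Γ d d + (2 : ℝ) • C.Γ d (η n) + C.Γ (η n) (η n) := by
        rw [e0, hC.add_left _ (hdW n) _ (h1 n).1 _ (hC.add_mem _ (hdW n) _ (h1 n).1),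
          hC.Γ_add_right (hdW n) (hdW n) (h1 n).1, hC.Γ_add_right (h1 n).1 (hdW n) (h1 n).1,
          hC.symm _ (h1 n).1 _ (hdW n)]
        algebra
      have c2 : C.Γ (d - η n) (d - η n) = C.Γ d d - (2 : ℝ) • C.Γ d (η n) + C.Γ (η n) (η n) := by
        rw [hC.Γ_sub_left (hdW n) (h1 n).1 (hC.sub_mem (hdW n) (h1 n).1),
          hC.Γ_sub_right (hdW n) (hdW n) (h1 n).1, hC.Γ_sub_right (h1 n).1 (hdW n) (h1 n).1,
          hC.symm _ (h1 n).1 _ (hdW n)]
        algebra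
      have c3 := hC.nonneg _ (hC.sub_mem (hdW n) (h1 n).1)
      have c4 : C.Γ (χ n) (χ n) + C.Γ (d - η n) (d - η n)
          = (2 : ℝ) • C.Γ d d + (2 : ℝ) • C.Γ (η n) (η n) := by rw [c1, c2]; algebra
      rw [le_iff_ae]
      rw [nonneg_iff_ae] at c3
      rw [eq_iff_ae] at c4
      filter_upwards [c3, c4, hK, hK0, hηΓ n, nonneg_iff_ae.1 (hC.nonneg _ (hdW n)),
        add_ae (C.Γ (χ n) (χ n)) (C.Γ (d - η n) (d - η n)),
        add_ae ((2 : ℝ) • C.Γ d d) ((2 : ℝ) • C.Γ (η n) (η n)),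
        smul_ae (C.Γ d d) (2 : ℝ), smul_ae (C.Γ (η n) (η n)) (2 : ℝ),
        mul_ae (C.Γ b b) (C.Γ (χ n) (χ n)), add_ae ((2 : ℝ) • C.Γ b b) ((2 * |K|) • C.Γ d d),
        smul_ae (C.Γ b b) (2 : ℝ), smul_ae (C.Γ d d) (2 * |K|)]
        with x q1 q2 q3 q4 q5 q6 q7 q8 q9 q10 q11 q12 q13 q14
      rw [q7, q8, q9, q10] at q2
      rw [q11, q12, q13, q14]
      have q15 : C.Γ (χ n) (χ n) x ≤ 2 * C.Γ d d x + 2 := by linarith only [q1, q2, q5]
      have q16 : C.Γ b b x ≤ |K| := (le_abs_self _).trans (q3.trans (le_abs_self _))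
      nlinarith only [q15, q4, q16, q6]
    have i1 := mem_mul_top (hC.test_Γ_top hb) (hC.mem1 _ (hχW n))
    have i2 := hC.mem1 _ bW
    have i3 := hC.mem1 _ (hdW n)
    have h5 := I_mono i1 (mem_add (mem_smul _ i2) (mem_smul _ i3)) hle
    rw [I_add (mem_smul _ i2) (mem_smul _ i3), I_smul, I_smul] at h5
    have : 2 * |K| * I (C.Γ d d) ≤ 2 * |K| * 1 := by (clear * - nd; gcongr)
    linarith only [h5, this]

variable {D₁ D₂ : (M →ₘ[m] ℝ) → (M →ₘ[m] ℝ)} (hD : IsFrame C D₁ D₂)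

/-- the uniform bound of `NN b b (χ²)` -/
theorem NN_bound [SigmaFinite m] (hC : IsGamma C) (hB : C.BE κ 2) (hD : IsFrame C D₁ D₂)
    {b : M →ₘ[m] ℝ} (hb : b ∈ C.Test) :
    ∃ C₀ : ℝ, ∀ χ ∈ C.Test, (∀ᵐ x ∂m, |χ x| ≤ 1) →
      C.NN κ b b (χ ^ 2) ≤ 3 * I (C.Γ b b * C.Γ χ χ) + C₀ := by
  refine ⟨2 * (2⁻¹ * I (C.lap b ^ 2) + (∫ x, |C.Γ b (C.lap b) x| ∂m)
    + |κ| * (∫ x, |C.Γ b b x| ∂m) + 2⁻¹ * (∫ x, |(C.lap b * C.lap b) x| ∂m)), fun χ hχ hχ1 => ?_⟩
  have bA := hC.test_A hb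
  have cA := hC.test_A hχ
  have lb := hC.test_lap_mem hb
  have hg := hC.Γ_mem hB hb hb
  have hχ2 : χ ^ 2 ∈ C.A := by rw [sq]; exact hC.mul_mem_A cA cA
  have hχ21 : ∀ᵐ x ∂m, |(χ ^ 2) x| ≤ 1 := by
    filter_upwards [hχ1, sq_ae χ] with x h1 h2
    rw [h2, abs_of_nonneg (sq_nonneg _), ← sq_abs]
    exact pow_le_one₀ (abs_nonneg _) h1
  set N := C.NN κ b b (χ ^ 2) with hN
  set E := I (C.Γ b b * C.Γ χ χ) with hE
  -- Cauchy-Schwarz
  have hcs : I (χ * C.KK b b χ) ^ 2 ≤ 2 * N * E := by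
    have h : ∀ t : ℝ, 0 ≤ (2 * E) * (t * t) + (2 * I (χ * C.KK b b χ)) * t + N := by
      intro t
      have h1 := hC.TI2 (κ := κ) hB hD (Finset.univ : Finset (Fin 1))
        (fun _ => ⟨t • 1, b, χ, mem_smul _ mem_top_one, hb, hχ⟩) hb cA
      simp only [Finset.univ_unique, Finset.sum_singleton] at h1
      have e1 : χ * (t • (1 : M →ₘ[m] ℝ) * C.KK b b χ) = t • (χ * C.KK b b χ) := by algebra
      have e2 : (t • (1 : M →ₘ[m] ℝ) * tt1 D₁ D₂ b χ) ^ 2 + (t • (1 : M →ₘ[m] ℝ) * tt2 D₁ D₂ b χ) ^ 2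
          = (t * t) • (C.Γ b b * C.Γ χ χ) := by
        rw [hD.Γ_eq _ bA.1 _ bA.1, hD.Γ_eq _ cA.1 _ cA.1]
        unfold tt1 tt2
        algebra
      rw [e1, e2, I_smul, I_smul] at h1
      linarith
    have := discrim_le_zero h
    unfold discrim at this
    linarith
  have hKK : C.KK b b χ = C.Γ χ (C.Γ b b) - C.Γ b χ * C.lap b := by
    unfold Calc.KK Calc.hess
    algebra
  have hE0 : 0 ≤ E := I_nonneg (mul_nonneg (hC.nonneg _ bA.1) (hC.nonneg _ cA.1))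
  have hN0 : 0 ≤ N := hC.NN_nonneg hB hb hχ2 (sq_nonneg' _)
  have hx : |I (χ * C.KK b b χ)| ≤ N / 2 + E := by
    refine abs_le_of_sq_le_sq ?_ (by (clear * - hN0 hE0; positivity))
    nlinarith only [hcs, sq_nonneg (N / 2 - E)]
  have hE2 : I (C.Γ b χ ^ 2) ≤ E := by
    refine I_mono ?_ ?_ (hC.Γ_cs bA.1 cA.1)
    · rw [sq]; exact mem_mul_top (hC.Γ_mem hB hb hχ).2 (hC.Γ_mem1 bA.1 cA.1)
    · exact mem_mul_top (hC.test_Γ_top hb) (hC.mem1 _ cA.1)
  have hy : |I (χ * (C.Γ b χ * C.lap b))| ≤ 2⁻¹ * E + 2⁻¹ * I (C.lap b ^ 2) := by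
    have h2 : I (χ * (C.Γ b χ * C.lap b)) ^ 2 ≤ E * I (C.lap b ^ 2) := by
      have e1 : χ * (C.Γ b χ * C.lap b) = (χ * C.Γ b χ) * C.lap b := by ring
      rw [e1]
      refine (I_cs (mem_mul_top cA.2 (hC.memLp _ (hC.Γ_mem hB hb hχ).1)) (hC.memLp _ lb)).trans ?_
      refine mul_le_mul_of_nonneg_right ?_ (I_sq_nonneg _)
      refine le_trans (I_mono ?_ ?_ ?_) hE2
      · exact mem_sq (mem_mul_top cA.2 (hC.memLp _ (hC.Γ_mem hB hb hχ).1))
      · exact mem_sq (hC.memLp _ (hC.Γ_mem hB hb hχ).1)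
      · rw [le_iff_ae]
        filter_upwards [sq_ae (χ * C.Γ b χ), sq_ae (C.Γ b χ), mul_ae χ (C.Γ b χ), hχ1]
          with x k1 k2 k3 k4
        rw [k1, k2, k3, mul_pow]
        have : χ x ^ 2 ≤ 1 := by rw [← sq_abs]; exact pow_le_one₀ (abs_nonneg _) k4
        nlinarith only [this]
    have hl := I_sq_nonneg (C.lap b)
    refine abs_le_of_sq_le_sq ?_ (by (clear * - hE0 hl; positivity))
    nlinarith only [h2, sq_nonneg (E - I (C.lap b ^ 2))]
  have hG : C.Γ (C.Γ b b) (χ ^ 2) = (2 : ℝ) • (χ * C.Γ χ (C.Γ b b)) := by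
    rw [sq, hC.Γ_mul_right cA cA hg.1, hC.symm _ hg.1 _ cA.1]
    algebra
  have hG2 : χ * C.Γ χ (C.Γ b b) = χ * C.KK b b χ + χ * (C.Γ b χ * C.lap b) := by
    rw [hKK]; ring
  have j1 : MemLp (χ * C.KK b b χ) 1 m :=
    mem_mul_22 (hC.memLp _ cA.1) (hC.KK_mem2 hB hb hχ hb)
  have j2 : MemLp (χ * (C.Γ b χ * C.lap b)) 1 m :=
    mem_mul_top cA.2 (mem_mul_22 (hC.memLp _ (hC.Γ_mem hB hb hχ).1) (hC.memLp _ lb))
  have hNdef : N = -((2 : ℝ)⁻¹ * (2 * (I (χ * C.KK b b χ) + I (χ * (C.Γ b χ * C.lap b)))))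
      - (2 : ℝ)⁻¹ * (I (χ ^ 2 * C.Γ b (C.lap b)) + I (χ ^ 2 * C.Γ b (C.lap b)))
      - κ * I (χ ^ 2 * C.Γ b b) - (2 : ℝ)⁻¹ * I (χ ^ 2 * (C.lap b * C.lap b)) := by
    rw [hN]
    unfold Calc.NN
    have j3 : MemLp (χ ^ 2 * C.Γ b (C.lap b) : M →ₘ[m] ℝ) 1 m := mem_mul_top hχ2.2 (hC.Γ_mem1 bA.1 lb)
    rw [hG, I_smul, hG2, I_add j1 j2, mul_add (χ ^ 2), I_add j3 j3]
  have b1 := I_mul_le hχ21 (hC.Γ_mem1 bA.1 lb)
  have b2 := I_mul_le hχ21 (hC.mem1 _ bA.1)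
  have b3 := I_mul_le hχ21 (mem_mul_22 (hC.memLp _ lb) (hC.memLp _ lb))
  have b4 : |κ * I (χ ^ 2 * C.Γ b b)| ≤ |κ| * (∫ x, |C.Γ b b x| ∂m) := by
    rw [abs_mul]
    refine mul_le_mul_of_nonneg_left ?_ (abs_nonneg _)
    linarith only [b2]
  rw [abs_le] at hx hy b1 b3 b4
  linarith only [hx, hy, hNdef, b1, b3, b4]

/-- the global inequality -/
theorem TI3 [SigmaFinite m] (hC : IsGamma C) (hB : C.BE κ 2) (hD : IsFrame C D₁ D₂)
    {b : M →ₘ[m] ℝ} (hb : b ∈ C.Test) : ∃ C₀ : ℝ, ∀ (ι : Type _) (S : Finset ι) (e : ι → Elt2 C),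
    0 ≤ C₀ + 2 * ∑ i ∈ S, I ((e i).s * C.KK b (e i).F (e i).H)
      + 2 * I ((∑ i ∈ S, (e i).s * tt1 D₁ D₂ (e i).F (e i).H) ^ 2
        + (∑ i ∈ S, (e i).s * tt2 D₁ D₂ (e i).F (e i).H) ^ 2) := by
  obtain ⟨χ, hχ1, hχ2, hχ3, hχ4⟩ := hC.test_cutoff hB
  obtain ⟨E, hE⟩ := hχ4 b hb
  obtain ⟨C₀, hC₀⟩ := hC.NN_bound hB hD hb
  refine ⟨3 * E + C₀, fun ι S e => ?_⟩
  have key : ∀ k, 0 ≤ (3 * E + C₀) + 2 * ∑ i ∈ S, I (χ k * ((e i).s * C.KK b (e i).F (e i).H))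
      + 2 * I ((∑ i ∈ S, (e i).s * tt1 D₁ D₂ (e i).F (e i).H) ^ 2
        + (∑ i ∈ S, (e i).s * tt2 D₁ D₂ (e i).F (e i).H) ^ 2) := by
    intro k
    have h1 := hC.TI2 (κ := κ) hB hD S (fun i => (e i).toElt) hb (hC.test_A (hχ1 k))
    have h2 := hC₀ (χ k) (hχ1 k) (hχ2 k)
    have h3 := hE k
    linarith only [h1, h2, h3]
  have l1 : ∀ i, Tendsto (fun k => I (χ k * ((e i).s * C.KK b (e i).F (e i).H))) atTop
      (𝓝 (I ((e i).s * C.KK b (e i).F (e i).H))) := by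
    intro i
    refine I_tendsto_of_bdd' hχ2 ?_ (mem_mul_22 (e i).hs2 (hC.KK_mem2 hB (e i).hF (e i).hH hb))
    filter_upwards [hχ3] with x hx
    simpa using hx.mul_const (((e i).s * C.KK b (e i).F (e i).H) x)
  have hlim := ((tendsto_const_nhds (x := 3 * E + C₀)).add
    ((tendsto_finsetSum S fun i _ => l1 i).const_mul 2)).add
    (tendsto_const_nhds (x := 2 * I ((∑ i ∈ S, (e i).s * tt1 D₁ D₂ (e i).F (e i).H) ^ 2
        + (∑ i ∈ S, (e i).s * tt2 D₁ D₂ (e i).F (e i).H) ^ 2)))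
  exact ge_of_tendsto hlim (Eventually.of_forall key)

end IsGamma

end Vale.Agent.P233
end
end

section

section

open MeasureTheory Filter Topology
open scoped ENNReal NNReal InnerProductSpace

namespace Vale.Agent.P233

/-- representation of a functional that is bounded by the norm of a linear map -/
theorem riesz_aux {E R : Type*} [NormedAddCommGroup E] [InnerProductSpace ℝ E] [CompleteSpace E]
    [AddCommGroup R] [Module ℝ R] (T : R →ₗ[ℝ] E) (L : R →ₗ[ℝ] ℝ) (K : ℝ)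
    (h : ∀ r, 0 ≤ K + 2 * L r + 2 * ‖T r‖ ^ 2) :
    ∃ σ ∈ (LinearMap.range T).topologicalClosure, ∀ r, L r = 2 * ⟪σ, T r⟫_ℝ := by
  have hK : 0 ≤ K := by simpa only [map_zero, mul_zero, add_zero, norm_zero, ne_eq, OfNat.ofNat_ne_zero, not_false_eq_true,     zero_pow] using h 0
  have hsq : ∀ r, L r ^ 2 ≤ 2 * K * ‖T r‖ ^ 2 := by
    intro r
    have h1 : ∀ t : ℝ, 0 ≤ (2 * ‖T r‖ ^ 2) * (t * t) + (2 * L r) * t + K := by
      intro t
      have h2 := h (t • r)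
      rw [map_smul, map_smul, norm_smul, Real.norm_eq_abs, mul_pow, sq_abs, smul_eq_mul] at h2
      linarith
    have := discrim_le_zero h1
    unfold discrim at this
    linarith
  have habs : ∀ r, |L r| ≤ Real.sqrt (2 * K) * ‖T r‖ := by
    intro r
    refine abs_le_of_sq_le_sq ?_ (by positivity)
    rw [mul_pow, Real.sq_sqrt (by positivity)]
    exact hsq r
  have hker : LinearMap.ker T ≤ LinearMap.ker L := by
    intro r hr
    rw [LinearMap.mem_ker] at hr ⊢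
    have := habs r
    rw [hr, norm_zero, mul_zero] at this
    exact abs_eq_zero.1 (le_antisymm this (abs_nonneg _))
  let f0 : LinearMap.range T →ₗ[ℝ] ℝ :=
    ((LinearMap.ker T).liftQ L hker).comp T.quotKerEquivRange.symm.toLinearMap
  have hf0 : ∀ r, f0 ⟨T r, LinearMap.mem_range_self T r⟩ = L r := by
    intro r
    change (LinearMap.ker T).liftQ L hker (T.quotKerEquivRange.symm _) = L r
    rw [LinearMap.quotKerEquivRange_symm_apply_image]
    simp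
  let f : LinearMap.range T →L[ℝ] ℝ := f0.mkContinuous (Real.sqrt (2 * K)) (by
    rintro ⟨_, r, rfl⟩
    rw [Real.norm_eq_abs]
    have := habs r
    rw [← hf0 r] at this
    exact this)
  obtain ⟨g, hg, -⟩ := exists_extension_norm_eq (LinearMap.range T) f
  set P := (LinearMap.range T).topologicalClosure with hP
  haveI : CompleteSpace P := (Submodule.isClosed_topologicalClosure _).completeSpace_coe
  set σ₀ := (InnerProductSpace.toDual ℝ E).symm g with hσ₀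
  refine ⟨(2 : ℝ)⁻¹ • P.starProjection σ₀, P.smul_mem _ (Submodule.starProjection_apply_mem P σ₀),
    fun r => ?_⟩
  have hT : T r ∈ P := Submodule.le_topologicalClosure _ (LinearMap.mem_range_self T r)
  have h1 : ⟪σ₀, T r⟫_ℝ = L r := by
    rw [hσ₀, InnerProductSpace.toDual_symm_apply]
    have := hg ⟨T r, LinearMap.mem_range_self T r⟩
    exact this.trans (hf0 r)
  have h2 := Submodule.starProjection_inner_eq_zero σ₀ (T r) hT
  rw [inner_sub_left, h1] at h2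
  rw [inner_smul_left]
  simp only [conj_trivial]
  linarith

variable {M : Type*} [MeasurableSpace M] {m : Measure M} {C : Calc m}

theorem inner_eq_I (f g : Lp ℝ 2 m) : ⟪f, g⟫_ℝ = I ((f : M →ₘ[m] ℝ) * (g : M →ₘ[m] ℝ)) := by
  rw [L2.inner_def]
  unfold I
  refine integral_congr_ae ?_
  filter_upwards [mul_ae (f : M →ₘ[m] ℝ) (g : M →ₘ[m] ℝ)] with x h1
  rw [h1]
  simp only [RCLike.inner_apply, Real.ringHom_apply, mul_comm]

theorem mem_coe (f : Lp ℝ 2 m) : MemLp (f : M →ₘ[m] ℝ) 2 m := Lp.memLp f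

/-- the two components -/
noncomputable def cmp1 : WithLp 2 (Lp ℝ 2 m × Lp ℝ 2 m) →ₗ[ℝ] (M →ₘ[m] ℝ) where
  toFun x := (x.fst : M →ₘ[m] ℝ)
  map_add' x y := rfl
  map_smul' c x := rfl
noncomputable def cmp2 : WithLp 2 (Lp ℝ 2 m × Lp ℝ 2 m) →ₗ[ℝ] (M →ₘ[m] ℝ) where
  toFun x := (x.snd : M →ₘ[m] ℝ)
  map_add' x y := rfl
  map_smul' c x := rfl

theorem inner_cmp (x y : WithLp 2 (Lp ℝ 2 m × Lp ℝ 2 m)) :
    ⟪x, y⟫_ℝ = I (cmp1 x * cmp1 y) + I (cmp2 x * cmp2 y) := by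
  rw [WithLp.prod_inner_apply]
  exact congrArg₂ (· + ·) (inner_eq_I _ _) (inner_eq_I _ _)

theorem norm_cmp (x : WithLp 2 (Lp ℝ 2 m × Lp ℝ 2 m)) :
    ‖x‖ ^ 2 = I (cmp1 x ^ 2) + I (cmp2 x ^ 2) := by
  rw [← real_inner_self_eq_norm_sq, inner_cmp, sq, sq]

variable {D₁ D₂ : (M →ₘ[m] ℝ) → (M →ₘ[m] ℝ)} {κ : ℝ}

/-- finite sums of elementary tensors -/
noncomputable def SS1 (D₁ D₂ : (M →ₘ[m] ℝ) → (M →ₘ[m] ℝ)) (S : Finset (Elt2 C)) (c : Elt2 C → ℝ) :
    M →ₘ[m] ℝ := ∑ e ∈ S, (c e • e.s) * tt1 D₁ D₂ e.F e.H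
noncomputable def SS2 (D₁ D₂ : (M →ₘ[m] ℝ) → (M →ₘ[m] ℝ)) (S : Finset (Elt2 C)) (c : Elt2 C → ℝ) :
    M →ₘ[m] ℝ := ∑ e ∈ S, (c e • e.s) * tt2 D₁ D₂ e.F e.H

/-- `(p,q)` is in the closed span of the elementary tensors -/
def InTSpan (C : Calc m) (D₁ D₂ : (M →ₘ[m] ℝ) → (M →ₘ[m] ℝ)) (p q : M →ₘ[m] ℝ) : Prop :=
  ∀ ε > 0, ∃ (S : Finset (Elt2 C)) (c : Elt2 C → ℝ),
    I ((p - SS1 D₁ D₂ S c) ^ 2) + I ((q - SS2 D₁ D₂ S c) ^ 2) < ε

theorem exists_rep [SigmaFinite m] (hC : IsGamma C) (hB : C.BE κ 2) (hD : IsFrame C D₁ D₂)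
    {b : M →ₘ[m] ℝ} (hb : b ∈ C.Test) : ∃ p q : M →ₘ[m] ℝ, MemLp p 2 m ∧ MemLp q 2 m ∧
    InTSpan C D₁ D₂ p q ∧ ∀ e : Elt2 C, I (e.s * C.KK b e.F e.H)
      = 2 * (I (p * (e.s * tt1 D₁ D₂ e.F e.H)) + I (q * (e.s * tt2 D₁ D₂ e.F e.H))) := by
  obtain ⟨C₀, hC₀⟩ := hC.TI3 hB hD hb
  have h1 : ∀ e : Elt2 C, MemLp (e.s * tt1 D₁ D₂ e.F e.H : M →ₘ[m] ℝ) 2 m := fun e =>
    mem_mul_top e.hs (hC.tt1_2 hD e.hF e.hH)
  have h2 : ∀ e : Elt2 C, MemLp (e.s * tt2 D₁ D₂ e.F e.H : M →ₘ[m] ℝ) 2 m := fun e =>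
    mem_mul_top e.hs (hC.tt2_2 hD e.hF e.hH)
  let v : Elt2 C → WithLp 2 (Lp ℝ 2 m × Lp ℝ 2 m) := fun e =>
    WithLp.toLp 2 ((h1 e).toLp, (h2 e).toLp)
  have hv1 : ∀ e, cmp1 (v e) = e.s * tt1 D₁ D₂ e.F e.H := by
    intro e
    change (((h1 e).toLp : Lp ℝ 2 m) : M →ₘ[m] ℝ) = _
    exact AEEqFun.ext (MemLp.coeFn_toLp (h1 e))
  have hv2 : ∀ e, cmp2 (v e) = e.s * tt2 D₁ D₂ e.F e.H := by
    intro e
    change (((h2 e).toLp : Lp ℝ 2 m) : M →ₘ[m] ℝ) = _
    exact AEEqFun.ext (MemLp.coeFn_toLp (h2 e))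
  let T : (Elt2 C →₀ ℝ) →ₗ[ℝ] WithLp 2 (Lp ℝ 2 m × Lp ℝ 2 m) := Finsupp.linearCombination ℝ v
  let L : (Elt2 C →₀ ℝ) →ₗ[ℝ] ℝ :=
    Finsupp.linearCombination ℝ (fun e : Elt2 C => I (e.s * C.KK b e.F e.H))
  have hT1 : ∀ r, cmp1 (T r) = SS1 D₁ D₂ r.support r := by
    intro r
    change cmp1 (Finsupp.linearCombination ℝ v r) = _
    rw [Finsupp.linearCombination_apply, Finsupp.sum, map_sum]
    unfold SS1
    refine Finset.sum_congr rfl fun e _ => ?_
    rw [map_smul, hv1, smul_mul_assoc]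
  have hT2 : ∀ r, cmp2 (T r) = SS2 D₁ D₂ r.support r := by
    intro r
    change cmp2 (Finsupp.linearCombination ℝ v r) = _
    rw [Finsupp.linearCombination_apply, Finsupp.sum, map_sum]
    unfold SS2
    refine Finset.sum_congr rfl fun e _ => ?_
    rw [map_smul, hv2, smul_mul_assoc]
  have hL : ∀ r, L r = ∑ e ∈ r.support, I ((r e • e.s) * C.KK b e.F e.H) := by
    intro r
    change Finsupp.linearCombination ℝ (fun e : Elt2 C => I (e.s * C.KK b e.F e.H)) r = _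
    rw [Finsupp.linearCombination_apply, Finsupp.sum]
    refine Finset.sum_congr rfl fun e _ => ?_
    rw [smul_mul_assoc, I_smul, smul_eq_mul]
  have hpos : ∀ r, 0 ≤ C₀ + 2 * L r + 2 * ‖T r‖ ^ 2 := by
    intro r
    have h3 := hC₀ (Elt2 C) r.support (fun e => ⟨⟨r e • e.s, e.F, e.H, mem_smul _ e.hs, e.hF, e.hH⟩,
      mem_smul _ e.hs2⟩)
    have m1 : MemLp (SS1 D₁ D₂ r.support r) 2 m := by rw [← hT1]; exact mem_coe _
    have m2 : MemLp (SS2 D₁ D₂ r.support r) 2 m := by rw [← hT2]; exact mem_coe _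
    rw [norm_cmp, hT1, hT2, hL, ← I_add (mem_sq m1) (mem_sq m2)]
    exact h3
  obtain ⟨σ, hσ, hσL⟩ := riesz_aux T L C₀ hpos
  refine ⟨cmp1 σ, cmp2 σ, mem_coe _, mem_coe _, ?_, ?_⟩
  · intro ε hε
    rw [← SetLike.mem_coe, Submodule.topologicalClosure_coe, Metric.mem_closure_iff] at hσ
    obtain ⟨_, ⟨r, rfl⟩, hr⟩ := hσ (Real.sqrt ε) (Real.sqrt_pos.2 hε)
    refine ⟨r.support, r, ?_⟩
    rw [← hT1, ← hT2, ← map_sub, ← map_sub, ← norm_cmp, ← dist_eq_norm]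
    rw [← Real.sq_sqrt hε.le]
    have := dist_nonneg (x := σ) (y := T r)
    gcongr
  · intro e
    have h3 := hσL (Finsupp.single e 1)
    have h4 : L (Finsupp.single e 1) = I (e.s * C.KK b e.F e.H) := by
      change Finsupp.linearCombination ℝ (fun e : Elt2 C => I (e.s * C.KK b e.F e.H))
        (Finsupp.single e 1) = _
      rw [Finsupp.linearCombination_single, one_smul]
    have h5 : T (Finsupp.single e 1) = v e := by
      change Finsupp.linearCombination ℝ v (Finsupp.single e 1) = _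
      rw [Finsupp.linearCombination_single, one_smul]
    rw [h4, h5, inner_cmp, hv1, hv2] at h3
    exact h3

end Vale.Agent.P233
end
end

section

section

open MeasureTheory Filter Topology
open scoped ENNReal NNReal

namespace Vale.Agent.P233

variable {M : Type*} [MeasurableSpace M] {m : Measure M} {C : Calc m}

/-- `(p b, q b)` represents the trace free part of the Hessian of `b`. -/
structure IsHess (C : Calc m) (κ : ℝ) (D₁ D₂ p q : (M →ₘ[m] ℝ) → (M →ₘ[m] ℝ)) : Prop where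
  mem_p : ∀ b ∈ C.Test, MemLp (p b) 2 m
  mem_q : ∀ b ∈ C.Test, MemLp (q b) 2 m
  add_p : ∀ b ∈ C.Test, ∀ c ∈ C.Test, p (b + c) = p b + p c
  add_q : ∀ b ∈ C.Test, ∀ c ∈ C.Test, q (b + c) = q b + q c
  smul_p : ∀ (t : ℝ), ∀ b ∈ C.Test, p (t • b) = t • p b
  smul_q : ∀ (t : ℝ), ∀ b ∈ C.Test, q (t • b) = t • q b
  KK_eq : ∀ b ∈ C.Test, ∀ f ∈ C.Test, ∀ h ∈ C.Test,
    C.KK b f h = (2 : ℝ) • (p b * (D₁ f * D₁ h - D₂ f * D₂ h) + q b * (D₁ f * D₂ h + D₂ f * D₁ h))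
  NN_ge : ∀ b ∈ C.Test, ∀ φ ∈ C.A, 0 ≤ φ → 2 * I (φ * (p b ^ 2 + q b ^ 2)) ≤ C.NN κ b b φ
  /-- `Hess° b (∇g)` lies in the span of the gradients -/
  span : ∀ b ∈ C.Test, ∀ g ∈ C.Test, ∀ Z₁ Z₂ : M →ₘ[m] ℝ, MemLp Z₁ 2 m → MemLp Z₂ 2 m →
    (∀ h ∈ C.Test, Z₁ * D₁ h + Z₂ * D₂ h = 0) →
    Z₁ * (p b * D₁ g + q b * D₂ g) + Z₂ * (q b * D₁ g - p b * D₂ g) = 0

theorem InTSpan.orth {D₁ D₂ : (M →ₘ[m] ℝ) → (M →ₘ[m] ℝ)} (hC : IsGamma C)
    (hD : IsFrame C D₁ D₂) {p q U₁ U₂ : M →ₘ[m] ℝ}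
    (h : InTSpan C D₁ D₂ p q) (hp : MemLp p 2 m) (hq : MemLp q 2 m) (h1 : MemLp U₁ 2 m)
    (h2 : MemLp U₂ 2 m) (H : ∀ e : Elt2 C, I ((e.s * tt1 D₁ D₂ e.F e.H) * U₁)
      + I ((e.s * tt2 D₁ D₂ e.F e.H) * U₂) = 0) : I (p * U₁) + I (q * U₂) = 0 := by
  have hm1 : ∀ e : Elt2 C, MemLp (e.s * tt1 D₁ D₂ e.F e.H : M →ₘ[m] ℝ) 2 m := fun e =>
    mem_mul_top e.hs (hC.tt1_2 hD e.hF e.hH)
  have hm2 : ∀ e : Elt2 C, MemLp (e.s * tt2 D₁ D₂ e.F e.H : M →ₘ[m] ℝ) 2 m := fun e =>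
    mem_mul_top e.hs (hC.tt2_2 hD e.hF e.hH)
  have key : ∀ ε > 0, (I (p * U₁) + I (q * U₂)) ^ 2 ≤ 2 * (I (U₁ ^ 2) + I (U₂ ^ 2)) * ε := by
    intro ε hε
    obtain ⟨S, c, hS⟩ := h ε hε
    have e1 : SS1 D₁ D₂ S c * U₁ = ∑ e ∈ S, c e • ((e.s * tt1 D₁ D₂ e.F e.H) * U₁) := by
      unfold SS1
      rw [Finset.sum_mul]
      exact Finset.sum_congr rfl fun e _ => by rw [smul_mul_assoc, smul_mul_assoc]
    have e2 : SS2 D₁ D₂ S c * U₂ = ∑ e ∈ S, c e • ((e.s * tt2 D₁ D₂ e.F e.H) * U₂) := by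
      unfold SS2
      rw [Finset.sum_mul]
      exact Finset.sum_congr rfl fun e _ => by rw [smul_mul_assoc, smul_mul_assoc]
    have s1 : MemLp (SS1 D₁ D₂ S c) 2 m := by
      unfold SS1
      refine mem_fsum _ fun e _ => ?_
      rw [smul_mul_assoc]; exact mem_smul _ (hm1 e)
    have s2 : MemLp (SS2 D₁ D₂ S c) 2 m := by
      unfold SS2
      refine mem_fsum _ fun e _ => ?_
      rw [smul_mul_assoc]; exact mem_smul _ (hm2 e)
    have e3 : I (SS1 D₁ D₂ S c * U₁) + I (SS2 D₁ D₂ S c * U₂) = 0 := by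
      rw [e1, e2, (I_fsum S fun e _ => mem_smul _ (mem_mul_22 (hm1 e) h1)).1,
        (I_fsum S fun e _ => mem_smul _ (mem_mul_22 (hm2 e) h2)).1, ← Finset.sum_add_distrib]
      refine Finset.sum_eq_zero fun e _ => ?_
      rw [I_smul, I_smul, ← mul_add, H e, mul_zero]
    have e4 : I (p * U₁) + I (q * U₂)
        = I ((p - SS1 D₁ D₂ S c) * U₁) + I ((q - SS2 D₁ D₂ S c) * U₂) := by
      rw [sub_mul, sub_mul, I_sub (mem_mul_22 hp h1) (mem_mul_22 s1 h1),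
        I_sub (mem_mul_22 hq h2) (mem_mul_22 s2 h2)]
      linarith only [e3]
    have c1 := I_cs (mem_sub hp s1) h1
    have c2 := I_cs (mem_sub hq s2) h2
    have p1 := I_sq_nonneg U₁
    have p2 := I_sq_nonneg U₂
    have p3 := I_sq_nonneg (p - SS1 D₁ D₂ S c)
    have p4 := I_sq_nonneg (q - SS2 D₁ D₂ S c)
    rw [e4]
    set x := I ((p - SS1 D₁ D₂ S c) * U₁)
    set y := I ((q - SS2 D₁ D₂ S c) * U₂)
    set X := I ((p - SS1 D₁ D₂ S c) ^ 2)
    set Y := I ((q - SS2 D₁ D₂ S c) ^ 2)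
    have c3 : (x + y) ^ 2 ≤ 2 * (x ^ 2 + y ^ 2) := by nlinarith only [sq_nonneg (x - y)]
    have c4 : x ^ 2 + y ^ 2 ≤ (I (U₁ ^ 2) + I (U₂ ^ 2)) * (X + Y) := by
      nlinarith only [c1, c2, p1, p4, p2, p3]
    have c5 : (I (U₁ ^ 2) + I (U₂ ^ 2)) * (X + Y) ≤ (I (U₁ ^ 2) + I (U₂ ^ 2)) * ε :=
      mul_le_mul_of_nonneg_left hS.le (by (clear * - p1 p2; positivity))
    linarith only [c3, c4, c5]
  have h0 : (I (p * U₁) + I (q * U₂)) ^ 2 ≤ 0 := by
    refine le_of_forall_pos_le_add fun ε hε => ?_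
    have p1 := I_sq_nonneg U₁
    have p2 := I_sq_nonneg U₂
    have := key (ε / (2 * (I (U₁ ^ 2) + I (U₂ ^ 2)) + 1)) (by (clear * - hε p1 p2; positivity))
    refine this.trans ?_
    rw [zero_add, mul_div_assoc', div_le_iff₀ (by (clear * - p1 p2; positivity))]
    nlinarith only [hε]
  exact pow_eq_zero_iff (two_ne_zero) |>.1 (le_antisymm h0 (sq_nonneg _))

theorem exists_hess [SigmaFinite m] (hC : IsGamma C) {κ : ℝ} (hB : C.BE κ 2)
    {D₁ D₂ : (M →ₘ[m] ℝ) → (M →ₘ[m] ℝ)} (hD : IsFrame C D₁ D₂) :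
    ∃ p q, IsHess C κ D₁ D₂ p q := by
  classical
  have hrep : ∀ b : M →ₘ[m] ℝ, ∃ pq : (M →ₘ[m] ℝ) × (M →ₘ[m] ℝ), b ∈ C.Test →
      MemLp pq.1 2 m ∧ MemLp pq.2 2 m ∧ InTSpan C D₁ D₂ pq.1 pq.2 ∧
      ∀ e : Elt2 C, I (e.s * C.KK b e.F e.H)
      = 2 * (I (pq.1 * (e.s * tt1 D₁ D₂ e.F e.H)) + I (pq.2 * (e.s * tt2 D₁ D₂ e.F e.H))) := by
    intro b
    by_cases hb : b ∈ C.Test
    · obtain ⟨p, q, h⟩ := exists_rep hC hB hD hb
      exact ⟨(p, q), fun _ => h⟩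
    · exact ⟨0, fun h => absurd h hb⟩
  choose pq hpq using hrep
  set p : (M →ₘ[m] ℝ) → (M →ₘ[m] ℝ) := fun b => (pq b).1 with hpdef
  set q : (M →ₘ[m] ℝ) → (M →ₘ[m] ℝ) := fun b => (pq b).2 with hqdef
  have hp : ∀ b ∈ C.Test, MemLp (p b) 2 m := fun b hb => (hpq b hb).1
  have hq : ∀ b ∈ C.Test, MemLp (q b) 2 m := fun b hb => (hpq b hb).2.1
  have hin : ∀ b ∈ C.Test, InTSpan C D₁ D₂ (p b) (q b) := fun b hb => (hpq b hb).2.2.1
  have hrep : ∀ b ∈ C.Test, ∀ e : Elt2 C, I (e.s * C.KK b e.F e.H)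
      = 2 * (I (p b * (e.s * tt1 D₁ D₂ e.F e.H)) + I (q b * (e.s * tt2 D₁ D₂ e.F e.H))) :=
    fun b hb => (hpq b hb).2.2.2
  have hKK : ∀ b ∈ C.Test, ∀ f ∈ C.Test, ∀ h ∈ C.Test,
      C.KK b f h = (2 : ℝ) • (p b * tt1 D₁ D₂ f h + q b * tt2 D₁ D₂ f h) := by
    intro b hb f hf h hh
    have k1 : MemLp (C.KK b f h) 1 m := by
      unfold Calc.KK Calc.hess
      refine mem_sub (mem_smul _ (mem_smul _ (mem_sub (mem_add ?_ ?_) ?_)))
        (mem_mul_22 (hC.memLp _ (hC.Γ_mem hB hf hh).1) (hC.memLp _ (hC.test_lap_mem hb)))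
      · exact hC.Γ_mem1 (hC.test_A hf).1 (hC.Γ_mem hB hb hh).1
      · exact hC.Γ_mem1 (hC.test_A hh).1 (hC.Γ_mem hB hb hf).1
      · exact hC.Γ_mem1 (hC.test_A hb).1 (hC.Γ_mem hB hf hh).1
    have k2 : MemLp (p b * tt1 D₁ D₂ f h : M →ₘ[m] ℝ) 1 m :=
      mem_mul_22 (hp b hb) (hC.tt1_2 hD hf hh)
    have k3 : MemLp (q b * tt2 D₁ D₂ f h : M →ₘ[m] ℝ) 1 m :=
      mem_mul_22 (hq b hb) (hC.tt2_2 hD hf hh)
    have key := hC.eq_zero_of_forall_test hB
      (F := C.KK b f h - (2 : ℝ) • (p b * tt1 D₁ D₂ f h + q b * tt2 D₁ D₂ f h))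
      (mem_sub k1 (mem_smul _ (mem_add k2 k3))) (by
        intro s hs
        have sA := hC.test_A hs
        have h1 := hrep b hb ⟨⟨s, f, h, sA.2, hf, hh⟩, hC.memLp _ sA.1⟩
        have e1 : s * (C.KK b f h - (2 : ℝ) • (p b * tt1 D₁ D₂ f h + q b * tt2 D₁ D₂ f h))
            = s * C.KK b f h - (2 : ℝ) • (p b * (s * tt1 D₁ D₂ f h) + q b * (s * tt2 D₁ D₂ f h)) := by
          algebra
        have k4 : MemLp (p b * (s * tt1 D₁ D₂ f h) : M →ₘ[m] ℝ) 1 m :=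
          mem_mul_22 (hp b hb) (mem_mul_top sA.2 (hC.tt1_2 hD hf hh))
        have k5 : MemLp (q b * (s * tt2 D₁ D₂ f h) : M →ₘ[m] ℝ) 1 m :=
          mem_mul_22 (hq b hb) (mem_mul_top sA.2 (hC.tt2_2 hD hf hh))
        rw [e1, I_sub (mem_mul_top sA.2 k1) (mem_smul _ (mem_add k4 k5)), I_smul, I_add k4 k5]
        exact sub_eq_zero.2 h1)
    exact sub_eq_zero.1 key
  -- uniqueness
  have hzero : ∀ x y : M →ₘ[m] ℝ, MemLp x 2 m → MemLp y 2 m → I (x * x) + I (y * y) = 0 →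
      x = 0 ∧ y = 0 := by
    intro x y hx hy h
    have h1 := I_sq_nonneg x
    have h2 := I_sq_nonneg y
    rw [← sq, ← sq] at h
    exact ⟨I_sq_eq_zero hx (by linarith), I_sq_eq_zero hy (by linarith)⟩
  have hadd : ∀ b ∈ C.Test, ∀ c ∈ C.Test, p (b + c) - (p b + p c) = 0 ∧
      q (b + c) - (q b + q c) = 0 := by
    intro b hb c hc
    have hbc := hC.test_add hB hb hc
    set x := p (b + c) - (p b + p c) with hx
    set y := q (b + c) - (q b + q c) with hy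
    have mx : MemLp x 2 m := mem_sub (hp _ hbc) (mem_add (hp _ hb) (hp _ hc))
    have my : MemLp y 2 m := mem_sub (hq _ hbc) (mem_add (hq _ hb) (hq _ hc))
    have H : ∀ e : Elt2 C, I ((e.s * tt1 D₁ D₂ e.F e.H) * x)
        + I ((e.s * tt2 D₁ D₂ e.F e.H) * y) = 0 := by
      intro e
      have t1 : MemLp (e.s * tt1 D₁ D₂ e.F e.H : M →ₘ[m] ℝ) 2 m :=
        mem_mul_top e.hs (hC.tt1_2 hD e.hF e.hH)
      have t2 : MemLp (e.s * tt2 D₁ D₂ e.F e.H : M →ₘ[m] ℝ) 2 m :=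
        mem_mul_top e.hs (hC.tt2_2 hD e.hF e.hH)
      have eF := hC.test_A e.hF
      have eH := hC.test_A e.hH
      have hK : C.KK (b + c) e.F e.H = C.KK b e.F e.H + C.KK c e.F e.H := by
        have bW := (hC.test_A hb).1
        have cW := (hC.test_A hc).1
        unfold Calc.KK Calc.hess
        rw [hC.add_left _ bW _ cW _ eH.1, hC.add_left _ bW _ cW _ eF.1,
          hC.add_left _ bW _ cW _ (hC.Γ_mem hB e.hF e.hH).1,
          hC.Γ_add_right eF.1 (hC.Γ_mem hB hb e.hH).1 (hC.Γ_mem hB hc e.hH).1,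
          hC.Γ_add_right eH.1 (hC.Γ_mem hB hb e.hF).1 (hC.Γ_mem hB hc e.hF).1,
          hC.lap_add hB hb hc]
        algebra
      have r1 := hrep _ hbc e
      have r2 := hrep _ hb e
      have r3 := hrep _ hc e
      rw [hK, mul_add, I_add (mem_mul_22 e.hs2 (hC.KK_mem2 hB e.hF e.hH hb))
        (mem_mul_22 e.hs2 (hC.KK_mem2 hB e.hF e.hH hc))] at r1
      have e1 : (e.s * tt1 D₁ D₂ e.F e.H) * x = p (b + c) * (e.s * tt1 D₁ D₂ e.F e.H)
          - (p b * (e.s * tt1 D₁ D₂ e.F e.H) + p c * (e.s * tt1 D₁ D₂ e.F e.H)) := by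
        rw [hx]; ring
      have e2 : (e.s * tt2 D₁ D₂ e.F e.H) * y = q (b + c) * (e.s * tt2 D₁ D₂ e.F e.H)
          - (q b * (e.s * tt2 D₁ D₂ e.F e.H) + q c * (e.s * tt2 D₁ D₂ e.F e.H)) := by
        rw [hy]; ring
      rw [e1, e2, I_sub (mem_mul_22 (hp _ hbc) t1) (mem_add (mem_mul_22 (hp _ hb) t1)
        (mem_mul_22 (hp _ hc) t1)), I_add (mem_mul_22 (hp _ hb) t1) (mem_mul_22 (hp _ hc) t1),
        I_sub (mem_mul_22 (hq _ hbc) t2) (mem_add (mem_mul_22 (hq _ hb) t2)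
        (mem_mul_22 (hq _ hc) t2)), I_add (mem_mul_22 (hq _ hb) t2) (mem_mul_22 (hq _ hc) t2)]
      linarith only [r1, r2, r3]
    have o1 := (hin _ hbc).orth hC hD (hp _ hbc) (hq _ hbc) mx my H
    have o2 := (hin _ hb).orth hC hD (hp _ hb) (hq _ hb) mx my H
    have o3 := (hin _ hc).orth hC hD (hp _ hc) (hq _ hc) mx my H
    refine hzero x y mx my ?_
    have e1 : x * x = p (b + c) * x - (p b * x + p c * x) := by rw [hx]; ring
    have e2 : y * y = q (b + c) * y - (q b * y + q c * y) := by rw [hy]; ring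
    rw [e1, e2, I_sub (mem_mul_22 (hp _ hbc) mx) (mem_add (mem_mul_22 (hp _ hb) mx)
      (mem_mul_22 (hp _ hc) mx)), I_add (mem_mul_22 (hp _ hb) mx) (mem_mul_22 (hp _ hc) mx),
      I_sub (mem_mul_22 (hq _ hbc) my) (mem_add (mem_mul_22 (hq _ hb) my)
      (mem_mul_22 (hq _ hc) my)), I_add (mem_mul_22 (hq _ hb) my) (mem_mul_22 (hq _ hc) my)]
    linarith
  have hsmul : ∀ t : ℝ, ∀ b ∈ C.Test, p (t • b) - t • p b = 0 ∧ q (t • b) - t • q b = 0 := by
    intro t b hb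
    have hbc := hC.test_smul hB t hb
    set x := p (t • b) - t • p b with hx
    set y := q (t • b) - t • q b with hy
    have mx : MemLp x 2 m := mem_sub (hp _ hbc) (mem_smul _ (hp _ hb))
    have my : MemLp y 2 m := mem_sub (hq _ hbc) (mem_smul _ (hq _ hb))
    have H : ∀ e : Elt2 C, I ((e.s * tt1 D₁ D₂ e.F e.H) * x)
        + I ((e.s * tt2 D₁ D₂ e.F e.H) * y) = 0 := by
      intro e
      have t1 : MemLp (e.s * tt1 D₁ D₂ e.F e.H : M →ₘ[m] ℝ) 2 m :=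
        mem_mul_top e.hs (hC.tt1_2 hD e.hF e.hH)
      have t2 : MemLp (e.s * tt2 D₁ D₂ e.F e.H : M →ₘ[m] ℝ) 2 m :=
        mem_mul_top e.hs (hC.tt2_2 hD e.hF e.hH)
      have eF := hC.test_A e.hF
      have eH := hC.test_A e.hH
      have hK : C.KK (t • b) e.F e.H = t • C.KK b e.F e.H := by
        have bW := (hC.test_A hb).1
        unfold Calc.KK Calc.hess
        rw [hC.smul_left _ _ bW _ eH.1, hC.smul_left _ _ bW _ eF.1,
          hC.smul_left _ _ bW _ (hC.Γ_mem hB e.hF e.hH).1,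
          hC.Γ_smul_right _ eF.1 (hC.Γ_mem hB hb e.hH).1,
          hC.Γ_smul_right _ eH.1 (hC.Γ_mem hB hb e.hF).1,
          hC.lap_smul hB t hb]
        algebra
      have r1 := hrep _ hbc e
      have r2 := hrep _ hb e
      rw [hK, mul_smul_comm, I_smul] at r1
      have e1 : (e.s * tt1 D₁ D₂ e.F e.H) * x = p (t • b) * (e.s * tt1 D₁ D₂ e.F e.H)
          - t • (p b * (e.s * tt1 D₁ D₂ e.F e.H)) := by
        rw [hx]; algebra
      have e2 : (e.s * tt2 D₁ D₂ e.F e.H) * y = q (t • b) * (e.s * tt2 D₁ D₂ e.F e.H)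
          - t • (q b * (e.s * tt2 D₁ D₂ e.F e.H)) := by
        rw [hy]; algebra
      rw [e1, e2, I_sub (mem_mul_22 (hp _ hbc) t1) (mem_smul _ (mem_mul_22 (hp _ hb) t1)),
        I_sub (mem_mul_22 (hq _ hbc) t2) (mem_smul _ (mem_mul_22 (hq _ hb) t2)), I_smul, I_smul]
      linear_combination t / 2 * r2 - r1 / 2
    have o1 := (hin _ hbc).orth hC hD (hp _ hbc) (hq _ hbc) mx my H
    have o2 := (hin _ hb).orth hC hD (hp _ hb) (hq _ hb) mx my H
    refine hzero x y mx my ?_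
    have e1 : x * x = p (t • b) * x - t • (p b * x) := by rw [hx]; algebra
    have e2 : y * y = q (t • b) * y - t • (q b * y) := by rw [hy]; algebra
    rw [e1, e2, I_sub (mem_mul_22 (hp _ hbc) mx) (mem_smul _ (mem_mul_22 (hp _ hb) mx)),
      I_sub (mem_mul_22 (hq _ hbc) my) (mem_smul _ (mem_mul_22 (hq _ hb) my)), I_smul, I_smul]
    linear_combination o1 - t * o2
  refine ⟨p, q, hp, hq, fun b hb c hc => sub_eq_zero.1 (hadd b hb c hc).1,
    fun b hb c hc => sub_eq_zero.1 (hadd b hb c hc).2, fun t b hb => sub_eq_zero.1 (hsmul t b hb).1,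
    fun t b hb => sub_eq_zero.1 (hsmul t b hb).2, hKK, ?_, ?_⟩
  · -- the lower bound of `NN`
    intro b hb φ hφ hφ0
    obtain ⟨K, hK⟩ := mem_top_iff.1 hφ.2
    refine le_of_forall_pos_le_add fun ε hε => ?_
    obtain ⟨S, c, hS⟩ := hin b hb (ε / (2 * |K| + 1)) (by (clear * - hε; positivity))
    set S1 := SS1 D₁ D₂ S c with hS1
    set S2 := SS2 D₁ D₂ S c with hS2
    have hm1 : ∀ e : Elt2 C, MemLp (e.s * tt1 D₁ D₂ e.F e.H : M →ₘ[m] ℝ) 2 m := fun e =>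
      mem_mul_top e.hs (hC.tt1_2 hD e.hF e.hH)
    have hm2 : ∀ e : Elt2 C, MemLp (e.s * tt2 D₁ D₂ e.F e.H : M →ₘ[m] ℝ) 2 m := fun e =>
      mem_mul_top e.hs (hC.tt2_2 hD e.hF e.hH)
    have s1 : MemLp S1 2 m := by
      rw [hS1]; unfold SS1
      refine mem_fsum _ fun e _ => ?_
      rw [smul_mul_assoc]; exact mem_smul _ (hm1 e)
    have s2 : MemLp S2 2 m := by
      rw [hS2]; unfold SS2
      refine mem_fsum _ fun e _ => ?_
      rw [smul_mul_assoc]; exact mem_smul _ (hm2 e)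
    have key := hC.TI (κ := κ) hB hD S (fun e : Elt2 C =>
      ⟨(-c e) • e.s, e.F, e.H, mem_smul _ e.hs, e.hF, e.hH⟩) hb 1
      (fun e => by rw [one_mul]; exact mem_smul _ e.hs2) mem_top_one hφ hφ0
    have e1 : ∑ e ∈ S, ((-c e) • e.s) * tt1 D₁ D₂ e.F e.H = -S1 := by
      rw [hS1]; unfold SS1
      rw [← Finset.sum_neg_distrib]
      exact Finset.sum_congr rfl fun e _ => by rw [neg_smul, neg_mul]
    have e2 : ∑ e ∈ S, ((-c e) • e.s) * tt2 D₁ D₂ e.F e.H = -S2 := by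
      rw [hS2]; unfold SS2
      rw [← Finset.sum_neg_distrib]
      exact Finset.sum_congr rfl fun e _ => by rw [neg_smul, neg_mul]
    have n1 : MemLp (φ * (p b * S1)) 1 m := mem_mul_top hφ.2 (mem_mul_22 (hp b hb) s1)
    have n2 : MemLp (φ * (q b * S2)) 1 m := mem_mul_top hφ.2 (mem_mul_22 (hq b hb) s2)
    have e3 : ∑ e ∈ S, I (φ * (1 * (((-c e) • e.s) * C.KK b e.F e.H)))
        = -2 * (I (φ * (p b * S1)) + I (φ * (q b * S2))) := by
      have e4 : ∀ e : Elt2 C, φ * (1 * (((-c e) • e.s) * C.KK b e.F e.H))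
          = (-2 : ℝ) • (φ * (p b * ((c e • e.s) * tt1 D₁ D₂ e.F e.H))
            + φ * (q b * ((c e • e.s) * tt2 D₁ D₂ e.F e.H))) := by
        intro e
        rw [hKK b hb e.F e.hF e.H e.hH]
        algebra
      have e5 : φ * (p b * S1) = ∑ e ∈ S, φ * (p b * ((c e • e.s) * tt1 D₁ D₂ e.F e.H)) := by
        rw [hS1]; unfold SS1; rw [Finset.mul_sum, Finset.mul_sum]
      have e6 : φ * (q b * S2) = ∑ e ∈ S, φ * (q b * ((c e • e.s) * tt2 D₁ D₂ e.F e.H)) := by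
        rw [hS2]; unfold SS2; rw [Finset.mul_sum, Finset.mul_sum]
      have j1 : ∀ e : Elt2 C, MemLp (φ * (p b * ((c e • e.s) * tt1 D₁ D₂ e.F e.H)) : M →ₘ[m] ℝ) 1 m :=
        fun e => mem_mul_top hφ.2 (mem_mul_22 (hp b hb)
          (by rw [smul_mul_assoc]; exact mem_smul _ (hm1 e)))
      have j2 : ∀ e : Elt2 C, MemLp (φ * (q b * ((c e • e.s) * tt2 D₁ D₂ e.F e.H)) : M →ₘ[m] ℝ) 1 m :=
        fun e => mem_mul_top hφ.2 (mem_mul_22 (hq b hb)
          (by rw [smul_mul_assoc]; exact mem_smul _ (hm2 e)))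
      rw [e5, e6, (I_fsum S fun e _ => j1 e).1, (I_fsum S fun e _ => j2 e).1,
        ← Finset.sum_add_distrib, Finset.mul_sum]
      refine Finset.sum_congr rfl fun e _ => ?_
      rw [e4, I_smul, I_add (j1 e) (j2 e)]
    simp only at key
    rw [e3, e1, e2] at key
    have e7 : φ * (1 ^ 2 * ((-S1) ^ 2 + (-S2) ^ 2))
        = (φ * ((p b - S1) ^ 2 + (q b - S2) ^ 2) - φ * (p b ^ 2 + q b ^ 2))
          + (2 : ℝ) • (φ * (p b * S1) + φ * (q b * S2)) := by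
      algebra
    have n3 : MemLp ((p b - S1) ^ 2 + (q b - S2) ^ 2 : M →ₘ[m] ℝ) 1 m :=
      mem_add (mem_sq (mem_sub (hp b hb) s1)) (mem_sq (mem_sub (hq b hb) s2))
    have n4 : MemLp (p b ^ 2 + q b ^ 2 : M →ₘ[m] ℝ) 1 m :=
      mem_add (mem_sq (hp b hb)) (mem_sq (hq b hb))
    rw [e7, I_add (mem_sub (mem_mul_top hφ.2 n3) (mem_mul_top hφ.2 n4))
      (mem_smul _ (mem_add n1 n2)), I_sub (mem_mul_top hφ.2 n3) (mem_mul_top hφ.2 n4), I_smul,
      I_add n1 n2] at key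
    have b1 : I (φ * ((p b - S1) ^ 2 + (q b - S2) ^ 2)) ≤ |K| * (ε / (2 * |K| + 1)) := by
      have hle : φ * ((p b - S1) ^ 2 + (q b - S2) ^ 2) ≤ |K| • ((p b - S1) ^ 2 + (q b - S2) ^ 2) := by
        have hp0 : 0 ≤ (p b - S1) ^ 2 + (q b - S2) ^ 2 := add_nonneg (sq_nonneg' _) (sq_nonneg' _)
        rw [nonneg_iff_ae] at hp0
        rw [le_iff_ae]
        filter_upwards [hK, hp0, mul_ae φ ((p b - S1) ^ 2 + (q b - S2) ^ 2),
          smul_ae ((p b - S1) ^ 2 + (q b - S2) ^ 2) |K|] with x k1 k2 k3 k4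
        rw [k3, k4]
        exact mul_le_mul_of_nonneg_right ((le_abs_self _).trans (k1.trans (le_abs_self _))) k2
      refine (I_mono (mem_mul_top hφ.2 n3) (mem_smul _ n3) hle).trans ?_
      rw [I_smul]
      refine mul_le_mul_of_nonneg_left ?_ (abs_nonneg _)
      rw [I_add (mem_sq (mem_sub (hp b hb) s1)) (mem_sq (mem_sub (hq b hb) s2))]
      exact hS.le
    have b2 : 2 * (|K| * (ε / (2 * |K| + 1))) ≤ ε := by
      have : 2 * (|K| * (ε / (2 * |K| + 1))) = (2 * |K|) * ε / (2 * |K| + 1) := by ring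
      rw [this, div_le_iff₀ (by (clear * -; positivity))]
      nlinarith only [hε]
    linarith only [key, b1, b2]
  · -- the span property
    intro b hb g hg Z₁ Z₂ hZ1 hZ2 hZ
    have d1 := hC.D1_T hD hg
    have d2 := hC.D2_T hD hg
    set U₁ := Z₁ * D₁ g - Z₂ * D₂ g with hU1
    set U₂ := Z₁ * D₂ g + Z₂ * D₁ g with hU2
    have u1 : MemLp U₁ 2 m := mem_sub (mem_top_mul hZ1 d1) (mem_top_mul hZ2 d2)
    have u2 : MemLp U₂ 2 m := mem_add (mem_top_mul hZ1 d2) (mem_top_mul hZ2 d1)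
    have e0 : Z₁ * (p b * D₁ g + q b * D₂ g) + Z₂ * (q b * D₁ g - p b * D₂ g)
        = p b * U₁ + q b * U₂ := by rw [hU1, hU2]; ring
    rw [e0]
    have j1 := mem_mul_22 (hp b hb) u1
    have j2 := mem_mul_22 (hq b hb) u2
    refine hC.eq_zero_of_forall_test hB (mem_add j1 j2) fun w hw => ?_
    have wA := hC.test_A hw
    have wu1 : MemLp (w * U₁ : M →ₘ[m] ℝ) 2 m := mem_mul_top wA.2 u1
    have wu2 : MemLp (w * U₂ : M →ₘ[m] ℝ) 2 m := mem_mul_top wA.2 u2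
    have key := (hin b hb).orth hC hD (hp b hb) (hq b hb) wu1 wu2 (by
      intro e
      have a1 := hZ g hg
      have a2 := hZ e.F e.hF
      have a3 := hZ e.H e.hH
      have t1 : MemLp (e.s * tt1 D₁ D₂ e.F e.H : M →ₘ[m] ℝ) 2 m :=
        mem_mul_top e.hs (hC.tt1_2 hD e.hF e.hH)
      have t2 : MemLp (e.s * tt2 D₁ D₂ e.F e.H : M →ₘ[m] ℝ) 2 m :=
        mem_mul_top e.hs (hC.tt2_2 hD e.hF e.hH)
      rw [← I_add (mem_mul_22 t1 wu1) (mem_mul_22 t2 wu2)]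
      have a4 : e.s * tt1 D₁ D₂ e.F e.H * (w * U₁) + e.s * tt2 D₁ D₂ e.F e.H * (w * U₂) = 0 := by
        rw [hU1, hU2]
        unfold tt1 tt2
        linear_combination e.s * w * (D₁ e.H * D₁ g + D₂ e.H * D₂ g) * a2
          + e.s * w * (D₁ e.F * D₁ g + D₂ e.F * D₂ g) * a3
          - e.s * w * (D₁ e.F * D₁ e.H + D₂ e.F * D₂ e.H) * a1
      rw [a4, I_zero])
    have e1 : w * (p b * U₁ + q b * U₂) = p b * (w * U₁) + q b * (w * U₂) := by ring
    rw [e1, I_add (mem_mul_22 (hp b hb) wu1) (mem_mul_22 (hq b hb) wu2)]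
    exact key

end Vale.Agent.P233
end
end

section

section

open MeasureTheory Filter Topology
open scoped ENNReal NNReal

namespace Vale.Agent.P233

variable {M : Type*} [MeasurableSpace M] {m : Measure M} {C : Calc m}

/-- the standing data of this file -/
structure Setup (C : Calc m) (κ : ℝ) (D₁ D₂ p q : (M →ₘ[m] ℝ) → (M →ₘ[m] ℝ)) : Prop where
  hC : IsGamma C
  hB : C.BE κ 2
  hD : IsFrame C D₁ D₂
  hH : IsHess C κ D₁ D₂ p q
  sf : SigmaFinite m

/-- the entries of the Hessian -/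
noncomputable def Calc.H11 (C : Calc m) (p : (M →ₘ[m] ℝ) → (M →ₘ[m] ℝ)) (b : M →ₘ[m] ℝ) :
    M →ₘ[m] ℝ := (2 : ℝ)⁻¹ • C.lap b + p b
noncomputable def Calc.H22 (C : Calc m) (p : (M →ₘ[m] ℝ) → (M →ₘ[m] ℝ)) (b : M →ₘ[m] ℝ) :
    M →ₘ[m] ℝ := (2 : ℝ)⁻¹ • C.lap b - p b

namespace Setup

variable {κ : ℝ} {D₁ D₂ p q : (M →ₘ[m] ℝ) → (M →ₘ[m] ℝ)} (S : Setup C κ D₁ D₂ p q)
variable {a b c d f g h k φ ψ : M →ₘ[m] ℝ}
include S

/-! ### membership facts -/

theorem tW (hb : b ∈ C.Test) : b ∈ C.W := (S.hC.test_A hb).1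
theorem tA (hb : b ∈ C.Test) : b ∈ C.A := S.hC.test_A hb
theorem tT (hb : b ∈ C.Test) : MemLp b ∞ m := (S.hC.test_A hb).2
theorem lap2 (hb : b ∈ C.Test) : MemLp (C.lap b) 2 m := S.hC.memLp _ (S.hC.test_lap_mem hb)
theorem D1T (hb : b ∈ C.Test) : MemLp (D₁ b) ∞ m :=
  S.hD.memTop₁ S.hC (S.tW hb) (S.hC.test_Γ_top hb)
theorem D2T (hb : b ∈ C.Test) : MemLp (D₂ b) ∞ m :=
  S.hD.memTop₂ S.hC (S.tW hb) (S.hC.test_Γ_top hb)
theorem D12 (hb : b ∈ C.W) : MemLp (D₁ b) 2 m := S.hD.mem2₁ S.hC hb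
theorem D22 (hb : b ∈ C.W) : MemLp (D₂ b) 2 m := S.hD.mem2₂ S.hC hb
theorem H11_2 (hb : b ∈ C.Test) : MemLp (C.H11 p b) 2 m :=
  mem_add (mem_smul _ (S.lap2 hb)) (S.hH.mem_p b hb)
theorem H22_2 (hb : b ∈ C.Test) : MemLp (C.H22 p b) 2 m :=
  mem_sub (mem_smul _ (S.lap2 hb)) (S.hH.mem_p b hb)
theorem H12_2 (hb : b ∈ C.Test) : MemLp (q b) 2 m := S.hH.mem_q b hb

/-! ### the Hessian in the frame -/

theorem hess_eq (hb : b ∈ C.Test) (hf : f ∈ C.Test) (hh : h ∈ C.Test) :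
    C.hess b f h = C.H11 p b * (D₁ f * D₁ h) + q b * (D₁ f * D₂ h + D₂ f * D₁ h)
      + C.H22 p b * (D₂ f * D₂ h) := by
  have h1 := S.hH.KK_eq b hb f hf h hh
  have h2 := S.hD.Γ_eq f (S.tW hf) h (S.tW hh)
  unfold Calc.KK at h1
  unfold Calc.H11 Calc.H22
  have h3 : C.hess b f h = (2 : ℝ)⁻¹ • ((2 : ℝ) • C.hess b f h - C.Γ f h * C.lap b)
      + (2 : ℝ)⁻¹ • (C.Γ f h * C.lap b) := by algebra
  rw [h3, h1, h2]
  algebra

/-! ### density -/

theorem dens3 (h0 : MemLp h 2 m) (h1 : MemLp f 2 m) (h2 : MemLp g 2 m)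
    (H : ∀ φ ∈ C.Test, I (φ * h + D₁ φ * f + D₂ φ * g) = 0) (hφ : φ ∈ C.W) :
    I (φ * h + D₁ φ * f + D₂ φ * g) = 0 := by
  have hsf := S.sf
  set A := I (h ^ 2) + I (f ^ 2) + I (g ^ 2) with hA
  have hA0 : 0 ≤ I (h ^ 2) := I_nonneg (sq_nonneg' _)
  have hA1 : 0 ≤ I (f ^ 2) := I_nonneg (sq_nonneg' _)
  have hA2 : 0 ≤ I (g ^ 2) := I_nonneg (sq_nonneg' _)
  -- the key estimate
  have key : ∀ ε > 0, I (φ * h + D₁ φ * f + D₂ φ * g) ^ 2 ≤ 3 * A * ε := by
    intro ε hε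
    obtain ⟨u, hu, hu2⟩ := S.hC.test_dense S.hB hφ hε
    have huW := S.tW hu
    have hd : u - φ ∈ C.W := S.hC.sub_mem huW hφ
    have hneg : u - φ = u + (-1 : ℝ) • φ := by algebra
    have e1 : D₁ (u - φ) = D₁ u - D₁ φ := by
      rw [hneg, S.hD.add₁ _ huW _ (S.hC.smul_mem _ _ hφ), S.hD.smul₁ _ _ hφ]; algebra
    have e2 : D₂ (u - φ) = D₂ u - D₂ φ := by
      rw [hneg, S.hD.add₂ _ huW _ (S.hC.smul_mem _ _ hφ), S.hD.smul₂ _ _ hφ]; algebra
    have m1 := mem_mul_22 (S.D12 hφ) h1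
    have m2 := mem_mul_22 (S.D22 hφ) h2
    have m3 := mem_mul_22 (S.D12 huW) h1
    have m4 := mem_mul_22 (S.D22 huW) h2
    have m5 := mem_mul_22 (S.D12 hd) h1
    have m6 := mem_mul_22 (S.D22 hd) h2
    have m7 := mem_mul_22 (S.hC.memLp _ hφ) h0
    have m8 := mem_mul_22 (S.hC.memLp _ huW) h0
    have h3 : I (φ * h + D₁ φ * f + D₂ φ * g)
        = -(I ((u - φ) * h) + I (D₁ (u - φ) * f) + I (D₂ (u - φ) * g)) := by
      have h4 := H u hu
      rw [I_add (mem_add m8 m3) m4, I_add m8 m3] at h4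
      rw [I_add (mem_add m7 m1) m2, I_add m7 m1, e1, e2, sub_mul, sub_mul, sub_mul, I_sub m3 m1,
        I_sub m4 m2, I_sub m8 m7]
      linarith only [h4]
    have c0 := I_cs (S.hC.memLp _ hd) h0
    have c1 := I_cs (S.D12 hd) h1
    have c2 := I_cs (S.D22 hd) h2
    have c3 : I ((u - φ) ^ 2) + I (D₁ (u - φ) ^ 2) + I (D₂ (u - φ) ^ 2) ≤ ε := by
      have : I (C.Γ (u - φ) (u - φ)) = I (D₁ (u - φ) ^ 2) + I (D₂ (u - φ) ^ 2) := by
        rw [S.hD.Γ_eq _ hd _ hd, ← sq, ← sq, I_add (mem_sq (S.D12 hd)) (mem_sq (S.D22 hd))]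
      unfold Calc.nrm2 at hu2
      linarith only [hu2, this]
    have c6 : 0 ≤ I ((u - φ) ^ 2) := I_nonneg (sq_nonneg' _)
    have c4 : 0 ≤ I (D₁ (u - φ) ^ 2) := I_nonneg (sq_nonneg' _)
    have c5 : 0 ≤ I (D₂ (u - φ) ^ 2) := I_nonneg (sq_nonneg' _)
    rw [h3]
    set x := I ((u - φ) * h)
    set y := I (D₁ (u - φ) * f)
    set z := I (D₂ (u - φ) * g)
    set X := I ((u - φ) ^ 2)
    set Y := I (D₁ (u - φ) ^ 2)
    set Z := I (D₂ (u - φ) ^ 2)
    have c7 : (-(x + y + z)) ^ 2 ≤ 3 * (x ^ 2 + y ^ 2 + z ^ 2) := by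
      nlinarith only [sq_nonneg (y - z), sq_nonneg (x - z)]
    have c8 : x ^ 2 + y ^ 2 + z ^ 2 ≤ (X + Y + Z) * A := by
      nlinarith only [c0, c1, c2, c6, hA1, hA2, c4, hA0, c5]
    have hA3 : 0 ≤ A := by (clear * - hA0 hA1 hA2; positivity)
    nlinarith only [c7, c8, c3, hA3]
  by_contra hne
  have hpos : 0 < I (φ * h + D₁ φ * f + D₂ φ * g) ^ 2 := by (clear * - hne; positivity)
  have hA3 : 0 ≤ A := by (clear * - hA0 hA1 hA2; positivity)
  have := key (I (φ * h + D₁ φ * f + D₂ φ * g) ^ 2 / (6 * A + 6)) (by (clear * - hne hA0 hA1 hA2; positivity))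
  have h5 : 3 * A * (I (φ * h + D₁ φ * f + D₂ φ * g) ^ 2 / (6 * A + 6))
      < I (φ * h + D₁ φ * f + D₂ φ * g) ^ 2 := by
    rw [← mul_div_assoc, div_lt_iff₀ (by (clear * - hA0 hA1 hA2; positivity))]
    nlinarith only [hpos, hA0, hA1, hA2]
  linarith

theorem dens (h1 : MemLp f 2 m) (h2 : MemLp g 2 m)
    (H : ∀ φ ∈ C.Test, I (D₁ φ * f + D₂ φ * g) = 0) (hφ : φ ∈ C.W) :
    I (D₁ φ * f + D₂ φ * g) = 0 := by
  have := S.dens3 (h := 0) mem_zero h1 h2 (fun ψ hψ => by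
    rw [mul_zero, zero_add]; exact H ψ hψ) hφ
  rwa [mul_zero, zero_add] at this

theorem dens_pt (h1 : MemLp f 2 m) (h2 : MemLp g 2 m)
    (H : ∀ φ ∈ C.Test, D₁ φ * f + D₂ φ * g = 0) (hφ : φ ∈ C.W) :
    D₁ φ * f + D₂ φ * g = 0 := by
  have hsf := S.sf
  apply S.hC.toIsDir.eq_zero_of_forall
    (mem_add (mem_mul_22 (S.D12 hφ) h1) (mem_mul_22 (S.D22 hφ) h2))
  intro s hs
  have := S.dens (f := s * f) (g := s * g) (mem_mul_top hs.2 h1) (mem_mul_top hs.2 h2)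
    (fun ψ hψ => by
      have : D₁ ψ * (s * f) + D₂ ψ * (s * g) = s * (D₁ ψ * f + D₂ ψ * g) := by ring
      rw [this, H ψ hψ, mul_zero, I_zero]) hφ
  rw [← this]
  congr 1
  ring

theorem ibp (hb : b ∈ C.Test) (hk : k ∈ C.W) : I (C.Γ b k) = - I (C.lap b * k) :=
  (S.hC.test_isLap hb).2.2 k hk

theorem ibp' (hb : b ∈ C.Test) (hψ : ψ ∈ C.A) (hk : k ∈ C.A) :
    I (ψ * C.Γ b k + k * C.Γ b ψ + ψ * k * C.lap b) = 0 := by
  have h1 := S.ibp hb (S.hC.mul_mem_A hψ hk).1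
  rw [S.hC.Γ_mul_right hψ hk (S.tW hb)] at h1
  have m1 : MemLp (ψ * C.Γ b k + k * C.Γ b ψ : M →ₘ[m] ℝ) 1 m :=
    mem_add (mem_mul_top hψ.2 (S.hC.Γ_mem1 (S.tW hb) hk.1))
      (mem_mul_top hk.2 (S.hC.Γ_mem1 (S.tW hb) hψ.1))
  have m2 : MemLp (ψ * k * C.lap b : M →ₘ[m] ℝ) 1 m :=
    mem_mul_22 (mem_mul_top hψ.2 (S.hC.memLp _ hk.1)) (S.lap2 hb)
  rw [I_add m1 m2, h1]
  have : C.lap b * (ψ * k) = ψ * k * C.lap b := by ring
  rw [this]; ring

theorem ibp3 (hb : b ∈ C.Test) (hψ : ψ ∈ C.A) (hk : k ∈ C.W) :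
    I (ψ * C.Γ b k + k * C.Γ b ψ + ψ * k * C.lap b) = 0 := by
  have key := S.dens3 (h := C.Γ b ψ + ψ * C.lap b) (f := ψ * D₁ b) (g := ψ * D₂ b) (φ := k)
    (mem_add (S.hC.Γ_mem2 (S.tW hb) (S.hC.test_Γ_top hb) hψ.1) (mem_mul_top hψ.2 (S.lap2 hb)))
    (mem_mul_top hψ.2 (S.D12 (S.tW hb))) (mem_mul_top hψ.2 (S.D22 (S.tW hb)))
    (fun u hu => by
      rw [← S.ibp' hb hψ (S.tA hu), S.hD.Γ_eq b (S.tW hb) u (S.tW hu)]
      congr 1; ring) hk
  rw [← key, S.hD.Γ_eq b (S.tW hb) k hk]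
  congr 1; ring

theorem hess_sub (hb : b ∈ C.Test) (hd : d ∈ C.Test) (hψ : ψ ∈ C.Test) :
    C.hess b ψ d - C.hess d ψ b = C.Γ d (C.Γ b ψ) - C.Γ b (C.Γ d ψ) := by
  unfold Calc.hess
  rw [S.hC.symm _ (S.tW hd) _ (S.tW hb), S.hC.symm _ (S.tW hψ) _ (S.tW hd),
    S.hC.symm _ (S.tW hψ) _ (S.tW hb)]
  algebra

theorem I1c (hb : b ∈ C.Test) (hd : d ∈ C.Test) (hψ : ψ ∈ C.W) :
    I (D₁ ψ * ((C.H11 p b * D₁ d + q b * D₂ d) - (C.H11 p d * D₁ b + q d * D₂ b)
          + D₁ b * C.lap d - D₁ d * C.lap b)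
      + D₂ ψ * ((q b * D₁ d + C.H22 p b * D₂ d) - (q d * D₁ b + C.H22 p d * D₂ b)
          + D₂ b * C.lap d - D₂ d * C.lap b)) = 0 := by
  have t1 := S.D1T hb
  have t2 := S.D2T hb
  have t3 := S.D1T hd
  have t4 := S.D2T hd
  refine S.dens ?_ ?_ ?_ hψ
  · exact mem_sub (mem_add (mem_sub (mem_add (mem_top_mul (S.H11_2 hb) t3)
      (mem_top_mul (S.H12_2 hb) t4)) (mem_add (mem_top_mul (S.H11_2 hd) t1)
      (mem_top_mul (S.H12_2 hd) t2))) (mem_mul_top t1 (S.lap2 hd))) (mem_mul_top t3 (S.lap2 hb))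
  · exact mem_sub (mem_add (mem_sub (mem_add (mem_top_mul (S.H12_2 hb) t3)
      (mem_top_mul (S.H22_2 hb) t4)) (mem_add (mem_top_mul (S.H12_2 hd) t1)
      (mem_top_mul (S.H22_2 hd) t2))) (mem_mul_top t2 (S.lap2 hd))) (mem_mul_top t4 (S.lap2 hb))
  intro u hu
  have e := S.hess_sub hb hd hu
  have g1 : C.Γ b u ∈ C.W := (S.hC.Γ_mem S.hB hb hu).1
  have g2 : C.Γ d u ∈ C.W := (S.hC.Γ_mem S.hB hd hu).1
  have i1 := S.ibp hd g1
  have i2 := S.ibp hb g2
  have e2 : D₁ u * ((C.H11 p b * D₁ d + q b * D₂ d) - (C.H11 p d * D₁ b + q d * D₂ b)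
          + D₁ b * C.lap d - D₁ d * C.lap b)
      + D₂ u * ((q b * D₁ d + C.H22 p b * D₂ d) - (q d * D₁ b + C.H22 p d * D₂ b)
          + D₂ b * C.lap d - D₂ d * C.lap b)
      = (C.Γ d (C.Γ b u) - C.Γ b (C.Γ d u)) + (C.lap d * C.Γ b u - C.lap b * C.Γ d u) := by
    rw [← e, S.hess_eq hb hu hd, S.hess_eq hd hu hb, S.hD.Γ_eq b (S.tW hb) u (S.tW hu),
      S.hD.Γ_eq d (S.tW hd) u (S.tW hu)]
    ring
  rw [e2, I_add (mem_sub (S.hC.Γ_mem1 (S.tW hd) g1) (S.hC.Γ_mem1 (S.tW hb) g2))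
    (mem_sub (mem_mul_22 (S.lap2 hd) (S.hC.memLp _ g1)) (mem_mul_22 (S.lap2 hb) (S.hC.memLp _ g2))),
    I_sub (S.hC.Γ_mem1 (S.tW hd) g1) (S.hC.Γ_mem1 (S.tW hb) g2),
    I_sub (mem_mul_22 (S.lap2 hd) (S.hC.memLp _ g1)) (mem_mul_22 (S.lap2 hb) (S.hC.memLp _ g2)),
    i1, i2]
  ring

theorem I1s (hb : b ∈ C.Test) (hd : d ∈ C.Test) (hψ : ψ ∈ C.A) (hc : c ∈ C.W) :
    I (D₁ c * (C.Γ d ψ * D₁ b + ψ * ((C.H11 p b * D₁ d + q b * D₂ d)
          - (C.H11 p d * D₁ b + q d * D₂ b)) + ψ * C.lap d * D₁ b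
          - D₁ d * (C.Γ b ψ + ψ * C.lap b))
      + D₂ c * (C.Γ d ψ * D₂ b + ψ * ((q b * D₁ d + C.H22 p b * D₂ d)
          - (q d * D₁ b + C.H22 p d * D₂ b)) + ψ * C.lap d * D₂ b
          - D₂ d * (C.Γ b ψ + ψ * C.lap b))) = 0 := by
  have t1 := S.D1T hb
  have t2 := S.D2T hb
  have t3 := S.D1T hd
  have t4 := S.D2T hd
  have g5 : MemLp (C.Γ d ψ) 2 m := S.hC.Γ_mem2 (S.tW hd) (S.hC.test_Γ_top hd) hψ.1
  have g6 : MemLp (C.Γ b ψ) 2 m := S.hC.Γ_mem2 (S.tW hb) (S.hC.test_Γ_top hb) hψ.1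
  refine S.dens ?_ ?_ ?_ hc
  · exact mem_sub (mem_add (mem_add (mem_top_mul g5 t1) (mem_mul_top hψ.2
      (mem_sub (mem_add (mem_top_mul (S.H11_2 hb) t3)
      (mem_top_mul (S.H12_2 hb) t4)) (mem_add (mem_top_mul (S.H11_2 hd) t1)
      (mem_top_mul (S.H12_2 hd) t2))))) (mem_top_mul (mem_mul_top hψ.2 (S.lap2 hd)) t1))
      (mem_mul_top t3 (mem_add g6 (mem_mul_top hψ.2 (S.lap2 hb))))
  · exact mem_sub (mem_add (mem_add (mem_top_mul g5 t2) (mem_mul_top hψ.2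
      (mem_sub (mem_add (mem_top_mul (S.H12_2 hb) t3)
      (mem_top_mul (S.H22_2 hb) t4)) (mem_add (mem_top_mul (S.H12_2 hd) t1)
      (mem_top_mul (S.H22_2 hd) t2))))) (mem_top_mul (mem_mul_top hψ.2 (S.lap2 hd)) t2))
      (mem_mul_top t4 (mem_add g6 (mem_mul_top hψ.2 (S.lap2 hb))))
  intro u hu
  have e := S.hess_sub hb hd hu
  have g1 : C.Γ b u ∈ C.A := S.hC.Γ_mem S.hB hb hu
  have g2 : C.Γ d u ∈ C.A := S.hC.Γ_mem S.hB hd hu
  have i1 := S.ibp' hd hψ g1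
  have i2 := S.ibp' hb hψ g2
  have m1 : MemLp (ψ * C.Γ d (C.Γ b u) + C.Γ b u * C.Γ d ψ + ψ * C.Γ b u * C.lap d :
      M →ₘ[m] ℝ) 1 m :=
    mem_add (mem_add (mem_mul_top hψ.2 (S.hC.Γ_mem1 (S.tW hd) g1.1))
      (mem_mul_top g1.2 (S.hC.Γ_mem1 (S.tW hd) hψ.1)))
      (mem_mul_22 (mem_mul_top hψ.2 (S.hC.memLp _ g1.1)) (S.lap2 hd))
  have m2 : MemLp (ψ * C.Γ b (C.Γ d u) + C.Γ d u * C.Γ b ψ + ψ * C.Γ d u * C.lap b :
      M →ₘ[m] ℝ) 1 m :=
    mem_add (mem_add (mem_mul_top hψ.2 (S.hC.Γ_mem1 (S.tW hb) g2.1))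
      (mem_mul_top g2.2 (S.hC.Γ_mem1 (S.tW hb) hψ.1)))
      (mem_mul_22 (mem_mul_top hψ.2 (S.hC.memLp _ g2.1)) (S.lap2 hb))
  have e2 : D₁ u * (C.Γ d ψ * D₁ b + ψ * ((C.H11 p b * D₁ d + q b * D₂ d)
          - (C.H11 p d * D₁ b + q d * D₂ b)) + ψ * C.lap d * D₁ b
          - D₁ d * (C.Γ b ψ + ψ * C.lap b))
      + D₂ u * (C.Γ d ψ * D₂ b + ψ * ((q b * D₁ d + C.H22 p b * D₂ d)
          - (q d * D₁ b + C.H22 p d * D₂ b)) + ψ * C.lap d * D₂ b
          - D₂ d * (C.Γ b ψ + ψ * C.lap b))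
      = (ψ * C.Γ d (C.Γ b u) + C.Γ b u * C.Γ d ψ + ψ * C.Γ b u * C.lap d)
        - (ψ * C.Γ b (C.Γ d u) + C.Γ d u * C.Γ b ψ + ψ * C.Γ d u * C.lap b) := by
    have e3 : ψ * C.Γ d (C.Γ b u) = ψ * (C.hess b u d - C.hess d u b) + ψ * C.Γ b (C.Γ d u) := by
      rw [e]; ring
    rw [e3, S.hess_eq hb hu hd, S.hess_eq hd hu hb, S.hD.Γ_eq b (S.tW hb) u (S.tW hu),
      S.hD.Γ_eq d (S.tW hd) u (S.tW hu)]
    ring
  rw [e2, I_sub m1 m2, i1, i2, sub_zero]

/-! ### the gradient of `Γ b d` -/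

theorem DΓ_aux (hb : b ∈ C.Test) (hd : d ∈ C.Test) (hψ : ψ ∈ C.W) :
    D₁ ψ * (D₁ (C.Γ b d) - (C.H11 p b * D₁ d + q b * D₂ d + (C.H11 p d * D₁ b + q d * D₂ b)))
    + D₂ ψ * (D₂ (C.Γ b d) - (q b * D₁ d + C.H22 p b * D₂ d + (q d * D₁ b + C.H22 p d * D₂ b)))
      = 0 := by
  have t1 := S.D1T hb
  have t2 := S.D2T hb
  have t3 := S.D1T hd
  have t4 := S.D2T hd
  have g : C.Γ b d ∈ C.W := (S.hC.Γ_mem S.hB hb hd).1
  refine S.dens_pt ?_ ?_ ?_ hψ
  · exact mem_sub (S.D12 g) (mem_add (mem_add (mem_top_mul (S.H11_2 hb) t3)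
      (mem_top_mul (S.H12_2 hb) t4)) (mem_add (mem_top_mul (S.H11_2 hd) t1)
      (mem_top_mul (S.H12_2 hd) t2)))
  · exact mem_sub (S.D22 g) (mem_add (mem_add (mem_top_mul (S.H12_2 hb) t3)
      (mem_top_mul (S.H22_2 hb) t4)) (mem_add (mem_top_mul (S.H12_2 hd) t1)
      (mem_top_mul (S.H22_2 hd) t2)))
  intro u hu
  have e1 : C.Γ u (C.Γ b d) = C.hess b u d + C.hess d u b := by
    unfold Calc.hess
    rw [S.hC.symm _ (S.tW hd) _ (S.tW hb), S.hC.symm _ (S.tW hu) _ (S.tW hd),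
      S.hC.symm _ (S.tW hu) _ (S.tW hb)]
    algebra
  rw [S.hD.Γ_eq u (S.tW hu) _ g, S.hess_eq hb hu hd, S.hess_eq hd hu hb] at e1
  linear_combination e1

theorem DΓ (hb : b ∈ C.Test) (hd : d ∈ C.Test) :
    D₁ (C.Γ b d) = C.H11 p b * D₁ d + q b * D₂ d + (C.H11 p d * D₁ b + q d * D₂ b) ∧
    D₂ (C.Γ b d) = q b * D₁ d + C.H22 p b * D₂ d + (q d * D₁ b + C.H22 p d * D₂ b) := by
  have t1 := S.D1T hb
  have t2 := S.D2T hb
  have t3 := S.D1T hd
  have t4 := S.D2T hd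
  have g : C.Γ b d ∈ C.W := (S.hC.Γ_mem S.hB hb hd).1
  set Z₁ := D₁ (C.Γ b d) - (C.H11 p b * D₁ d + q b * D₂ d + (C.H11 p d * D₁ b + q d * D₂ b))
    with hZ1
  set Z₂ := D₂ (C.Γ b d) - (q b * D₁ d + C.H22 p b * D₂ d + (q d * D₁ b + C.H22 p d * D₂ b))
    with hZ2
  have hz : ∀ ψ ∈ C.W, D₁ ψ * Z₁ + D₂ ψ * Z₂ = 0 := fun ψ hψ => S.DΓ_aux hb hd hψ
  have m1 : MemLp Z₁ 2 m := mem_sub (S.D12 g) (mem_add (mem_add (mem_top_mul (S.H11_2 hb) t3)
      (mem_top_mul (S.H12_2 hb) t4)) (mem_add (mem_top_mul (S.H11_2 hd) t1)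
      (mem_top_mul (S.H12_2 hd) t2)))
  have m2 : MemLp Z₂ 2 m := mem_sub (S.D22 g) (mem_add (mem_add (mem_top_mul (S.H12_2 hb) t3)
      (mem_top_mul (S.H22_2 hb) t4)) (mem_add (mem_top_mul (S.H12_2 hd) t1)
      (mem_top_mul (S.H22_2 hd) t2)))
  have s1 := S.hH.span b hb d hd Z₁ Z₂ m1 m2 (fun h hh => by
    have := hz h (S.tW hh); rw [← this]; ring)
  have s2 := S.hH.span d hd b hb Z₁ Z₂ m1 m2 (fun h hh => by
    have := hz h (S.tW hh); rw [← this]; ring)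
  have s3 := hz _ g
  have s4 := hz _ (S.tW hb)
  have s5 := hz _ (S.tW hd)
  have key : Z₁ ^ 2 + Z₂ ^ 2 = 0 := by
    have e : Z₁ ^ 2 + Z₂ ^ 2 = (D₁ (C.Γ b d) * Z₁ + D₂ (C.Γ b d) * Z₂)
        - (Z₁ * (p b * D₁ d + q b * D₂ d) + Z₂ * (q b * D₁ d - p b * D₂ d))
        - (Z₁ * (p d * D₁ b + q d * D₂ b) + Z₂ * (q d * D₁ b - p d * D₂ b))
        - (2 : ℝ)⁻¹ • (C.lap b * (D₁ d * Z₁ + D₂ d * Z₂))
        - (2 : ℝ)⁻¹ • (C.lap d * (D₁ b * Z₁ + D₂ b * Z₂)) := by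
      simp only [hZ1, hZ2, Calc.H11, Calc.H22]
      algebra
    rw [e, s1, s2, s3, s4, s5]
    simp
  have key2 : Z₁ = 0 ∧ Z₂ = 0 := by
    rw [eq_iff_ae, eq_iff_ae]
    constructor <;>
    · filter_upwards [eq_iff_ae.1 key, add_ae (Z₁ ^ 2) (Z₂ ^ 2), sq_ae Z₁, sq_ae Z₂,
        zero_ae (M := M) (m := m)] with x h1 h2 h3 h4 h5
      rw [h2, h3, h4, h5] at h1
      rw [h5]
      nlinarith only [h1]
  exact ⟨sub_eq_zero.1 key2.1, sub_eq_zero.1 key2.2⟩

/-! ### the Ricci form in the frame -/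

/-- the corrected functional: `NN` plus the `κ` term minus the trace free Hessian term -/
noncomputable def _root_.Vale.Agent.P233.Calc.GG (C : Calc m) (κ : ℝ)
    (p q : (M →ₘ[m] ℝ) → (M →ₘ[m] ℝ)) (b d ψ : M →ₘ[m] ℝ) : ℝ :=
  C.NN κ b d ψ + κ * I (ψ * C.Γ b d) - 2 * I (ψ * (p b * p d + q b * q d))

theorem GG_eq (hb : b ∈ C.Test) (hd : d ∈ C.Test) (hψ : ψ ∈ C.A) :
    C.GG κ p q b d ψ = I (-(D₁ ψ * (C.H11 p d * D₁ b + q d * D₂ b)
        + D₂ ψ * (q d * D₁ b + C.H22 p d * D₂ b))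
      + C.lap d * (D₁ b * D₁ ψ + D₂ b * D₂ ψ + ψ * C.lap b)
      - ψ * (C.H11 p b * C.H11 p d + q b * q d + q b * q d + C.H22 p b * C.H22 p d)) := by
  have t1 := S.D1T hb
  have t2 := S.D2T hb
  have t3 := S.D1T hd
  have t4 := S.D2T hd
  have g : C.Γ b d ∈ C.W := (S.hC.Γ_mem S.hB hb hd).1
  obtain ⟨e1, e2⟩ := S.DΓ hb hd
  have i1 := S.ibp3 hb hψ (S.hC.test_lap_mem hd)
  have i2 := S.ibp3 hd hψ (S.hC.test_lap_mem hb)
  have i3 := S.I1c hb hd hψ.1
  have wψ := hψ.1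
  -- abbreviations
  have n1 : MemLp (C.Γ (C.Γ b d) ψ) 1 m := S.hC.Γ_mem1 g wψ
  have n2 : MemLp (ψ * C.Γ b (C.lap d) : M →ₘ[m] ℝ) 1 m :=
    mem_mul_top hψ.2 (S.hC.Γ_mem1 (S.tW hb) (S.hC.test_lap_mem hd))
  have n3 : MemLp (ψ * C.Γ d (C.lap b) : M →ₘ[m] ℝ) 1 m :=
    mem_mul_top hψ.2 (S.hC.Γ_mem1 (S.tW hd) (S.hC.test_lap_mem hb))
  have n4 : MemLp (ψ * (C.lap b * C.lap d) : M →ₘ[m] ℝ) 1 m :=
    mem_mul_top hψ.2 (mem_mul_22 (S.lap2 hb) (S.lap2 hd))
  have n5 : MemLp (ψ * (p b * p d + q b * q d) : M →ₘ[m] ℝ) 1 m :=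
    mem_mul_top hψ.2 (mem_add (mem_mul_22 (S.hH.mem_p b hb) (S.hH.mem_p d hd))
      (mem_mul_22 (S.hH.mem_q b hb) (S.hH.mem_q d hd)))
  have n6 : MemLp (C.lap d * C.Γ b ψ : M →ₘ[m] ℝ) 1 m :=
    mem_mul_22 (S.lap2 hd) (S.hC.Γ_mem2 (S.tW hb) (S.hC.test_Γ_top hb) wψ)
  have n7 : MemLp (C.lap b * C.Γ d ψ : M →ₘ[m] ℝ) 1 m :=
    mem_mul_22 (S.lap2 hb) (S.hC.Γ_mem2 (S.tW hd) (S.hC.test_Γ_top hd) wψ)
  have n8 : MemLp (ψ * C.lap d * C.lap b : M →ₘ[m] ℝ) 1 m := by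
    have : ψ * C.lap d * C.lap b = ψ * (C.lap b * C.lap d) := by ring
    rw [this]; exact n4
  have n9 : MemLp (ψ * C.lap b * C.lap d : M →ₘ[m] ℝ) 1 m := by
    have : ψ * C.lap b * C.lap d = ψ * (C.lap b * C.lap d) := by ring
    rw [this]; exact n4
  rw [I_add (mem_add n2 n6) n8, I_add n2 n6] at i1
  rw [I_add (mem_add n3 n7) n9, I_add n3 n7] at i2
  have k1 : MemLp (D₁ ψ * (C.H11 p d * D₁ b + q d * D₂ b)
        + D₂ ψ * (q d * D₁ b + C.H22 p d * D₂ b) : M →ₘ[m] ℝ) 1 m :=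
    mem_add (mem_mul_22 (S.D12 wψ) (mem_add (mem_top_mul (S.H11_2 hd) t1)
      (mem_top_mul (S.H12_2 hd) t2))) (mem_mul_22 (S.D22 wψ)
      (mem_add (mem_top_mul (S.H12_2 hd) t1) (mem_top_mul (S.H22_2 hd) t2)))
  have k2 : MemLp (D₁ ψ * (C.H11 p b * D₁ d + q b * D₂ d)
        + D₂ ψ * (q b * D₁ d + C.H22 p b * D₂ d) : M →ₘ[m] ℝ) 1 m :=
    mem_add (mem_mul_22 (S.D12 wψ) (mem_add (mem_top_mul (S.H11_2 hb) t3)
      (mem_top_mul (S.H12_2 hb) t4))) (mem_mul_22 (S.D22 wψ)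
      (mem_add (mem_top_mul (S.H12_2 hb) t3) (mem_top_mul (S.H22_2 hb) t4)))
  set P := D₁ ψ * (C.H11 p d * D₁ b + q d * D₂ b) + D₂ ψ * (q d * D₁ b + C.H22 p d * D₂ b)
  set Q := D₁ ψ * (C.H11 p b * D₁ d + q b * D₂ d) + D₂ ψ * (q b * D₁ d + C.H22 p b * D₂ d)
  -- I1c
  have j3 : D₁ ψ * ((C.H11 p b * D₁ d + q b * D₂ d) - (C.H11 p d * D₁ b + q d * D₂ b)
          + D₁ b * C.lap d - D₁ d * C.lap b)
      + D₂ ψ * ((q b * D₁ d + C.H22 p b * D₂ d) - (q d * D₁ b + C.H22 p d * D₂ b)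
          + D₂ b * C.lap d - D₂ d * C.lap b) = (Q - P) + (C.lap d * C.Γ b ψ - C.lap b * C.Γ d ψ) := by
    rw [S.hD.Γ_eq b (S.tW hb) ψ wψ, S.hD.Γ_eq d (S.tW hd) ψ wψ]
    ring
  rw [j3, I_add (mem_sub k2 k1) (mem_sub n6 n7), I_sub k2 k1, I_sub n6 n7] at i3
  have j1 : C.Γ (C.Γ b d) ψ = Q + P := by
    rw [S.hD.Γ_eq _ g ψ wψ, e1, e2]; ring
  have j4 : ψ * (C.Γ b (C.lap d) + C.Γ d (C.lap b)) = ψ * C.Γ b (C.lap d) + ψ * C.Γ d (C.lap b) := by
    ring
  have j5 : -P + C.lap d * (D₁ b * D₁ ψ + D₂ b * D₂ ψ + ψ * C.lap b)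
      - ψ * (C.H11 p b * C.H11 p d + q b * q d + q b * q d + C.H22 p b * C.H22 p d)
      = (-P + C.lap d * C.Γ b ψ) + (2 : ℝ)⁻¹ • (ψ * (C.lap b * C.lap d))
        - (2 : ℝ) • (ψ * (p b * p d + q b * q d)) := by
    rw [S.hD.Γ_eq b (S.tW hb) ψ wψ]
    unfold Calc.H11 Calc.H22
    algebra
  rw [j5, I_sub (mem_add (mem_add (mem_neg k1) n6) (mem_smul _ n4)) (mem_smul _ n5),
    I_add (mem_add (mem_neg k1) n6) (mem_smul _ n4), I_add (mem_neg k1) n6, I_neg, I_smul, I_smul]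
  unfold Calc.GG Calc.NN
  rw [j4, I_add n2 n3, j1, I_add k2 k1]
  have j6 : I (ψ * C.lap d * C.lap b) = I (ψ * (C.lap b * C.lap d)) := by congr 1; ring
  have j7 : I (ψ * C.lap b * C.lap d) = I (ψ * (C.lap b * C.lap d)) := by congr 1; ring
  rw [j6] at i1
  rw [j7] at i2
  linarith only [i1, i2, i3]

end Setup

end Vale.Agent.P233
end
end

section

section

open MeasureTheory Filter Topology
open scoped ENNReal NNReal

namespace Vale.Agent.P233

variable {M : Type*} [MeasurableSpace M] {m : Measure M} {C : Calc m}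

/-! ### field data: the components of a field and of its covariant derivative -/

/-- components `0,1`: the field; components `2,3,4,5`: the entries `11,12,21,22` of its
covariant derivative. -/
noncomputable def Calc.fd (C : Calc m) (D₁ D₂ p q : (M →ₘ[m] ℝ) → (M →ₘ[m] ℝ))
    (r : (M →ₘ[m] ℝ) × (M →ₘ[m] ℝ)) : Fin 6 → (M →ₘ[m] ℝ) :=
  ![r.1 * D₁ r.2, r.1 * D₂ r.2, D₁ r.2 * D₁ r.1 + r.1 * C.H11 p r.2,
    D₁ r.2 * D₂ r.1 + r.1 * q r.2, D₂ r.2 * D₁ r.1 + r.1 * q r.2,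
    D₂ r.2 * D₂ r.1 + r.1 * C.H22 p r.2]

noncomputable def Calc.fl (C : Calc m) (D₁ D₂ p q : (M →ₘ[m] ℝ) → (M →ₘ[m] ℝ))
    (X : List ((M →ₘ[m] ℝ) × (M →ₘ[m] ℝ))) : Fin 6 → (M →ₘ[m] ℝ) :=
  (X.map (C.fd D₁ D₂ p q)).sum

/-- the integrand of the Ricci form -/
noncomputable def ric (w1 w2 φ : M →ₘ[m] ℝ) (P Q : Fin 6 → (M →ₘ[m] ℝ)) : M →ₘ[m] ℝ :=
  -(w1 * (Q 2 * P 0 + Q 3 * P 1) + w2 * (Q 4 * P 0 + Q 5 * P 1))
    + (Q 2 + Q 5) * (w1 * P 0 + w2 * P 1 + φ * (P 2 + P 5))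
    - φ * (P 2 * Q 2 + P 3 * Q 4 + P 4 * Q 3 + P 5 * Q 5)

/-- the integrand of the commutator identity -/
noncomputable def i1 (w1 w2 : M →ₘ[m] ℝ) (P Q : Fin 6 → (M →ₘ[m] ℝ)) : M →ₘ[m] ℝ :=
  w1 * ((P 2 * Q 0 + P 3 * Q 1) - (Q 2 * P 0 + Q 3 * P 1))
    + w2 * ((P 4 * Q 0 + P 5 * Q 1) - (Q 4 * P 0 + Q 5 * P 1))
    + (w1 * P 0 + w2 * P 1) * (Q 2 + Q 5) - (w1 * Q 0 + w2 * Q 1) * (P 2 + P 5)

/-- the integrand of the curvature functional `R(X,Y,Y,X)(f)` -/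
noncomputable def rint (w1 w2 f : M →ₘ[m] ℝ) (P Q : Fin 6 → (M →ₘ[m] ℝ)) : M →ₘ[m] ℝ :=
  -(((w1 * P 0 + w2 * P 1) * P 0 + f * (P 2 * P 0 + P 3 * P 1)) * (Q 2 * Q 0 + Q 3 * Q 1)
      + ((w1 * P 0 + w2 * P 1) * P 1 + f * (P 4 * P 0 + P 5 * P 1)) * (Q 4 * Q 0 + Q 5 * Q 1))
    - f * ((Q 2 * Q 0 + Q 3 * Q 1) * P 0 + (Q 4 * Q 0 + Q 5 * Q 1) * P 1) * (P 2 + P 5)
    + (((w1 * Q 0 + w2 * Q 1) * P 0 + f * (P 2 * Q 0 + P 3 * Q 1)) * (Q 2 * P 0 + Q 3 * P 1)
      + ((w1 * Q 0 + w2 * Q 1) * P 1 + f * (P 4 * Q 0 + P 5 * Q 1)) * (Q 4 * P 0 + Q 5 * P 1))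
    + f * ((Q 2 * P 0 + Q 3 * P 1) * P 0 + (Q 4 * P 0 + Q 5 * P 1) * P 1) * (Q 2 + Q 5)
    - f * ((Q 2 * ((Q 2 * P 0 + Q 3 * P 1) - (P 2 * Q 0 + P 3 * Q 1))
          + Q 3 * ((Q 4 * P 0 + Q 5 * P 1) - (P 4 * Q 0 + P 5 * Q 1))) * P 0
        + (Q 4 * ((Q 2 * P 0 + Q 3 * P 1) - (P 2 * Q 0 + P 3 * Q 1))
          + Q 5 * ((Q 4 * P 0 + Q 5 * P 1) - (P 4 * Q 0 + P 5 * Q 1))) * P 1)

/-- the field data of `ψ X` -/
noncomputable def mulF (w1 w2 ψ : M →ₘ[m] ℝ) (P : Fin 6 → (M →ₘ[m] ℝ)) : Fin 6 → (M →ₘ[m] ℝ) :=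
  ![ψ * P 0, ψ * P 1, ψ * P 2 + P 0 * w1, ψ * P 3 + P 0 * w2, ψ * P 4 + P 1 * w1,
    ψ * P 5 + P 1 * w2]

/-- exact two dimensional identity -/
theorem identity1 (w1 w2 f : M →ₘ[m] ℝ) (P Q : Fin 6 → (M →ₘ[m] ℝ)) :
    rint w1 w2 f P Q =
      ric ((P 0 * P 0 + P 1 * P 1) * w1 + f * (2 * (P 2 * P 0 + P 4 * P 1)))
          ((P 0 * P 0 + P 1 * P 1) * w2 + f * (2 * (P 3 * P 0 + P 5 * P 1)))
          (f * (P 0 * P 0 + P 1 * P 1)) Q Q
      - ric ((P 0 * Q 0 + P 1 * Q 1) * w1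
            + f * (P 2 * Q 0 + P 4 * Q 1 + (Q 2 * P 0 + Q 4 * P 1)))
          ((P 0 * Q 0 + P 1 * Q 1) * w2
            + f * (P 3 * Q 0 + P 5 * Q 1 + (Q 3 * P 0 + Q 5 * P 1)))
          (f * (P 0 * Q 0 + P 1 * Q 1)) Q P
      - i1 ((P 0 * Q 0 + P 1 * Q 1) * w1
            + f * (P 2 * Q 0 + P 4 * Q 1 + (Q 2 * P 0 + Q 4 * P 1)))
          ((P 0 * Q 0 + P 1 * Q 1) * w2
            + f * (P 3 * Q 0 + P 5 * Q 1 + (Q 3 * P 0 + Q 5 * P 1))) P Q := by
  unfold rint ric i1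
  ring

/-- exact two dimensional identity -/
theorem identity2 (w1 w2 f : M →ₘ[m] ℝ) (P Q : Fin 6 → (M →ₘ[m] ℝ)) :
    ric ((P 0 * P 0 + P 1 * P 1) * w1 + f * (2 * (P 2 * P 0 + P 4 * P 1)))
          ((P 0 * P 0 + P 1 * P 1) * w2 + f * (2 * (P 3 * P 0 + P 5 * P 1)))
          (f * (P 0 * P 0 + P 1 * P 1)) Q Q
      - ric ((Q 0 * Q 0 + Q 1 * Q 1) * w1 + f * (2 * (Q 2 * Q 0 + Q 4 * Q 1)))
          ((Q 0 * Q 0 + Q 1 * Q 1) * w2 + f * (2 * (Q 3 * Q 0 + Q 5 * Q 1)))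
          (f * (Q 0 * Q 0 + Q 1 * Q 1)) P P
      = 2 * i1 ((P 0 * Q 0 + P 1 * Q 1) * w1
            + f * (P 2 * Q 0 + P 4 * Q 1 + (Q 2 * P 0 + Q 4 * P 1)))
          ((P 0 * Q 0 + P 1 * Q 1) * w2
            + f * (P 3 * Q 0 + P 5 * Q 1 + (Q 3 * P 0 + Q 5 * P 1))) P Q
        - i1 w1 w2 (mulF (P 2 * Q 0 + P 4 * Q 1 + (Q 2 * P 0 + Q 4 * P 1))
            (P 3 * Q 0 + P 5 * Q 1 + (Q 3 * P 0 + Q 5 * P 1)) (P 0 * Q 0 + P 1 * Q 1) P) Q := by
  unfold ric i1 mulF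
  simp only [Matrix.cons_val]
  ring

/-- membership of field data -/
structure MemF (m : Measure M) (P : Fin 6 → (M →ₘ[m] ℝ)) : Prop where
  t0 : MemLp (P 0) ∞ m
  t1 : MemLp (P 1) ∞ m
  s0 : MemLp (P 0) 2 m
  s1 : MemLp (P 1) 2 m
  s2 : MemLp (P 2) 2 m
  s3 : MemLp (P 3) 2 m
  s4 : MemLp (P 4) 2 m
  s5 : MemLp (P 5) 2 m

theorem MemF.add {P Q : Fin 6 → (M →ₘ[m] ℝ)} (hP : MemF m P) (hQ : MemF m Q) : MemF m (P + Q) :=
  ⟨mem_add hP.t0 hQ.t0, mem_add hP.t1 hQ.t1, mem_add hP.s0 hQ.s0, mem_add hP.s1 hQ.s1,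
    mem_add hP.s2 hQ.s2, mem_add hP.s3 hQ.s3, mem_add hP.s4 hQ.s4, mem_add hP.s5 hQ.s5⟩

theorem MemF.zero : MemF m (0 : Fin 6 → (M →ₘ[m] ℝ)) :=
  ⟨mem_zero, mem_zero, mem_zero, mem_zero, mem_zero, mem_zero, mem_zero, mem_zero⟩

theorem mem_ric {w1 w2 φ : M →ₘ[m] ℝ} {P Q : Fin 6 → (M →ₘ[m] ℝ)} (h1 : MemLp w1 2 m)
    (h2 : MemLp w2 2 m) (hφ : MemLp φ ∞ m) (hP : MemF m P) (hQ : MemF m Q) :
    MemLp (ric w1 w2 φ P Q) 1 m := by
  unfold ric
  refine mem_sub (mem_add (mem_neg (mem_add (mem_mul_22 h1 ?_) (mem_mul_22 h2 ?_)))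
    (mem_mul_22 (mem_add hQ.s2 hQ.s5) ?_)) (mem_mul_top hφ ?_)
  · exact mem_add (mem_top_mul hQ.s2 hP.t0) (mem_top_mul hQ.s3 hP.t1)
  · exact mem_add (mem_top_mul hQ.s4 hP.t0) (mem_top_mul hQ.s5 hP.t1)
  · exact mem_add (mem_add (mem_top_mul h1 hP.t0) (mem_top_mul h2 hP.t1))
      (mem_mul_top hφ (mem_add hP.s2 hP.s5))
  · exact mem_add (mem_add (mem_add (mem_mul_22 hP.s2 hQ.s2) (mem_mul_22 hP.s3 hQ.s4))
      (mem_mul_22 hP.s4 hQ.s3)) (mem_mul_22 hP.s5 hQ.s5)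

theorem mem_i1 {w1 w2 : M →ₘ[m] ℝ} {P Q : Fin 6 → (M →ₘ[m] ℝ)} (h1 : MemLp w1 2 m)
    (h2 : MemLp w2 2 m) (hP : MemF m P) (hQ : MemF m Q) :
    MemLp (i1 w1 w2 P Q) 1 m := by
  unfold i1
  refine mem_sub (mem_add (mem_add (mem_mul_22 h1 ?_) (mem_mul_22 h2 ?_)) (mem_mul_22 ?_ ?_))
    (mem_mul_22 ?_ ?_)
  · exact mem_sub (mem_add (mem_top_mul hP.s2 hQ.t0) (mem_top_mul hP.s3 hQ.t1))
      (mem_add (mem_top_mul hQ.s2 hP.t0) (mem_top_mul hQ.s3 hP.t1))
  · exact mem_sub (mem_add (mem_top_mul hP.s4 hQ.t0) (mem_top_mul hP.s5 hQ.t1))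
      (mem_add (mem_top_mul hQ.s4 hP.t0) (mem_top_mul hQ.s5 hP.t1))
  · exact mem_add (mem_top_mul h1 hP.t0) (mem_top_mul h2 hP.t1)
  · exact mem_add hQ.s2 hQ.s5
  · exact mem_add (mem_top_mul h1 hQ.t0) (mem_top_mul h2 hQ.t1)
  · exact mem_add hP.s2 hP.s5

theorem ric_add_left (w1 w2 φ : M →ₘ[m] ℝ) (P P' Q : Fin 6 → (M →ₘ[m] ℝ)) :
    ric w1 w2 φ (P + P') Q = ric w1 w2 φ P Q + ric w1 w2 φ P' Q := by
  unfold ric; simp only [Pi.add_apply]; ring
theorem ric_add_right (w1 w2 φ : M →ₘ[m] ℝ) (P Q Q' : Fin 6 → (M →ₘ[m] ℝ)) :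
    ric w1 w2 φ P (Q + Q') = ric w1 w2 φ P Q + ric w1 w2 φ P Q' := by
  unfold ric; simp only [Pi.add_apply]; ring
theorem ric_zero_left (w1 w2 φ : M →ₘ[m] ℝ) (Q : Fin 6 → (M →ₘ[m] ℝ)) :
    ric w1 w2 φ 0 Q = 0 := by
  unfold ric; simp only [Pi.zero_apply]; ring
theorem ric_zero_right (w1 w2 φ : M →ₘ[m] ℝ) (Q : Fin 6 → (M →ₘ[m] ℝ)) :
    ric w1 w2 φ Q 0 = 0 := by
  unfold ric; simp only [Pi.zero_apply]; ring
theorem i1_add_left (w1 w2 : M →ₘ[m] ℝ) (P P' Q : Fin 6 → (M →ₘ[m] ℝ)) :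
    i1 w1 w2 (P + P') Q = i1 w1 w2 P Q + i1 w1 w2 P' Q := by
  unfold i1; simp only [Pi.add_apply]; ring
theorem i1_add_right (w1 w2 : M →ₘ[m] ℝ) (P Q Q' : Fin 6 → (M →ₘ[m] ℝ)) :
    i1 w1 w2 P (Q + Q') = i1 w1 w2 P Q + i1 w1 w2 P Q' := by
  unfold i1; simp only [Pi.add_apply]; ring
theorem i1_zero_left (w1 w2 : M →ₘ[m] ℝ) (Q : Fin 6 → (M →ₘ[m] ℝ)) :
    i1 w1 w2 0 Q = 0 := by
  unfold i1; simp only [Pi.zero_apply]; ring
theorem i1_zero_right (w1 w2 : M →ₘ[m] ℝ) (Q : Fin 6 → (M →ₘ[m] ℝ)) :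
    i1 w1 w2 Q 0 = 0 := by
  unfold i1; simp only [Pi.zero_apply]; ring

/-- lists of pairs `(a,b)` with `a` bounded Sobolev and `b` test -/
def Calc.AV (C : Calc m) (X : List ((M →ₘ[m] ℝ) × (M →ₘ[m] ℝ))) : Prop :=
  ∀ r ∈ X, r.1 ∈ C.A ∧ r.2 ∈ C.Test

theorem Calc.AV.tail {r : (M →ₘ[m] ℝ) × (M →ₘ[m] ℝ)} {X : List ((M →ₘ[m] ℝ) × (M →ₘ[m] ℝ))}
    (h : C.AV (r :: X)) : C.AV X := fun s hs => h s (List.mem_cons_of_mem _ hs)
theorem Calc.AV.head {r : (M →ₘ[m] ℝ) × (M →ₘ[m] ℝ)} {X : List ((M →ₘ[m] ℝ) × (M →ₘ[m] ℝ))}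
    (h : C.AV (r :: X)) : r.1 ∈ C.A ∧ r.2 ∈ C.Test := h r List.mem_cons_self

theorem fl_cons (D₁ D₂ p q : (M →ₘ[m] ℝ) → (M →ₘ[m] ℝ)) (r : (M →ₘ[m] ℝ) × (M →ₘ[m] ℝ))
    (X : List ((M →ₘ[m] ℝ) × (M →ₘ[m] ℝ))) :
    C.fl D₁ D₂ p q (r :: X) = C.fd D₁ D₂ p q r + C.fl D₁ D₂ p q X := by
  unfold Calc.fl; simp
theorem fl_nil (D₁ D₂ p q : (M →ₘ[m] ℝ) → (M →ₘ[m] ℝ)) :
    C.fl D₁ D₂ p q [] = 0 := by
  unfold Calc.fl; simp

namespace Setup

variable {κ : ℝ} {D₁ D₂ p q : (M →ₘ[m] ℝ) → (M →ₘ[m] ℝ)} (S : Setup C κ D₁ D₂ p q)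
variable {a b c d f g h k φ ψ : M →ₘ[m] ℝ}
variable {X Y Z : List ((M →ₘ[m] ℝ) × (M →ₘ[m] ℝ))}
include S

theorem fd_mem (ha : a ∈ C.A) (hb : b ∈ C.Test) : MemF m (C.fd D₁ D₂ p q (a, b)) where
  t0 := mem_mul_top ha.2 (S.D1T hb)
  t1 := mem_mul_top ha.2 (S.D2T hb)
  s0 := mem_mul_top ha.2 (S.D12 (S.tW hb))
  s1 := mem_mul_top ha.2 (S.D22 (S.tW hb))
  s2 := mem_add (mem_mul_top (S.D1T hb) (S.D12 ha.1)) (mem_mul_top ha.2 (S.H11_2 hb))
  s3 := mem_add (mem_mul_top (S.D1T hb) (S.D22 ha.1)) (mem_mul_top ha.2 (S.H12_2 hb))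
  s4 := mem_add (mem_mul_top (S.D2T hb) (S.D12 ha.1)) (mem_mul_top ha.2 (S.H12_2 hb))
  s5 := mem_add (mem_mul_top (S.D2T hb) (S.D22 ha.1)) (mem_mul_top ha.2 (S.H22_2 hb))

theorem fl_mem (hX : C.AV X) : MemF m (C.fl D₁ D₂ p q X) := by
  induction X with
  | nil => rw [fl_nil]; exact MemF.zero
  | cons r X ih => rw [fl_cons]; exact (S.fd_mem hX.head.1 hX.head.2).add (ih hX.tail)

/-- the commutator identity, one term -/
theorem i1_single (ha : a ∈ C.A) (hb : b ∈ C.Test) (hc : c ∈ C.A) (hd : d ∈ C.Test)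
    (hφ : φ ∈ C.W) :
    I (i1 (D₁ φ) (D₂ φ) (C.fd D₁ D₂ p q (a, b)) (C.fd D₁ D₂ p q (c, d))) = 0 := by
  have hac := S.hC.mul_mem_A ha hc
  rw [← S.I1s hb hd hac hφ]
  congr 1
  rw [S.hC.Γ_mul_right ha hc (S.tW hd), S.hC.Γ_mul_right ha hc (S.tW hb),
    S.hD.Γ_eq b (S.tW hb) a ha.1, S.hD.Γ_eq b (S.tW hb) c hc.1, S.hD.Γ_eq d (S.tW hd) a ha.1,
    S.hD.Γ_eq d (S.tW hd) c hc.1]
  unfold i1 Calc.fd Calc.H11 Calc.H22
  simp only [Matrix.cons_val]
  algebra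

theorem i1_list (hX : C.AV X) (hY : C.AV Y) (hφ : φ ∈ C.W) :
    I (i1 (D₁ φ) (D₂ φ) (C.fl D₁ D₂ p q X) (C.fl D₁ D₂ p q Y)) = 0 := by
  induction X with
  | nil => rw [fl_nil, i1_zero_left, I_zero]
  | cons r X ih =>
    rw [fl_cons, i1_add_left, I_add (mem_i1 (S.D12 hφ) (S.D22 hφ)
      (S.fd_mem hX.head.1 hX.head.2) (S.fl_mem hY)) (mem_i1 (S.D12 hφ) (S.D22 hφ)
      (S.fl_mem hX.tail) (S.fl_mem hY)), ih hX.tail, add_zero]
    clear ih
    induction Y with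
    | nil => rw [fl_nil, i1_zero_right, I_zero]
    | cons s Y ih2 =>
      rw [fl_cons, i1_add_right, I_add (mem_i1 (S.D12 hφ) (S.D22 hφ)
        (S.fd_mem hX.head.1 hX.head.2) (S.fd_mem hY.head.1 hY.head.2))
        (mem_i1 (S.D12 hφ) (S.D22 hφ)
        (S.fd_mem hX.head.1 hX.head.2) (S.fl_mem hY.tail)), ih2 hY.tail, add_zero]
      exact S.i1_single hX.head.1 hX.head.2 hY.head.1 hY.head.2 hφ

/-- the Ricci form, one term -/
theorem ric_single (ha : a ∈ C.A) (hb : b ∈ C.Test) (hc : c ∈ C.A) (hd : d ∈ C.Test)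
    (hφ : φ ∈ C.A) :
    I (ric (D₁ φ) (D₂ φ) φ (C.fd D₁ D₂ p q (a, b)) (C.fd D₁ D₂ p q (c, d)))
      = C.GG κ p q b d (φ * (a * c)) := by
  have hac := S.hC.mul_mem_A ha hc
  have hφa := S.hC.mul_mem_A hφ ha
  have hψ := S.hC.mul_mem_A hφ hac
  rw [S.GG_eq hb hd hψ]
  have z := S.I1s hb hd hφa hc.1
  have t1 := S.D1T hb
  have t2 := S.D2T hb
  have t3 := S.D1T hd
  have t4 := S.D2T hd
  have n : MemLp (D₁ c * (C.Γ d (φ * a) * D₁ b + φ * a * ((C.H11 p b * D₁ d + q b * D₂ d)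
          - (C.H11 p d * D₁ b + q d * D₂ b)) + φ * a * C.lap d * D₁ b
          - D₁ d * (C.Γ b (φ * a) + φ * a * C.lap b))
      + D₂ c * (C.Γ d (φ * a) * D₂ b + φ * a * ((q b * D₁ d + C.H22 p b * D₂ d)
          - (q d * D₁ b + C.H22 p d * D₂ b)) + φ * a * C.lap d * D₂ b
          - D₂ d * (C.Γ b (φ * a) + φ * a * C.lap b)) : M →ₘ[m] ℝ) 1 m := by
    have g5 : MemLp (C.Γ d (φ * a)) 2 m := S.hC.Γ_mem2 (S.tW hd) (S.hC.test_Γ_top hd) hφa.1
    have g6 : MemLp (C.Γ b (φ * a)) 2 m := S.hC.Γ_mem2 (S.tW hb) (S.hC.test_Γ_top hb) hφa.1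
    refine mem_add (mem_mul_22 (S.D12 hc.1) ?_) (mem_mul_22 (S.D22 hc.1) ?_)
    · exact mem_sub (mem_add (mem_add (mem_top_mul g5 t1) (mem_mul_top hφa.2
        (mem_sub (mem_add (mem_top_mul (S.H11_2 hb) t3)
        (mem_top_mul (S.H12_2 hb) t4)) (mem_add (mem_top_mul (S.H11_2 hd) t1)
        (mem_top_mul (S.H12_2 hd) t2))))) (mem_top_mul (mem_mul_top hφa.2 (S.lap2 hd)) t1))
        (mem_mul_top t3 (mem_add g6 (mem_mul_top hφa.2 (S.lap2 hb))))
    · exact mem_sub (mem_add (mem_add (mem_top_mul g5 t2) (mem_mul_top hφa.2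
        (mem_sub (mem_add (mem_top_mul (S.H12_2 hb) t3)
        (mem_top_mul (S.H22_2 hb) t4)) (mem_add (mem_top_mul (S.H12_2 hd) t1)
        (mem_top_mul (S.H22_2 hd) t2))))) (mem_top_mul (mem_mul_top hφa.2 (S.lap2 hd)) t2))
        (mem_mul_top t4 (mem_add g6 (mem_mul_top hφa.2 (S.lap2 hb))))
  have e := mem_ric (S.D12 hφ.1) (S.D22 hφ.1) hφ.2 (S.fd_mem ha hb) (S.fd_mem hc hd)
  rw [← sub_zero (I (ric _ _ _ _ _)), ← neg_zero, sub_neg_eq_add, ← z, ← I_add e n]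
  congr 1
  rw [S.hC.Γ_mul_right hφ ha (S.tW hd), S.hC.Γ_mul_right hφ ha (S.tW hb),
    S.hD.Γ_eq b (S.tW hb) a ha.1, S.hD.Γ_eq b (S.tW hb) φ hφ.1, S.hD.Γ_eq d (S.tW hd) a ha.1,
    S.hD.Γ_eq d (S.tW hd) φ hφ.1, S.hD.mul₁ S.hC hφ hac, S.hD.mul₂ S.hC hφ hac,
    S.hD.mul₁ S.hC ha hc, S.hD.mul₂ S.hC ha hc]
  unfold ric Calc.fd Calc.H11 Calc.H22
  simp only [Matrix.cons_val]
  algebra

end Setup

end Vale.Agent.P233
end
end

section

section

open MeasureTheory Filter Topology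
open scoped ENNReal NNReal

namespace Vale.Agent.P233

variable {M : Type*} [MeasurableSpace M] {m : Measure M} {C : Calc m}

/-- the bilinear extension of `GG` to lists -/
noncomputable def Calc.GL (C : Calc m) (κ : ℝ) (p q : (M →ₘ[m] ℝ) → (M →ₘ[m] ℝ))
    (X Y : List ((M →ₘ[m] ℝ) × (M →ₘ[m] ℝ))) (φ : M →ₘ[m] ℝ) : ℝ :=
  (X.map fun r => (Y.map fun s => C.GG κ p q r.2 s.2 (φ * (r.1 * s.1))).sum).sum

namespace Setup

variable {κ : ℝ} {D₁ D₂ p q : (M →ₘ[m] ℝ) → (M →ₘ[m] ℝ)} (S : Setup C κ D₁ D₂ p q)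
variable {a b c d f g h k φ ψ : M →ₘ[m] ℝ}
variable {X Y Z : List ((M →ₘ[m] ℝ) × (M →ₘ[m] ℝ))}
include S

theorem ric_list (hX : C.AV X) (hY : C.AV Y) (hφ : φ ∈ C.A) :
    I (ric (D₁ φ) (D₂ φ) φ (C.fl D₁ D₂ p q X) (C.fl D₁ D₂ p q Y)) = C.GL κ p q X Y φ := by
  unfold Calc.GL
  induction X with
  | nil => rw [fl_nil, ric_zero_left, I_zero]; simp
  | cons r X ih =>
    rw [fl_cons, ric_add_left, I_add (mem_ric (S.D12 hφ.1) (S.D22 hφ.1) hφ.2
      (S.fd_mem hX.head.1 hX.head.2) (S.fl_mem hY)) (mem_ric (S.D12 hφ.1) (S.D22 hφ.1) hφ.2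
      (S.fl_mem hX.tail) (S.fl_mem hY)), ih hX.tail, List.map_cons, List.sum_cons]
    congr 1
    clear ih
    induction Y with
    | nil => rw [fl_nil, ric_zero_right, I_zero]; simp
    | cons s Y ih2 =>
      rw [fl_cons, ric_add_right, I_add (mem_ric (S.D12 hφ.1) (S.D22 hφ.1) hφ.2
        (S.fd_mem hX.head.1 hX.head.2) (S.fd_mem hY.head.1 hY.head.2))
        (mem_ric (S.D12 hφ.1) (S.D22 hφ.1) hφ.2
        (S.fd_mem hX.head.1 hX.head.2) (S.fl_mem hY.tail)), ih2 hY.tail, List.map_cons,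
        List.sum_cons]
      congr 1
      exact S.ric_single hX.head.1 hX.head.2 hY.head.1 hY.head.2 hφ

/-- the field data of `ψ X` -/
theorem fl_mulV (hX : C.AV X) (hψ : ψ ∈ C.A) :
    C.fl D₁ D₂ p q (Calc.mulV ψ X) = mulF (D₁ ψ) (D₂ ψ) ψ (C.fl D₁ D₂ p q X) := by
  induction X with
  | nil =>
    have : Calc.mulV ψ ([] : List ((M →ₘ[m] ℝ) × (M →ₘ[m] ℝ))) = [] := rfl
    rw [this, fl_nil]
    unfold mulF
    ext1 i
    fin_cases i <;> simp
  | cons r X ih =>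
    have : Calc.mulV ψ (r :: X) = (ψ * r.1, r.2) :: Calc.mulV ψ X := rfl
    rw [this, fl_cons, fl_cons, ih hX.tail]
    have ha := hX.head.1
    ext1 i
    fin_cases i
    · simp only [Calc.fd, mulF, Pi.add_apply, Matrix.cons_val, Fin.zero_eta, Fin.isValue]
      ring
    · simp only [Calc.fd, mulF, Pi.add_apply, Matrix.cons_val, Fin.mk_one, Fin.isValue]
      ring
    all_goals
      simp only [Calc.fd, mulF, Pi.add_apply, Matrix.cons_val, Fin.isValue, Fin.reduceFinMk]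
      first
        | (rw [S.hD.mul₁ S.hC hψ ha]; ring)
        | (rw [S.hD.mul₂ S.hC hψ ha]; ring)

theorem mulV_AV (hX : C.AV X) (hψ : ψ ∈ C.A) : C.AV (Calc.mulV ψ X) := by
  intro r hr
  unfold Calc.mulV at hr
  rw [List.mem_map] at hr
  obtain ⟨s, hs, rfl⟩ := hr
  exact ⟨S.hC.mul_mem_A hψ (hX s hs).1, (hX s hs).2⟩

theorem testV_AV (hX : C.IsTestV X) : C.AV X := fun r hr => ⟨S.tA (hX r hr).1, (hX r hr).2⟩

theorem add_mem_A (hf : f ∈ C.A) (hg : g ∈ C.A) : f + g ∈ C.A :=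
  ⟨S.hC.add_mem _ hf.1 _ hg.1, mem_add hf.2 hg.2⟩
theorem smul_mem_A (t : ℝ) (hf : f ∈ C.A) : t • f ∈ C.A :=
  ⟨S.hC.smul_mem _ _ hf.1, mem_smul _ hf.2⟩
theorem zero_mem_A : (0 : M →ₘ[m] ℝ) ∈ C.A := ⟨S.hC.zero_mem, mem_zero⟩

theorem D1_zero : D₁ 0 = 0 := by
  have := S.hD.smul₁ 0 0 S.hC.zero_mem
  simpa using this
theorem D2_zero : D₂ 0 = 0 := by
  have := S.hD.smul₂ 0 0 S.hC.zero_mem
  simpa using this

theorem ip_single (ha : a ∈ C.A) (hb : b ∈ C.Test) (hc : c ∈ C.A) (hd : d ∈ C.Test) :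
    a * c * C.Γ b d ∈ C.A ∧
    a * c * C.Γ b d = C.fd D₁ D₂ p q (a, b) 0 * C.fd D₁ D₂ p q (c, d) 0
      + C.fd D₁ D₂ p q (a, b) 1 * C.fd D₁ D₂ p q (c, d) 1 ∧
    D₁ (a * c * C.Γ b d) = C.fd D₁ D₂ p q (a, b) 2 * C.fd D₁ D₂ p q (c, d) 0
      + C.fd D₁ D₂ p q (a, b) 4 * C.fd D₁ D₂ p q (c, d) 1
      + (C.fd D₁ D₂ p q (c, d) 2 * C.fd D₁ D₂ p q (a, b) 0
      + C.fd D₁ D₂ p q (c, d) 4 * C.fd D₁ D₂ p q (a, b) 1) ∧
    D₂ (a * c * C.Γ b d) = C.fd D₁ D₂ p q (a, b) 3 * C.fd D₁ D₂ p q (c, d) 0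
      + C.fd D₁ D₂ p q (a, b) 5 * C.fd D₁ D₂ p q (c, d) 1
      + (C.fd D₁ D₂ p q (c, d) 3 * C.fd D₁ D₂ p q (a, b) 0
      + C.fd D₁ D₂ p q (c, d) 5 * C.fd D₁ D₂ p q (a, b) 1) := by
  have hac := S.hC.mul_mem_A ha hc
  have hG := S.hC.Γ_mem S.hB hb hd
  obtain ⟨e1, e2⟩ := S.DΓ hb hd
  refine ⟨S.hC.mul_mem_A hac hG, ?_, ?_, ?_⟩
  · rw [S.hD.Γ_eq b (S.tW hb) d (S.tW hd)]
    simp only [Calc.fd, Matrix.cons_val, Fin.isValue]
    ring
  · rw [S.hD.mul₁ S.hC hac hG, S.hD.mul₁ S.hC ha hc, e1, S.hD.Γ_eq b (S.tW hb) d (S.tW hd)]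
    simp only [Calc.fd, Matrix.cons_val, Fin.isValue]
    ring
  · rw [S.hD.mul₂ S.hC hac hG, S.hD.mul₂ S.hC ha hc, e2, S.hD.Γ_eq b (S.tW hb) d (S.tW hd)]
    simp only [Calc.fd, Matrix.cons_val, Fin.isValue]
    ring

/-- the four facts about `⟨X,Y⟩` -/
theorem ip_list (hX : C.AV X) (hY : C.AV Y) :
    C.ip X Y ∈ C.A ∧
    C.ip X Y = C.fl D₁ D₂ p q X 0 * C.fl D₁ D₂ p q Y 0
      + C.fl D₁ D₂ p q X 1 * C.fl D₁ D₂ p q Y 1 ∧
    D₁ (C.ip X Y) = C.fl D₁ D₂ p q X 2 * C.fl D₁ D₂ p q Y 0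
      + C.fl D₁ D₂ p q X 4 * C.fl D₁ D₂ p q Y 1
      + (C.fl D₁ D₂ p q Y 2 * C.fl D₁ D₂ p q X 0
      + C.fl D₁ D₂ p q Y 4 * C.fl D₁ D₂ p q X 1) ∧
    D₂ (C.ip X Y) = C.fl D₁ D₂ p q X 3 * C.fl D₁ D₂ p q Y 0
      + C.fl D₁ D₂ p q X 5 * C.fl D₁ D₂ p q Y 1
      + (C.fl D₁ D₂ p q Y 3 * C.fl D₁ D₂ p q X 0
      + C.fl D₁ D₂ p q Y 5 * C.fl D₁ D₂ p q X 1) := by
  unfold Calc.ip
  induction X with
  | nil =>
    simp only [List.map_nil, List.sum_nil, fl_nil, Pi.zero_apply, zero_mul, mul_zero, add_zero]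
    exact ⟨S.zero_mem_A, trivial, S.D1_zero, S.D2_zero⟩
  | cons r X ih =>
    obtain ⟨i1, i2, i3, i4⟩ := ih hX.tail
    have key : (List.map (fun s => r.1 * s.1 * C.Γ r.2 s.2) Y).sum ∈ C.A ∧
      (List.map (fun s => r.1 * s.1 * C.Γ r.2 s.2) Y).sum
        = C.fd D₁ D₂ p q r 0 * C.fl D₁ D₂ p q Y 0 + C.fd D₁ D₂ p q r 1 * C.fl D₁ D₂ p q Y 1 ∧
      D₁ ((List.map (fun s => r.1 * s.1 * C.Γ r.2 s.2) Y).sum)
        = C.fd D₁ D₂ p q r 2 * C.fl D₁ D₂ p q Y 0 + C.fd D₁ D₂ p q r 4 * C.fl D₁ D₂ p q Y 1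
          + (C.fl D₁ D₂ p q Y 2 * C.fd D₁ D₂ p q r 0 + C.fl D₁ D₂ p q Y 4 * C.fd D₁ D₂ p q r 1) ∧
      D₂ ((List.map (fun s => r.1 * s.1 * C.Γ r.2 s.2) Y).sum)
        = C.fd D₁ D₂ p q r 3 * C.fl D₁ D₂ p q Y 0 + C.fd D₁ D₂ p q r 5 * C.fl D₁ D₂ p q Y 1
          + (C.fl D₁ D₂ p q Y 3 * C.fd D₁ D₂ p q r 0
            + C.fl D₁ D₂ p q Y 5 * C.fd D₁ D₂ p q r 1) := by
      clear i1 i2 i3 i4 ih
      induction Y with
      | nil =>
        simp only [List.map_nil, List.sum_nil, fl_nil, Pi.zero_apply, zero_mul, mul_zero, add_zero]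
        exact ⟨S.zero_mem_A, trivial, S.D1_zero, S.D2_zero⟩
      | cons s Y ih =>
        obtain ⟨i1, i2, i3, i4⟩ := ih hY.tail
        obtain ⟨j1, j2, j3, j4⟩ := S.ip_single hX.head.1 hX.head.2 hY.head.1 hY.head.2
        simp only [List.map_cons, List.sum_cons, fl_cons, Pi.add_apply]
        refine ⟨S.add_mem_A j1 i1, ?_, ?_, ?_⟩
        · rw [j2, i2]; ring
        · rw [S.hD.add₁ _ j1.1 _ i1.1, j3, i3]; ring
        · rw [S.hD.add₂ _ j1.1 _ i1.1, j4, i4]; ring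
    obtain ⟨j1, j2, j3, j4⟩ := key
    simp only [List.map_cons, List.sum_cons, fl_cons, Pi.add_apply]
    refine ⟨S.add_mem_A j1 i1, ?_, ?_, ?_⟩
    · rw [j2, i2]; ring
    · rw [S.hD.add₁ _ j1.1 _ i1.1, j3, i3]; ring
    · rw [S.hD.add₂ _ j1.1 _ i1.1, j4, i4]; ring

end Setup

end Vale.Agent.P233
end
end

section

section

open MeasureTheory Filter Topology
open scoped ENNReal NNReal

namespace Vale.Agent.P233

variable {M : Type*} [MeasurableSpace M] {m : Measure M} {C : Calc m}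

/-- `NN` minus the trace free Hessian term -/
noncomputable def Calc.GP (C : Calc m) (κ : ℝ)
    (p q : (M →ₘ[m] ℝ) → (M →ₘ[m] ℝ)) (b d ψ : M →ₘ[m] ℝ) : ℝ :=
  C.NN κ b d ψ - 2 * I (ψ * (p b * p d + q b * q d))

noncomputable def Calc.QL (C : Calc m) (κ : ℝ) (p q : (M →ₘ[m] ℝ) → (M →ₘ[m] ℝ))
    (X Y : List ((M →ₘ[m] ℝ) × (M →ₘ[m] ℝ))) (φ : M →ₘ[m] ℝ) : ℝ :=
  (X.map fun r => (Y.map fun s => C.GP κ p q r.2 s.2 (φ * (r.1 * s.1))).sum).sum

/-- a function with `φ(t) = 1/(ε+t) - 1/ε` for `t ≥ 0` -/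
theorem exists_inv_fun {ε : ℝ} (hε : 0 < ε) : ∃ φ φ' : ℝ → ℝ, Continuous φ ∧ Continuous φ' ∧
    (∀ t, HasDerivAt φ (φ' t) t) ∧ φ 0 = 0 ∧ (∃ K : ℝ, ∀ t, |φ' t| ≤ K) ∧
    ∀ t, 0 ≤ t → φ t = (ε + t)⁻¹ - ε⁻¹ := by
  set ψ : ℝ → ℝ := fun s => -((ε + max s 0) ^ 2)⁻¹ with hψ
  have hpos : ∀ s : ℝ, 0 < ε + max s 0 := fun s => by
    have := le_max_right s 0; linarith
  have hc : Continuous ψ := by
    apply Continuous.neg
    apply Continuous.inv₀
    · fun_prop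
    · intro s; have := hpos s; positivity
  set φ : ℝ → ℝ := fun t => ∫ s in (0 : ℝ)..t, ψ s with hφ
  have hd : ∀ t, HasDerivAt φ (ψ t) t := fun t =>
    intervalIntegral.integral_hasDerivAt_right (hc.intervalIntegrable _ _)
      (hc.stronglyMeasurableAtFilter _ _) hc.continuousAt
  refine ⟨φ, ψ, ?_, hc, hd, ?_, ⟨(ε ^ 2)⁻¹, ?_⟩, ?_⟩
  · exact continuous_iff_continuousAt.2 fun t => (hd t).continuousAt
  · simp [hφ]
  · intro t
    rw [hψ]
    simp only [abs_neg, abs_inv]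
    rw [abs_of_pos (by have := hpos t; positivity)]
    apply inv_anti₀ (by positivity)
    have : ε ≤ ε + max t 0 := by have := le_max_right t 0; linarith
    nlinarith only [hε, this]
  · intro t ht
    have h1 : ∀ s ∈ Set.uIcc 0 t, HasDerivAt (fun s => (ε + s)⁻¹) (-((ε + s) ^ 2)⁻¹) s := by
      intro s hs
      rw [Set.uIcc_of_le ht] at hs
      have : ε + s ≠ 0 := by have := hs.1; positivity
      have h2 : HasDerivAt (fun s => ε + s) 1 s := by
        simpa using (hasDerivAt_id s).const_add ε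
      have h3 : HasDerivAt (fun s => (ε + s)⁻¹) (-1 / (ε + s) ^ 2) s := h2.inv this
      rw [neg_div, one_div] at h3
      exact h3
    have h4 : φ t = ∫ s in (0 : ℝ)..t, -((ε + s) ^ 2)⁻¹ := by
      rw [hφ]
      apply intervalIntegral.integral_congr
      intro s hs
      rw [Set.uIcc_of_le ht] at hs
      simp only [hψ, max_eq_left hs.1]
    rw [h4, intervalIntegral.integral_eq_sub_of_hasDerivAt h1]
    · simp
    · apply ContinuousOn.intervalIntegrable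
      rw [Set.uIcc_of_le ht]
      apply ContinuousOn.neg
      apply ContinuousOn.inv₀
      · (clear * -; fun_prop)
      · intro s hs; have := hs.1; positivity

namespace Setup

variable {κ : ℝ} {D₁ D₂ p q : (M →ₘ[m] ℝ) → (M →ₘ[m] ℝ)} (S : Setup C κ D₁ D₂ p q)
variable {a b c d f g h k x φ ψ : M →ₘ[m] ℝ}
variable {X X' Y Y' Z : List ((M →ₘ[m] ℝ) × (M →ₘ[m] ℝ))}
include S

theorem exists_inv (hx : x ∈ C.A) (h0 : 0 ≤ x) {ε : ℝ} (hε : 0 < ε) :
    ∃ g g0 : M →ₘ[m] ℝ, g0 ∈ C.A ∧ g = ε⁻¹ • 1 + g0 ∧ 0 ≤ g ∧ g * (x + ε • 1) = 1 := by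
  obtain ⟨φ, φ', hφ, hφ', hd, hz, hK, hval⟩ := exists_inv_fun hε
  have hW := (S.hC.chain x hx.1 φ φ' hφ hφ' hd hz hK).1
  have hv : ∀ᵐ y ∂m, (ε⁻¹ • (1 : M →ₘ[m] ℝ) + AEEqFun.comp φ hφ x) y = (ε + x y)⁻¹ := by
    filter_upwards [add_ae (ε⁻¹ • (1 : M →ₘ[m] ℝ)) (AEEqFun.comp φ hφ x),
      smul_ae (1 : M →ₘ[m] ℝ) ε⁻¹, one_ae (M := M) (m := m), AEEqFun.coeFn_comp φ hφ x,
      nonneg_iff_ae.1 h0] with y h1 h2 h3 h4 h5
    rw [h1, h2, h3, h4]
    simp only [Function.comp_apply]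
    rw [hval _ h5]; ring
  have hT : MemLp (AEEqFun.comp φ hφ x) ∞ m := by
    rw [mem_top_iff]
    refine ⟨ε⁻¹, ?_⟩
    filter_upwards [AEEqFun.coeFn_comp φ hφ x, nonneg_iff_ae.1 h0] with y h4 h5
    rw [h4]
    simp only [Function.comp_apply]
    rw [hval _ h5, abs_sub_comm, abs_of_nonneg]
    · have : 0 < (ε + x y)⁻¹ := by positivity
      linarith only [this]
    · have : (ε + x y)⁻¹ ≤ ε⁻¹ := inv_anti₀ hε (by linarith)
      linarith
  refine ⟨ε⁻¹ • 1 + AEEqFun.comp φ hφ x, AEEqFun.comp φ hφ x, ⟨hW, hT⟩, rfl, ?_, ?_⟩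
  · rw [nonneg_iff_ae]
    filter_upwards [hv, nonneg_iff_ae.1 h0] with y h1 h2
    rw [h1]; (clear * - hε h2; positivity)
  · rw [eq_iff_ae]
    filter_upwards [hv, nonneg_iff_ae.1 h0, mul_ae (ε⁻¹ • (1 : M →ₘ[m] ℝ) + AEEqFun.comp φ hφ x)
      (x + ε • 1), add_ae x (ε • (1 : M →ₘ[m] ℝ)), smul_ae (1 : M →ₘ[m] ℝ) ε,
      one_ae (M := M) (m := m)] with y h1 h2 h3 h4 h5 h6
    rw [h3, h1, h4, h5, h6]
    have : ε + x y ≠ 0 := by positivity
    field_simp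
    ring

/-! ### the form `GP` -/

theorem PQ_mem (hb : b ∈ C.Test) (hd : d ∈ C.Test) (hψ : ψ ∈ C.A) :
    MemLp (ψ * (p b * p d + q b * q d) : M →ₘ[m] ℝ) 1 m :=
  mem_mul_top hψ.2 (mem_add (mem_mul_22 (S.hH.mem_p b hb) (S.hH.mem_p d hd))
      (mem_mul_22 (S.hH.mem_q b hb) (S.hH.mem_q d hd)))

theorem GP_symm (hb : b ∈ C.Test) (hd : d ∈ C.Test) :
    C.GP κ p q b d ψ = C.GP κ p q d b ψ := by
  unfold Calc.GP
  rw [S.hC.NN_symm S.hB hb hd]
  congr 3
  ring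

theorem GP_add_left (hb : b ∈ C.Test) (hc : c ∈ C.Test) (hd : d ∈ C.Test) (hψ : ψ ∈ C.A) :
    C.GP κ p q (b + c) d ψ = C.GP κ p q b d ψ + C.GP κ p q c d ψ := by
  unfold Calc.GP
  rw [S.hC.NN_add_left S.hB hb hc hd hψ, S.hH.add_p b hb c hc, S.hH.add_q b hb c hc]
  have : ψ * ((p b + p c) * p d + (q b + q c) * q d)
      = ψ * (p b * p d + q b * q d) + ψ * (p c * p d + q c * q d) := by ring
  rw [this, I_add (S.PQ_mem hb hd hψ) (S.PQ_mem hc hd hψ)]
  ring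

theorem GP_smul_left (t : ℝ) (hb : b ∈ C.Test) (hd : d ∈ C.Test) (hψ : ψ ∈ C.A) :
    C.GP κ p q (t • b) d ψ = t * C.GP κ p q b d ψ := by
  unfold Calc.GP
  rw [S.hC.NN_smul_left S.hB t hb hd hψ, S.hH.smul_p t b hb, S.hH.smul_q t b hb]
  have : ψ * (t • p b * p d + t • q b * q d)
      = t • (ψ * (p b * p d + q b * q d)) := by algebra
  rw [this, I_smul]
  ring

theorem GP_add_φ (hb : b ∈ C.Test) (hd : d ∈ C.Test) (hφ : φ ∈ C.A) (hψ : ψ ∈ C.A) :
    C.GP κ p q b d (φ + ψ) = C.GP κ p q b d φ + C.GP κ p q b d ψ := by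
  unfold Calc.GP
  rw [S.hC.NN_add_φ S.hB hb hd hφ hψ, add_mul, I_add (S.PQ_mem hb hd hφ) (S.PQ_mem hb hd hψ)]
  ring

theorem GP_smul_φ (t : ℝ) (hb : b ∈ C.Test) (hd : d ∈ C.Test) (hφ : φ ∈ C.A) :
    C.GP κ p q b d (t • φ) = t * C.GP κ p q b d φ := by
  unfold Calc.GP
  rw [S.hC.NN_smul_φ S.hB t hb hd hφ, smul_mul_assoc, I_smul]
  ring

theorem GP_nonneg (hb : b ∈ C.Test) (hφ : φ ∈ C.A) (h0 : 0 ≤ φ) : 0 ≤ C.GP κ p q b b φ := by
  unfold Calc.GP
  have := S.hH.NN_ge b hb φ hφ h0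
  have e : p b * p b + q b * q b = p b ^ 2 + q b ^ 2 := by ring
  rw [e]; linarith

theorem test_sum {n : ℕ} (F : Fin n → M →ₘ[m] ℝ) (hF : ∀ i, F i ∈ C.Test) (t : Fin n → ℝ)
    (s : Finset (Fin n)) : ∑ i ∈ s, t i • F i ∈ C.Test := by
  classical
  induction s using Finset.induction_on with
  | empty => simpa using S.hC.test_zero S.hB
  | insert i s hi ih =>
    rw [Finset.sum_insert hi]
    exact S.hC.test_add S.hB (S.hC.test_smul S.hB _ (hF i)) ih

theorem GP_sum_left {n : ℕ} (F : Fin n → M →ₘ[m] ℝ) (hF : ∀ i, F i ∈ C.Test) (t : Fin n → ℝ)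
    (hd : d ∈ C.Test) (hφ : φ ∈ C.A) (s : Finset (Fin n)) :
    C.GP κ p q (∑ i ∈ s, t i • F i) d φ = ∑ i ∈ s, t i * C.GP κ p q (F i) d φ := by
  classical
  induction s using Finset.induction_on with
  | empty =>
    have := S.GP_smul_left 0 (S.hC.test_zero S.hB) hd hφ
    simpa only [Finset.sum_empty, smul_zero, zero_mul] using this
  | insert i s hi ih =>
    rw [Finset.sum_insert hi, Finset.sum_insert hi,
      S.GP_add_left (S.hC.test_smul S.hB _ (hF i)) (S.test_sum F hF t s) hd hφ, ih,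
      S.GP_smul_left _ (hF i) hd hφ]

theorem GP_pos_const {n : ℕ} (F : Fin n → M →ₘ[m] ℝ) (hF : ∀ i, F i ∈ C.Test) (t : Fin n → ℝ)
    (hφ : φ ∈ C.A) (h0 : 0 ≤ φ) :
    0 ≤ ∑ i, ∑ j, t i * t j * C.GP κ p q (F i) (F j) φ := by
  have h1 := S.GP_nonneg (S.test_sum F hF t Finset.univ) hφ h0
  rw [S.GP_sum_left F hF t (S.test_sum F hF t Finset.univ) hφ] at h1
  refine h1.trans_eq (Finset.sum_congr rfl fun i _ => ?_)
  rw [S.GP_symm (hF i) (S.test_sum F hF t Finset.univ), S.GP_sum_left F hF t (hF i) hφ,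
    Finset.mul_sum]
  refine Finset.sum_congr rfl fun j _ => ?_
  rw [S.GP_symm (hF j) (hF i)]
  ring

/-! ### the form `QL` -/

theorem QL_nonneg (hZ : C.AV Z) (hφ : φ ∈ C.A) (h0 : 0 ≤ φ) : 0 ≤ C.QL κ p q Z Z φ := by
  have hF : ∀ i : Fin Z.length, (Z[i.1]).2 ∈ C.Test := fun i => (hZ _ (List.getElem_mem _)).2
  have hA : ∀ i : Fin Z.length, (Z[i.1]).1 ∈ C.A := fun i => (hZ _ (List.getElem_mem _)).1
  have key := S.hC.master_general S.hB (n := Z.length)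
    (fun i j => C.GP κ p q (Z[i.1]).2 (Z[j.1]).2)
    (fun i j φ _ => S.GP_symm (hF i) (hF j))
    (fun i j φ hφ ψ hψ => S.GP_add_φ (hF i) (hF j) hφ hψ)
    (fun i j t φ hφ => S.GP_smul_φ t (hF i) (hF j) hφ)
    (fun t φ hφ h0 => S.GP_pos_const _ hF t hφ h0)
    (a := fun i => (Z[i.1]).1) (fun i => ⟨0, by simpa only [zero_smul, sub_zero] using hA i⟩) hφ h0
  refine key.trans_eq ?_
  unfold Calc.QL
  rw [← Fin.sum_univ_fun_getElem]
  refine Finset.sum_congr rfl fun i _ => ?_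
  rw [← Fin.sum_univ_fun_getElem]

omit S in
theorem QL_append_left : C.QL κ p q (X ++ X') Y φ = C.QL κ p q X Y φ + C.QL κ p q X' Y φ := by
  unfold Calc.QL; simp

omit S in
theorem QL_append_right : C.QL κ p q X (Y ++ Y') φ = C.QL κ p q X Y φ + C.QL κ p q X Y' φ := by
  unfold Calc.QL
  simp only [List.map_append, List.sum_append]
  rw [← List.sum_map_add]

omit S in
theorem QL_mulV : C.QL κ p q (Calc.mulV a X) (Calc.mulV b Y) φ = C.QL κ p q X Y (φ * (a * b)) := by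
  unfold Calc.QL Calc.mulV
  simp only [List.map_map]
  congr 1
  apply List.map_congr_left
  intro r _
  simp only [Function.comp_apply]
  congr 1
  apply List.map_congr_left
  intro s _
  simp only [Function.comp_apply]
  congr 1
  ring

theorem QL_comm (hX : C.AV X) (hY : C.AV Y) : C.QL κ p q X Y φ = C.QL κ p q Y X φ := by
  unfold Calc.QL
  induction X with
  | nil => simp
  | cons r X ih =>
    simp only [List.map_cons, List.sum_cons]
    rw [ih hX.tail, ← List.sum_map_add]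
    congr 1
    apply List.map_congr_left
    intro s hs
    congr 1
    rw [S.GP_symm hX.head.2 (hY s hs).2]
    congr 1
    ring

theorem QL_add_φ (hX : C.AV X) (hY : C.AV Y) (hφ : φ ∈ C.A) (hψ : ψ ∈ C.A) :
    C.QL κ p q X Y (φ + ψ) = C.QL κ p q X Y φ + C.QL κ p q X Y ψ := by
  unfold Calc.QL
  rw [← List.sum_map_add]
  congr 1
  apply List.map_congr_left
  intro r hr
  rw [← List.sum_map_add]
  congr 1
  apply List.map_congr_left
  intro s hs
  have h1 := S.hC.mul_mem_A (hX r hr).1 (hY s hs).1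
  rw [add_mul, S.GP_add_φ (hX r hr).2 (hY s hs).2 (S.hC.mul_mem_A hφ h1) (S.hC.mul_mem_A hψ h1)]

theorem QL_smul_φ (t : ℝ) (hX : C.AV X) (hY : C.AV Y) (hφ : φ ∈ C.A) :
    C.QL κ p q X Y (t • φ) = t * C.QL κ p q X Y φ := by
  unfold Calc.QL
  rw [← List.sum_map_mul_left]
  congr 1
  apply List.map_congr_left
  intro r hr
  rw [← List.sum_map_mul_left]
  congr 1
  apply List.map_congr_left
  intro s hs
  have h1 := S.hC.mul_mem_A (hX r hr).1 (hY s hs).1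
  rw [smul_mul_assoc, S.GP_smul_φ _ (hX r hr).2 (hY s hs).2 (S.hC.mul_mem_A hφ h1)]

/-- positivity of the combination that appears in the curvature functional -/
theorem pos_comb (hX : C.AV X) (hY : C.AV Y) (hf : f ∈ C.A) (h0 : 0 ≤ f) :
    0 ≤ C.QL κ p q Y Y (f * C.ip X X) + C.QL κ p q X X (f * C.ip Y Y)
      - 2 * C.QL κ p q X Y (f * C.ip X Y) := by
  obtain ⟨u1, u2, -, -⟩ := S.ip_list hX hX
  obtain ⟨v1, v2, -, -⟩ := S.ip_list hY hY
  obtain ⟨w1, w2, -, -⟩ := S.ip_list hX hY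
  set u := C.ip X X
  set v := C.ip Y Y
  set w := C.ip X Y
  have hu0 : 0 ≤ u := by rw [u2, ← sq, ← sq]; exact add_nonneg (sq_nonneg' _) (sq_nonneg' _)
  have hv0 : 0 ≤ v := by rw [v2, ← sq, ← sq]; exact add_nonneg (sq_nonneg' _) (sq_nonneg' _)
  have hcs : 0 ≤ u * v - w * w := by
    have : u * v - w * w = (C.fl D₁ D₂ p q X 0 * C.fl D₁ D₂ p q Y 1
        - C.fl D₁ D₂ p q X 1 * C.fl D₁ D₂ p q Y 0) ^ 2 := by rw [u2, v2, w2]; ring
    rw [this]; exact sq_nonneg' _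
  have key : ∀ ε : ℝ, 0 < ε → 0 ≤ (C.QL κ p q Y Y (f * u) + C.QL κ p q X X (f * v)
      - 2 * C.QL κ p q X Y (f * w)) + ε * (C.QL κ p q Y Y f + C.QL κ p q X X f) := by
    intro ε hε
    obtain ⟨g, g0, hg0, hg, hgn, hgi⟩ := S.exists_inv u1 hu0 hε
    have hfg : f * g ∈ C.A := by
      have : f * g = ε⁻¹ • f + f * g0 := by rw [hg]; algebra
      rw [this]
      exact S.add_mem_A (S.smul_mem_A _ hf) (S.hC.mul_mem_A hf hg0)
    have hfg0 : 0 ≤ f * g := mul_nonneg h0 hgn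
    -- the coefficient `u + ε` is not in `A`, so we add the two parts separately
    have hY1 := S.mulV_AV hY u1
    have hYε : C.AV (Calc.mulV (ε • (1 : M →ₘ[m] ℝ)) Y) := by
      intro r hr
      unfold Calc.mulV at hr
      rw [List.mem_map] at hr
      obtain ⟨s, hs, rfl⟩ := hr
      refine ⟨?_, (hY s hs).2⟩
      have : ε • (1 : M →ₘ[m] ℝ) * s.1 = ε • s.1 := by algebra
      rw [this]; exact S.smul_mem_A _ (hY s hs).1
    have hXw := S.mulV_AV hX (S.smul_mem_A (-1) w1)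
    have hAV : C.AV ((Calc.mulV u Y ++ Calc.mulV (ε • (1 : M →ₘ[m] ℝ)) Y)
        ++ Calc.mulV ((-1 : ℝ) • w) X) := by
      intro r hr
      rw [List.mem_append, List.mem_append] at hr
      rcases hr with (h | h) | h
      · exact hY1 r h
      · exact hYε r h
      · exact hXw r h
    have n1 := S.QL_nonneg hAV hfg hfg0
    set E : M →ₘ[m] ℝ := ε • (1 : M →ₘ[m] ℝ) with hE
    simp only [QL_append_left, QL_append_right, QL_mulV] at n1
    -- second term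
    have hD : f * g * ((u + E) * (v + E) - w * w) ∈ C.A := by
      have : f * g * ((u + E) * (v + E) - w * w)
          = f * g * (u * v - w * w) + ε • (f * g * u) + ε • (f * g * v) + (ε * ε) • (f * g) := by
        rw [hE]; algebra
      rw [this]
      have h1 : u * v - w * w ∈ C.A := by
        have : u * v - w * w = u * v + (-1 : ℝ) • (w * w) := by algebra
        rw [this]
        exact S.add_mem_A (S.hC.mul_mem_A u1 v1) (S.smul_mem_A _ (S.hC.mul_mem_A w1 w1))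
      exact S.add_mem_A (S.add_mem_A (S.add_mem_A (S.hC.mul_mem_A hfg h1)
        (S.smul_mem_A _ (S.hC.mul_mem_A hfg u1))) (S.smul_mem_A _ (S.hC.mul_mem_A hfg v1)))
        (S.smul_mem_A _ hfg)
    have hD0 : 0 ≤ f * g * ((u + E) * (v + E) - w * w) := by
      apply mul_nonneg hfg0
      have : (u + E) * (v + E) - w * w = (u * v - w * w) + ε • (u + v) + (ε * ε) • 1 := by
        rw [hE]; algebra
      rw [this]
      exact add_nonneg (add_nonneg hcs (smul_nonneg' hε.le (add_nonneg hu0 hv0)))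
        (smul_nonneg' (by (clear * - hε; positivity)) zero_le_one)
    have n2 := S.QL_nonneg hX hD hD0
    -- memberships of the pieces
    have p1 : f * g * (u * u) ∈ C.A := S.hC.mul_mem_A hfg (S.hC.mul_mem_A u1 u1)
    have p2 : f * g * u ∈ C.A := S.hC.mul_mem_A hfg u1
    have pw : f * g * w ∈ C.A := S.hC.mul_mem_A hfg w1
    have puw : f * g * (u * w) ∈ C.A := S.hC.mul_mem_A hfg (S.hC.mul_mem_A u1 w1)
    have pww : f * g * (w * w) ∈ C.A := S.hC.mul_mem_A hfg (S.hC.mul_mem_A w1 w1)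
    have r1 : f * g * (u * u) = f * g * (u * u) := rfl
    have r2 : f * g * (u * E) = ε • (f * g * u) := by rw [hE]; algebra
    have r3 : f * g * (E * u) = ε • (f * g * u) := by rw [hE]; algebra
    have r4 : f * g * (E * E) = (ε * ε) • (f * g) := by rw [hE]; algebra
    have r5 : f * g * (u * (-1 : ℝ) • w) = (-1 : ℝ) • (f * g * (u * w)) := by algebra
    have r6 : f * g * ((-1 : ℝ) • w * u) = (-1 : ℝ) • (f * g * (u * w)) := by algebra
    have r7 : f * g * (E * (-1 : ℝ) • w) = (-ε) • (f * g * w) := by rw [hE]; algebra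
    have r8 : f * g * ((-1 : ℝ) • w * E) = (-ε) • (f * g * w) := by rw [hE]; algebra
    have r9 : f * g * ((-1 : ℝ) • w * (-1 : ℝ) • w) = f * g * (w * w) := by algebra
    rw [r2, r3, r4, r5, r6, r7, r8, r9] at n1
    rw [S.QL_smul_φ _ hY hY p2, S.QL_smul_φ _ hY hY hfg, S.QL_smul_φ _ hY hX puw,
      S.QL_smul_φ _ hX hY puw, S.QL_smul_φ _ hY hX pw, S.QL_smul_φ _ hX hY pw,
      S.QL_comm hY hX, S.QL_comm hY hX] at n1
    -- combine using `g (u + ε) = 1`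
    have q1 : f * u + ε • f = f * g * (u * u) + (2 * ε) • (f * g * u) + (ε * ε) • (f * g) := by
      have : f * u + ε • f = f * (u + ε • 1) * (g * (u + ε • 1)) := by rw [hgi]; algebra
      rw [this]; algebra
    have q2 : f * w = f * g * (u * w) + ε • (f * g * w) := by
      have : f * w = f * w * (g * (u + ε • 1)) := by rw [hgi]; ring
      rw [this]; algebra
    have q3 : f * v + ε • f = f * g * (w * w) + f * g * ((u + E) * (v + E) - w * w) := by
      have : f * v + ε • f = f * (v + E) * (g * (u + ε • 1)) := by rw [hgi, hE]; algebra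
      rw [this, hE]; algebra
    have s1 : C.QL κ p q Y Y (f * u) + ε * C.QL κ p q Y Y f
        = C.QL κ p q Y Y (f * g * (u * u)) + 2 * ε * C.QL κ p q Y Y (f * g * u)
          + ε * ε * C.QL κ p q Y Y (f * g) := by
      rw [← S.QL_smul_φ ε hY hY hf, ← S.QL_add_φ hY hY (S.hC.mul_mem_A hf u1) (S.smul_mem_A _ hf),
        q1, S.QL_add_φ hY hY (S.add_mem_A p1 (S.smul_mem_A _ p2)) (S.smul_mem_A _ hfg),
        S.QL_add_φ hY hY p1 (S.smul_mem_A _ p2), S.QL_smul_φ _ hY hY p2, S.QL_smul_φ _ hY hY hfg]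
    have s2 : C.QL κ p q X Y (f * w) = C.QL κ p q X Y (f * g * (u * w))
        + ε * C.QL κ p q X Y (f * g * w) := by
      rw [q2, S.QL_add_φ hX hY puw (S.smul_mem_A _ pw), S.QL_smul_φ _ hX hY pw]
    have s3 : C.QL κ p q X X (f * v) + ε * C.QL κ p q X X f
        = C.QL κ p q X X (f * g * (w * w))
          + C.QL κ p q X X (f * g * ((u + E) * (v + E) - w * w)) := by
      rw [← S.QL_smul_φ ε hX hX hf, ← S.QL_add_φ hX hX (S.hC.mul_mem_A hf v1) (S.smul_mem_A _ hf),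
        q3, S.QL_add_φ hX hX pww hD]
    linarith only [n1, n2, s1, s2, s3]
  by_contra hneg
  rw [not_le] at hneg
  set A := C.QL κ p q Y Y (f * u) + C.QL κ p q X X (f * v) - 2 * C.QL κ p q X Y (f * w)
  set B := C.QL κ p q Y Y f + C.QL κ p q X X f
  have hB : 0 < |B| + 1 := by (clear * -; positivity)
  have := key (-A / (2 * (|B| + 1))) (by
    apply div_pos (by linarith) (by (clear * -; positivity)))
  have h3 : -A / (2 * (|B| + 1)) * B ≤ -A / 2 := by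
    rw [div_mul_eq_mul_div, div_le_div_iff₀ (by (clear * -; positivity)) (by positivity)]
    have := le_abs_self B
    nlinarith only [hneg, this]
  linarith

end Setup

end Vale.Agent.P233
end
end

section

section

open MeasureTheory Filter Topology
open scoped ENNReal NNReal

namespace Vale.Agent.P233

variable {M : Type*} [MeasurableSpace M] {m : Measure M} {C : Calc m}

namespace Setup

variable {κ : ℝ} {D₁ D₂ p q : (M →ₘ[m] ℝ) → (M →ₘ[m] ℝ)} (S : Setup C κ D₁ D₂ p q)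
variable {a b c d f g h k x φ ψ : M →ₘ[m] ℝ}
variable {X X' Y Y' Z : List ((M →ₘ[m] ℝ) × (M →ₘ[m] ℝ))}
include S

theorem GG_eq_GP (hb : b ∈ C.Test) (hd : d ∈ C.Test) :
    C.GG κ p q b d ψ = C.GP κ p q b d ψ + κ * I (ψ * C.Γ b d) := by
  unfold Calc.GG Calc.GP; ring

theorem ip_symm (hX : C.AV X) (hY : C.AV Y) : C.ip X Y = C.ip Y X := by
  rw [(S.ip_list hX hY).2.1, (S.ip_list hY hX).2.1]; ring

theorem GL_eq_QL (hX : C.AV X) (hY : C.AV Y) (hφ : φ ∈ C.A) :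
    C.GL κ p q X Y φ = C.QL κ p q X Y φ + κ * I (φ * C.ip X Y) := by
  unfold Calc.GL Calc.QL Calc.ip
  induction X with
  | nil => simp [I_zero]
  | cons r X ih =>
    simp only [List.map_cons, List.sum_cons]
    rw [ih hX.tail]
    have key : (List.map (fun s => C.GG κ p q r.2 s.2 (φ * (r.1 * s.1))) Y).sum
        = (List.map (fun s => C.GP κ p q r.2 s.2 (φ * (r.1 * s.1))) Y).sum
          + κ * I (φ * (List.map (fun s => r.1 * s.1 * C.Γ r.2 s.2) Y).sum)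
        ∧ (List.map (fun s => r.1 * s.1 * C.Γ r.2 s.2) Y).sum ∈ C.A := by
      clear ih
      induction Y with
      | nil => simpa [I_zero] using S.zero_mem_A
      | cons s Y ih2 =>
        obtain ⟨j1, j2⟩ := ih2 hY.tail
        have k1 := (S.ip_single hX.head.1 hX.head.2 hY.head.1 hY.head.2).1
        simp only [List.map_cons, List.sum_cons]
        refine ⟨?_, S.add_mem_A k1 j2⟩
        rw [j1, S.GG_eq_GP hX.head.2 hY.head.2, mul_add,
          I_add (mem_mul_22 (S.hC.memLp _ hφ.1) (S.hC.memLp _ k1.1))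
            (mem_mul_22 (S.hC.memLp _ hφ.1) (S.hC.memLp _ j2.1))]
        have : φ * (r.1 * s.1) * C.Γ r.2 s.2 = φ * (r.1 * s.1 * C.Γ r.2 s.2) := by ring
        rw [this]; ring
    have k2 := (S.ip_list hX.tail hY).1
    unfold Calc.ip at k2
    rw [key.1, mul_add, I_add (mem_mul_22 (S.hC.memLp _ hφ.1) (S.hC.memLp _ key.2.1))
      (mem_mul_22 (S.hC.memLp _ hφ.1) (S.hC.memLp _ k2.1))]
    ring

theorem main_ineq (hX : C.AV X) (hY : C.AV Y) (hf : f ∈ C.A) (h0 : 0 ≤ f) :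
    κ * I (f * (C.ip X X * C.ip Y Y - C.ip X Y ^ 2))
      ≤ I (rint (D₁ f) (D₂ f) f (C.fl D₁ D₂ p q X) (C.fl D₁ D₂ p q Y)) := by
  obtain ⟨u1, u2, u3, u4⟩ := S.ip_list hX hX
  obtain ⟨v1, v2, v3, v4⟩ := S.ip_list hY hY
  obtain ⟨w1, w2, w3, w4⟩ := S.ip_list hX hY
  have A1 := S.hC.mul_mem_A hf u1
  have A2 := S.hC.mul_mem_A hf w1
  have A3 := S.hC.mul_mem_A hf v1
  have mP := S.fl_mem hX
  have mQ := S.fl_mem hY
  have wX := S.mulV_AV hX w1
  have r1 := S.ric_list hY hY A1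
  have r2 := S.ric_list hY hX A2
  have r3 := S.ric_list hX hX A3
  have c1 := S.i1_list hX hY A2.1
  have c2 := S.i1_list wX hY hf.1
  rw [S.fl_mulV hX w1] at c2
  have id1 := identity1 (D₁ f) (D₂ f) f (C.fl D₁ D₂ p q X) (C.fl D₁ D₂ p q Y)
  have id2 := identity2 (D₁ f) (D₂ f) f (C.fl D₁ D₂ p q X) (C.fl D₁ D₂ p q Y)
  rw [← u2, ← w2] at id1
  rw [← u2, ← v2, ← w2] at id2
  have mW : MemF m (mulF (D₁ (C.ip X Y)) (D₂ (C.ip X Y)) (C.ip X Y) (C.fl D₁ D₂ p q X)) := by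
    rw [← S.fl_mulV hX w1]; exact S.fl_mem wX
  rw [w3, w4] at c2 mW
  have e1 : D₁ (f * C.ip X X) = C.ip X X * D₁ f + f * (2 * (C.fl D₁ D₂ p q X 2
      * C.fl D₁ D₂ p q X 0 + C.fl D₁ D₂ p q X 4 * C.fl D₁ D₂ p q X 1)) := by
    rw [S.hD.mul₁ S.hC hf u1, u3]; ring
  have e2 : D₂ (f * C.ip X X) = C.ip X X * D₂ f + f * (2 * (C.fl D₁ D₂ p q X 3
      * C.fl D₁ D₂ p q X 0 + C.fl D₁ D₂ p q X 5 * C.fl D₁ D₂ p q X 1)) := by
    rw [S.hD.mul₂ S.hC hf u1, u4]; ring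
  have e3 : D₁ (f * C.ip Y Y) = C.ip Y Y * D₁ f + f * (2 * (C.fl D₁ D₂ p q Y 2
      * C.fl D₁ D₂ p q Y 0 + C.fl D₁ D₂ p q Y 4 * C.fl D₁ D₂ p q Y 1)) := by
    rw [S.hD.mul₁ S.hC hf v1, v3]; ring
  have e4 : D₂ (f * C.ip Y Y) = C.ip Y Y * D₂ f + f * (2 * (C.fl D₁ D₂ p q Y 3
      * C.fl D₁ D₂ p q Y 0 + C.fl D₁ D₂ p q Y 5 * C.fl D₁ D₂ p q Y 1)) := by
    rw [S.hD.mul₂ S.hC hf v1, v4]; ring
  have e5 : D₁ (f * C.ip X Y) = C.ip X Y * D₁ f + f * (C.fl D₁ D₂ p q X 2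
      * C.fl D₁ D₂ p q Y 0 + C.fl D₁ D₂ p q X 4 * C.fl D₁ D₂ p q Y 1
      + (C.fl D₁ D₂ p q Y 2 * C.fl D₁ D₂ p q X 0
        + C.fl D₁ D₂ p q Y 4 * C.fl D₁ D₂ p q X 1)) := by
    rw [S.hD.mul₁ S.hC hf w1, w3]; ring
  have e6 : D₂ (f * C.ip X Y) = C.ip X Y * D₂ f + f * (C.fl D₁ D₂ p q X 3
      * C.fl D₁ D₂ p q Y 0 + C.fl D₁ D₂ p q X 5 * C.fl D₁ D₂ p q Y 1
      + (C.fl D₁ D₂ p q Y 3 * C.fl D₁ D₂ p q X 0
        + C.fl D₁ D₂ p q Y 5 * C.fl D₁ D₂ p q X 1)) := by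
    rw [S.hD.mul₂ S.hC hf w1, w4]; ring
  rw [← e1, ← e2, ← e5, ← e6] at id1
  rw [← e1, ← e2, ← e3, ← e4, ← e5, ← e6] at id2
  have m1 := mem_ric (S.D12 A1.1) (S.D22 A1.1) A1.2 mQ mQ
  have m2 := mem_ric (S.D12 A2.1) (S.D22 A2.1) A2.2 mQ mP
  have m3 := mem_ric (S.D12 A3.1) (S.D22 A3.1) A3.2 mP mP
  have m4 := mem_i1 (S.D12 A2.1) (S.D22 A2.1) mP mQ
  have m5 := mem_i1 (S.D12 hf.1) (S.D22 hf.1) mW mQ
  have f1 : I (rint (D₁ f) (D₂ f) f (C.fl D₁ D₂ p q X) (C.fl D₁ D₂ p q Y))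
      = C.GL κ p q Y Y (f * C.ip X X) - C.GL κ p q Y X (f * C.ip X Y) := by
    rw [id1, I_sub (mem_sub m1 m2) m4, I_sub m1 m2, r1, r2, c1, sub_zero]
  have f2 : C.GL κ p q Y Y (f * C.ip X X) - C.GL κ p q X X (f * C.ip Y Y) = 0 := by
    have := congrArg I id2
    have two : (2 : M →ₘ[m] ℝ) * i1 (D₁ (f * C.ip X Y)) (D₂ (f * C.ip X Y))
        (C.fl D₁ D₂ p q X) (C.fl D₁ D₂ p q Y) = (2 : ℝ) • i1 (D₁ (f * C.ip X Y))
        (D₂ (f * C.ip X Y)) (C.fl D₁ D₂ p q X) (C.fl D₁ D₂ p q Y) := by algebra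
    rw [I_sub m1 m3, r1, r3, two, I_sub (mem_smul _ m4) m5, I_smul, c1, c2] at this
    linarith only [this]
  have g1 := S.GL_eq_QL hY hY A1
  have g2 := S.GL_eq_QL hY hX A2
  have g3 := S.GL_eq_QL hX hX A3
  have pos := S.pos_comb hX hY hf h0
  have t1 : I (f * C.ip X X * C.ip Y Y) = I (f * (C.ip X X * C.ip Y Y)) := by congr 1; ring
  have t2 : I (f * C.ip Y Y * C.ip X X) = I (f * (C.ip X X * C.ip Y Y)) := by congr 1; ring
  have t3 : I (f * C.ip X Y * C.ip Y X) = I (f * C.ip X Y ^ 2) := by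
    rw [S.ip_symm hY hX]; congr 1; ring
  rw [t1] at g1
  rw [t3, S.QL_comm hY hX] at g2
  rw [t2] at g3
  have t4 : I (f * (C.ip X X * C.ip Y Y - C.ip X Y ^ 2))
      = I (f * (C.ip X X * C.ip Y Y)) - I (f * C.ip X Y ^ 2) := by
    rw [mul_sub, I_sub]
    · exact mem_mul_22 (S.hC.memLp _ hf.1) (S.hC.memLp _ (S.hC.mul_mem_A u1 v1).1)
    · rw [sq]
      exact mem_mul_22 (S.hC.memLp _ hf.1) (S.hC.memLp _ (S.hC.mul_mem_A w1 w1).1)
  rw [t4, f1]
  linarith only [f2, g1, g2, g3, pos]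

end Setup

end Vale.Agent.P233
end
end

section

section

open MeasureTheory Filter Topology
open scoped ENNReal NNReal InnerProductSpace

namespace Vale.Agent.P233

variable {M : Type*} [MeasurableSpace M] {m : Measure M} {C : Calc m}

/-- the components of `∇_X Y` -/
noncomputable def cv1 (P Q : Fin 6 → (M →ₘ[m] ℝ)) : M →ₘ[m] ℝ := Q 2 * P 0 + Q 3 * P 1
noncomputable def cv2 (P Q : Fin 6 → (M →ₘ[m] ℝ)) : M →ₘ[m] ℝ := Q 4 * P 0 + Q 5 * P 1
/-- the components of `(∇Y)ᵀ Z` -/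
noncomputable def ct1 (Q R : Fin 6 → (M →ₘ[m] ℝ)) : M →ₘ[m] ℝ := Q 2 * R 0 + Q 4 * R 1
noncomputable def ct2 (Q R : Fin 6 → (M →ₘ[m] ℝ)) : M →ₘ[m] ℝ := Q 3 * R 0 + Q 5 * R 1

theorem mem_cv1 {P Q : Fin 6 → (M →ₘ[m] ℝ)} (hP : MemF m P) (hQ : MemF m Q) :
    MemLp (cv1 P Q) 2 m := mem_add (mem_top_mul hQ.s2 hP.t0) (mem_top_mul hQ.s3 hP.t1)
theorem mem_cv2 {P Q : Fin 6 → (M →ₘ[m] ℝ)} (hP : MemF m P) (hQ : MemF m Q) :
    MemLp (cv2 P Q) 2 m := mem_add (mem_top_mul hQ.s4 hP.t0) (mem_top_mul hQ.s5 hP.t1)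
theorem mem_ct1 {Q R : Fin 6 → (M →ₘ[m] ℝ)} (hQ : MemF m Q) (hR : MemF m R) :
    MemLp (ct1 Q R) 2 m := mem_add (mem_top_mul hQ.s2 hR.t0) (mem_top_mul hQ.s4 hR.t1)
theorem mem_ct2 {Q R : Fin 6 → (M →ₘ[m] ℝ)} (hQ : MemF m Q) (hR : MemF m R) :
    MemLp (ct2 Q R) 2 m := mem_add (mem_top_mul hQ.s3 hR.t0) (mem_top_mul hQ.s5 hR.t1)

namespace Setup

variable {κ : ℝ} {D₁ D₂ p q : (M →ₘ[m] ℝ) → (M →ₘ[m] ℝ)} (S : Setup C κ D₁ D₂ p q)
variable {a b c d f g h k x φ ψ : M →ₘ[m] ℝ}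
variable {X X' Y Y' Z : List ((M →ₘ[m] ℝ) × (M →ₘ[m] ℝ))}
include S

theorem nab_single (r s t : (M →ₘ[m] ℝ) × (M →ₘ[m] ℝ)) (hr : r.1 ∈ C.A ∧ r.2 ∈ C.Test)
    (hs : s.1 ∈ C.A ∧ s.2 ∈ C.Test) (ht : t.1 ∈ C.A ∧ t.2 ∈ C.Test) :
    r.1 * t.1 * (C.Γ r.2 s.1 * C.Γ s.2 t.2 + s.1 * C.hess s.2 r.2 t.2)
      = cv1 (C.fd D₁ D₂ p q r) (C.fd D₁ D₂ p q s) * C.fd D₁ D₂ p q t 0
        + cv2 (C.fd D₁ D₂ p q r) (C.fd D₁ D₂ p q s) * C.fd D₁ D₂ p q t 1 := by
  rw [S.hess_eq hs.2 hr.2 ht.2, S.hD.Γ_eq _ (S.tW hr.2) _ hs.1.1,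
    S.hD.Γ_eq _ (S.tW hs.2) _ (S.tW ht.2)]
  simp only [cv1, cv2, Calc.fd, Matrix.cons_val, Fin.isValue]
  ring

theorem nab_list (hX : C.AV X) (hY : C.AV Y) (hZ : C.AV Z) :
    C.nab X Y Z = cv1 (C.fl D₁ D₂ p q X) (C.fl D₁ D₂ p q Y) * C.fl D₁ D₂ p q Z 0
      + cv2 (C.fl D₁ D₂ p q X) (C.fl D₁ D₂ p q Y) * C.fl D₁ D₂ p q Z 1 := by
  unfold Calc.nab
  induction X with
  | nil => simp [cv1, cv2, fl_nil]
  | cons r X ih =>
    simp only [List.map_cons, List.sum_cons]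
    rw [ih hX.tail]
    have key : (List.map (fun q => (List.map (fun t => r.1 * t.1 * (C.Γ r.2 q.1 * C.Γ q.2 t.2
        + q.1 * C.hess q.2 r.2 t.2)) Z).sum) Y).sum
        = cv1 (C.fd D₁ D₂ p q r) (C.fl D₁ D₂ p q Y) * C.fl D₁ D₂ p q Z 0
        + cv2 (C.fd D₁ D₂ p q r) (C.fl D₁ D₂ p q Y) * C.fl D₁ D₂ p q Z 1 := by
      clear ih
      induction Y with
      | nil => simp [cv1, cv2, fl_nil]
      | cons s Y ih =>
        simp only [List.map_cons, List.sum_cons]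
        rw [ih hY.tail]
        have key : (List.map (fun t => r.1 * t.1 * (C.Γ r.2 s.1 * C.Γ s.2 t.2
            + s.1 * C.hess s.2 r.2 t.2)) Z).sum
            = cv1 (C.fd D₁ D₂ p q r) (C.fd D₁ D₂ p q s) * C.fl D₁ D₂ p q Z 0
            + cv2 (C.fd D₁ D₂ p q r) (C.fd D₁ D₂ p q s) * C.fl D₁ D₂ p q Z 1 := by
          clear ih
          induction Z with
          | nil => simp [fl_nil]
          | cons t Z ih =>
            simp only [List.map_cons, List.sum_cons, fl_cons, Pi.add_apply]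
            rw [ih hZ.tail, S.nab_single r s t hX.head hY.head hZ.head]
            ring
        rw [key]
        simp only [fl_cons, cv1, cv2, Pi.add_apply]
        ring
    rw [key]
    simp only [fl_cons, cv1, cv2, Pi.add_apply]
    ring

theorem dv_list (hX : C.AV X) :
    C.dv X = C.fl D₁ D₂ p q X 2 + C.fl D₁ D₂ p q X 5 := by
  unfold Calc.dv
  induction X with
  | nil => simp [fl_nil]
  | cons r X ih =>
    simp only [List.map_cons, List.sum_cons, fl_cons, Pi.add_apply]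
    rw [ih hX.tail, S.hD.Γ_eq _ hX.head.1.1 _ (S.tW hX.head.2)]
    simp only [Calc.fd, Matrix.cons_val, Fin.isValue, Calc.H11, Calc.H22]
    algebra

/-- `(K₁,K₂)` is pointwise in the span of the gradients -/
def _root_.Vale.Agent.P233.InSpan (C : Calc m) (D₁ D₂ : (M →ₘ[m] ℝ) → (M →ₘ[m] ℝ))
    (K₁ K₂ : M →ₘ[m] ℝ) : Prop :=
  ∀ Z₁ Z₂ : M →ₘ[m] ℝ, MemLp Z₁ 2 m → MemLp Z₂ 2 m →
    (∀ h ∈ C.Test, Z₁ * D₁ h + Z₂ * D₂ h = 0) → Z₁ * K₁ + Z₂ * K₂ = 0

theorem span_hess (hb : b ∈ C.Test) (hg : g ∈ C.Test) {Z₁ Z₂ : M →ₘ[m] ℝ} (h1 : MemLp Z₁ 2 m)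
    (h2 : MemLp Z₂ 2 m) (H : ∀ h ∈ C.Test, Z₁ * D₁ h + Z₂ * D₂ h = 0) :
    Z₁ * (C.H11 p b * D₁ g + q b * D₂ g) + Z₂ * (q b * D₁ g + C.H22 p b * D₂ g) = 0 := by
  have s1 := S.hH.span b hb g hg Z₁ Z₂ h1 h2 H
  have s2 := H g hg
  have : Z₁ * (C.H11 p b * D₁ g + q b * D₂ g) + Z₂ * (q b * D₁ g + C.H22 p b * D₂ g)
      = (Z₁ * (p b * D₁ g + q b * D₂ g) + Z₂ * (q b * D₁ g - p b * D₂ g))
        + (2 : ℝ)⁻¹ • (C.lap b * (Z₁ * D₁ g + Z₂ * D₂ g)) := by
    unfold Calc.H11 Calc.H22; algebra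
  rw [this, s1, s2]; simp

theorem span_cv (hX : C.AV X) (hY : C.AV Y) :
    InSpan C D₁ D₂ (cv1 (C.fl D₁ D₂ p q X) (C.fl D₁ D₂ p q Y))
      (cv2 (C.fl D₁ D₂ p q X) (C.fl D₁ D₂ p q Y)) := by
  intro Z₁ Z₂ h1 h2 H
  induction X with
  | nil => simp [fl_nil, cv1, cv2]
  | cons r X ih =>
    have e2 := ih hX.tail
    have key : Z₁ * cv1 (C.fd D₁ D₂ p q r) (C.fl D₁ D₂ p q Y)
        + Z₂ * cv2 (C.fd D₁ D₂ p q r) (C.fl D₁ D₂ p q Y) = 0 := by
      clear e2 ih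
      induction Y with
      | nil => simp [fl_nil, cv1, cv2]
      | cons s Y ih =>
        have e3 := ih hY.tail
        have e4 := S.span_hess hY.head.2 hX.head.2 h1 h2 H
        have e5 := H s.2 hY.head.2
        simp only [cv1, cv2, fl_cons, Pi.add_apply, Calc.fd, Matrix.cons_val, Fin.isValue] at e3 ⊢
        linear_combination e3 + r.1 * s.1 * e4 + r.1 * (D₁ s.1 * D₁ r.2 + D₂ s.1 * D₂ r.2) * e5
    simp only [cv1, cv2, fl_cons, Pi.add_apply] at e2 key ⊢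
    linear_combination e2 + key

theorem span_ct (hY : C.AV Y) (hY' : C.IsTestV Y) (hZ : C.AV Z) :
    InSpan C D₁ D₂ (ct1 (C.fl D₁ D₂ p q Y) (C.fl D₁ D₂ p q Z))
      (ct2 (C.fl D₁ D₂ p q Y) (C.fl D₁ D₂ p q Z)) := by
  intro Z₁ Z₂ h1 h2 H
  induction Z with
  | nil => simp [fl_nil, ct1, ct2]
  | cons r Z ih =>
    have e2 := ih hZ.tail
    have key : Z₁ * ct1 (C.fl D₁ D₂ p q Y) (C.fd D₁ D₂ p q r)
        + Z₂ * ct2 (C.fl D₁ D₂ p q Y) (C.fd D₁ D₂ p q r) = 0 := by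
      clear e2 ih
      induction Y with
      | nil => simp [fl_nil, ct1, ct2]
      | cons s Y ih =>
        have e3 := ih hY.tail (fun t ht => hY' t (List.mem_cons_of_mem _ ht))
        have e4 := S.span_hess hY.head.2 hZ.head.2 h1 h2 H
        have e5 := H s.1 (hY' s List.mem_cons_self).1
        simp only [ct1, ct2, fl_cons, Pi.add_apply, Calc.fd, Matrix.cons_val, Fin.isValue] at e3 ⊢
        linear_combination e3 + r.1 * s.1 * e4 + r.1 * (D₁ s.2 * D₁ r.2 + D₂ s.2 * D₂ r.2) * e5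
    simp only [ct1, ct2, fl_cons, Pi.add_apply] at e2 key ⊢
    linear_combination e2 + key

end Setup

end Vale.Agent.P233
end
end

section

section

open MeasureTheory Filter Topology
open scoped ENNReal NNReal InnerProductSpace

namespace Vale.Agent.P233

variable {M : Type*} [MeasurableSpace M] {m : Measure M} {C : Calc m}

open Classical in
/-- an `L²` class as an element of `Lp` -/
noncomputable def lp (K : M →ₘ[m] ℝ) : Lp ℝ 2 m := if h : MemLp K 2 m then h.toLp K else 0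

theorem lp_inner {K K' : M →ₘ[m] ℝ} (h : MemLp K 2 m) (h' : MemLp K' 2 m) :
    ⟪lp K, lp K'⟫_ℝ = I (K * K') := by
  unfold lp
  rw [dif_pos h, dif_pos h', L2.inner_def]
  unfold I
  apply integral_congr_ae
  filter_upwards [h.coeFn_toLp, h'.coeFn_toLp, mul_ae K K'] with x h1 h2 h3
  rw [h1, h2, h3]
  simp [mul_comm]

theorem lp_coe (Z : Lp ℝ 2 m) : lp (Z : M →ₘ[m] ℝ) = Z := by
  have h : MemLp ((Z : M →ₘ[m] ℝ)) 2 m := Lp.memLp Z
  unfold lp
  rw [dif_pos h]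
  exact Lp.toLp_coeFn Z h

theorem lp_add {K K' : M →ₘ[m] ℝ} (h : MemLp K 2 m) (h' : MemLp K' 2 m) :
    lp (K + K') = lp K + lp K' := by
  unfold lp
  rw [dif_pos h, dif_pos h', dif_pos (mem_add h h'), ← MemLp.toLp_add]
  rw [MemLp.toLp_eq_toLp_iff]
  exact add_ae K K'

theorem lp_smul (t : ℝ) {K : M →ₘ[m] ℝ} (h : MemLp K 2 m) : lp (t • K) = t • lp K := by
  unfold lp
  rw [dif_pos h, dif_pos (mem_smul t h), ← MemLp.toLp_const_smul]
  rw [MemLp.toLp_eq_toLp_iff]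
  exact smul_ae K t

theorem lp_zero : lp (0 : M →ₘ[m] ℝ) = 0 := by
  have := lp_smul 0 (mem_zero (M := M) (m := m) (p := 2))
  simpa only [smul_zero, zero_smul] using this

/-- pairs of `L²` functions -/
abbrev KK2 (m : Measure M) := WithLp 2 (Lp ℝ 2 m × Lp ℝ 2 m)

noncomputable def kk (K₁ K₂ : M →ₘ[m] ℝ) : KK2 m := WithLp.toLp 2 (lp K₁, lp K₂)

theorem kk_inner {K₁ K₂ L₁ L₂ : M →ₘ[m] ℝ} (h1 : MemLp K₁ 2 m) (h2 : MemLp K₂ 2 m)
    (h3 : MemLp L₁ 2 m) (h4 : MemLp L₂ 2 m) :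
    ⟪kk K₁ K₂, kk L₁ L₂⟫_ℝ = I (K₁ * L₁ + K₂ * L₂) := by
  unfold kk
  rw [WithLp.prod_inner_apply]
  simp only
  rw [lp_inner h1 h3, lp_inner h2 h4, I_add (mem_mul_22 h1 h3) (mem_mul_22 h2 h4)]

theorem kk_add {K₁ K₂ L₁ L₂ : M →ₘ[m] ℝ} (h1 : MemLp K₁ 2 m) (h2 : MemLp K₂ 2 m)
    (h3 : MemLp L₁ 2 m) (h4 : MemLp L₂ 2 m) :
    kk (K₁ + L₁) (K₂ + L₂) = kk K₁ K₂ + kk L₁ L₂ := by
  unfold kk
  rw [lp_add h1 h3, lp_add h2 h4]
  rfl

theorem kk_smul (t : ℝ) {K₁ K₂ : M →ₘ[m] ℝ} (h1 : MemLp K₁ 2 m) (h2 : MemLp K₂ 2 m) :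
    kk (t • K₁) (t • K₂) = t • kk K₁ K₂ := by
  unfold kk
  rw [lp_smul t h1, lp_smul t h2]
  rfl

namespace Setup

variable {κ : ℝ} {D₁ D₂ p q : (M →ₘ[m] ℝ) → (M →ₘ[m] ℝ)} (S : Setup C κ D₁ D₂ p q)
variable {X Y Z : List ((M →ₘ[m] ℝ) × (M →ₘ[m] ℝ))}

/-- the representation of a test vector field as a pair of `L²` functions -/
noncomputable def _root_.Vale.Agent.P233.ee (C : Calc m)
    (D₁ D₂ p q : (M →ₘ[m] ℝ) → (M →ₘ[m] ℝ)) (X : List ((M →ₘ[m] ℝ) × (M →ₘ[m] ℝ))) : KK2 m :=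
  kk (C.fl D₁ D₂ p q X 0) (C.fl D₁ D₂ p q X 1)

include S

theorem ee_inner (hX : C.AV X) (hY : C.AV Y) :
    ⟪ee C D₁ D₂ p q X, ee C D₁ D₂ p q Y⟫_ℝ = ∫ x, C.ip X Y x ∂m := by
  have h1 := S.fl_mem hX
  have h2 := S.fl_mem hY
  unfold ee
  rw [kk_inner h1.s0 h1.s1 h2.s0 h2.s1, (S.ip_list hX hY).2.1]
  rfl

omit S in
theorem fl_append : C.fl D₁ D₂ p q (X ++ Y) = C.fl D₁ D₂ p q X + C.fl D₁ D₂ p q Y := by
  unfold Calc.fl; simp

omit S in
theorem fl_smul (t : ℝ) (hX : C.AV X) :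
    C.fl D₁ D₂ p q (X.map fun r => (t • r.1, r.2)) 0 = t • C.fl D₁ D₂ p q X 0 ∧
    C.fl D₁ D₂ p q (X.map fun r => (t • r.1, r.2)) 1 = t • C.fl D₁ D₂ p q X 1 := by
  induction X with
  | nil => simp [fl_nil]
  | cons r X ih =>
    obtain ⟨i1, i2⟩ := ih hX.tail
    simp only [List.map_cons, fl_cons, Pi.add_apply, i1, i2, Calc.fd, Matrix.cons_val,
      Fin.isValue]
    constructor <;> algebra

/-- the space of test vector fields, as a submodule of `L² × L²` -/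
noncomputable def _root_.Vale.Agent.P233.testSub (S : Setup C κ D₁ D₂ p q) :
    Submodule ℝ (KK2 m) where
  carrier := {v | ∃ T, C.IsTestV T ∧ ee C D₁ D₂ p q T = v}
  add_mem' := by
    rintro _ _ ⟨T, hT, rfl⟩ ⟨T', hT', rfl⟩
    refine ⟨T ++ T', fun r hr => ?_, ?_⟩
    · rcases List.mem_append.1 hr with h | h
      · exact hT r h
      · exact hT' r h
    · have h1 := S.fl_mem (S.testV_AV hT)
      have h2 := S.fl_mem (S.testV_AV hT')
      unfold ee
      rw [fl_append, Pi.add_apply, Pi.add_apply, kk_add h1.s0 h1.s1 h2.s0 h2.s1]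
  zero_mem' := by
    refine ⟨[], fun r hr => by simp at hr, ?_⟩
    unfold ee
    rw [fl_nil, Pi.zero_apply, Pi.zero_apply]
    unfold kk
    rw [lp_zero]
    rfl
  smul_mem' := by
    rintro t _ ⟨T, hT, rfl⟩
    refine ⟨T.map fun r => (t • r.1, r.2), fun r hr => ?_, ?_⟩
    · rw [List.mem_map] at hr
      obtain ⟨s, hs, rfl⟩ := hr
      exact ⟨S.hC.test_smul S.hB t (hT s hs).1, (hT s hs).2⟩
    · have h1 := S.fl_mem (S.testV_AV hT)
      unfold ee
      rw [(fl_smul t (S.testV_AV hT)).1, (fl_smul t (S.testV_AV hT)).2,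
        kk_smul t h1.s0 h1.s1]

theorem mem_closure {K₁ K₂ : M →ₘ[m] ℝ} (h1 : MemLp K₁ 2 m) (h2 : MemLp K₂ 2 m)
    (h : InSpan C D₁ D₂ K₁ K₂) : kk K₁ K₂ ∈ (testSub S).topologicalClosure := by
  have hsf := S.sf
  rw [← Submodule.orthogonal_orthogonal_eq_closure, Submodule.mem_orthogonal]
  intro Z hZ
  rw [Submodule.mem_orthogonal] at hZ
  set Z₁ : M →ₘ[m] ℝ := ((WithLp.ofLp Z).1 : M →ₘ[m] ℝ) with hZ1
  set Z₂ : M →ₘ[m] ℝ := ((WithLp.ofLp Z).2 : M →ₘ[m] ℝ) with hZ2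
  have hm1 : MemLp Z₁ 2 m := Lp.memLp _
  have hm2 : MemLp Z₂ 2 m := Lp.memLp _
  have hZe : Z = kk Z₁ Z₂ := by
    unfold kk
    rw [hZ1, hZ2, lp_coe, lp_coe]
  rw [hZe, kk_inner hm1 hm2 h1 h2, h Z₁ Z₂ hm1 hm2, I_zero]
  intro g hg
  apply S.hC.eq_zero_of_forall_test S.hB
    (mem_add (mem_mul_22 hm1 (S.D12 (S.tW hg))) (mem_mul_22 hm2 (S.D22 (S.tW hg))))
  intro s hs
  have hT : C.IsTestV [(s, g)] := by
    intro r hr
    simp only [List.mem_singleton] at hr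
    rw [hr]; exact ⟨hs, hg⟩
  have h3 := hZ (ee C D₁ D₂ p q [(s, g)]) ⟨_, hT, rfl⟩
  have h4 := S.fl_mem (S.testV_AV hT)
  unfold ee at h3
  rw [hZe, kk_inner h4.s0 h4.s1 hm1 hm2] at h3
  rw [← h3]
  congr 1
  simp only [fl_cons, fl_nil, Pi.add_apply, Pi.zero_apply, Calc.fd, Matrix.cons_val, Fin.isValue]
  ring

/-! ### transfer to an arbitrary model of `L²(TM)` -/

section model

variable {H : Type*} [NormedAddCommGroup H] [InnerProductSpace ℝ H]
  {ι : List ((M →ₘ[m] ℝ) × (M →ₘ[m] ℝ)) → H}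

/-- `V ∈ H` corresponds to `v ∈ L² × L²` -/
def _root_.Vale.Agent.P233.Rep (C : Calc m) (D₁ D₂ p q : (M →ₘ[m] ℝ) → (M →ₘ[m] ℝ))
    (ι : List ((M →ₘ[m] ℝ) × (M →ₘ[m] ℝ)) → H) (V : H) (v : KK2 m) : Prop :=
  ∃ T : ℕ → List ((M →ₘ[m] ℝ) × (M →ₘ[m] ℝ)), (∀ n, C.IsTestV (T n)) ∧
    Tendsto (fun n => ι (T n)) atTop (𝓝 V) ∧
    Tendsto (fun n => ee C D₁ D₂ p q (T n)) atTop (𝓝 v)

theorem iota_inner (hι : C.IsL2TM ι) (hX : C.IsTestV X) (hY : C.IsTestV Y) :
    ⟪ι X, ι Y⟫_ℝ = ⟪ee C D₁ D₂ p q X, ee C D₁ D₂ p q Y⟫_ℝ := by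
  rw [S.ee_inner (S.testV_AV hX) (S.testV_AV hY), hι.1 X Y hX hY]

theorem iota_norm_sub (hι : C.IsL2TM ι) (hX : C.IsTestV X) (hY : C.IsTestV Y) :
    ‖ι X - ι Y‖ = ‖ee C D₁ D₂ p q X - ee C D₁ D₂ p q Y‖ := by
  have h1 : ‖ι X - ι Y‖ ^ 2 = ‖ee C D₁ D₂ p q X - ee C D₁ D₂ p q Y‖ ^ 2 := by
    rw [← real_inner_self_eq_norm_sq, ← real_inner_self_eq_norm_sq]
    simp only [inner_sub_left, inner_sub_right]
    rw [S.iota_inner hι hX hX, S.iota_inner hι hX hY, S.iota_inner hι hY hX,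
      S.iota_inner hι hY hY]
  have := abs_eq_abs.2 (sq_eq_sq_iff_eq_or_eq_neg.1 h1)
  rwa [abs_of_nonneg (norm_nonneg _), abs_of_nonneg (norm_nonneg _)] at this

theorem rep_self (X) (hX : C.IsTestV X) : Rep C D₁ D₂ p q ι (ι X) (ee C D₁ D₂ p q X) :=
  ⟨fun _ => X, fun _ => hX, tendsto_const_nhds, tendsto_const_nhds⟩

theorem rep_inner (hι : C.IsL2TM ι) {V V' : H} {v v' : KK2 m} (h : Rep C D₁ D₂ p q ι V v)
    (h' : Rep C D₁ D₂ p q ι V' v') : ⟪V, V'⟫_ℝ = ⟪v, v'⟫_ℝ := by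
  obtain ⟨T, hT, h1, h2⟩ := h
  obtain ⟨T', hT', h1', h2'⟩ := h'
  have a1 := h1.inner (𝕜 := ℝ) h1'
  have a2 := h2.inner (𝕜 := ℝ) h2'
  refine tendsto_nhds_unique a1 (a2.congr fun n => ?_)
  rw [S.iota_inner hι (hT n) (hT' n)]

theorem rep_exists [CompleteSpace H] (hι : C.IsL2TM ι) {v : KK2 m}
    (hv : v ∈ (testSub S).topologicalClosure) : ∃ V, Rep C D₁ D₂ p q ι V v := by
  have hv' : v ∈ closure ((testSub S : Submodule ℝ (KK2 m)) : Set (KK2 m)) := by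
    rw [← Submodule.topologicalClosure_coe]; exact hv
  obtain ⟨u, hu, hlim⟩ := mem_closure_iff_seq_limit.1 hv'
  choose T hT hTu using fun n => (hu n : ∃ T, C.IsTestV T ∧ ee C D₁ D₂ p q T = u n)
  have hlim' : Tendsto (fun n => ee C D₁ D₂ p q (T n)) atTop (𝓝 v) :=
    hlim.congr fun n => (hTu n).symm
  have hc : CauchySeq (fun n => ee C D₁ D₂ p q (T n)) := hlim'.cauchySeq
  have hc2 : CauchySeq (fun n => ι (T n)) := by
    rw [Metric.cauchySeq_iff] at hc ⊢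
    intro ε hε
    obtain ⟨N, hN⟩ := hc ε hε
    refine ⟨N, fun a ha b hb => ?_⟩
    have := hN a ha b hb
    rw [dist_eq_norm] at this ⊢
    rwa [S.iota_norm_sub hι (hT a) (hT b)]
  obtain ⟨V, hV⟩ := cauchySeq_tendsto_of_complete hc2
  exact ⟨V, T, hT, hV, hlim'⟩

omit S in
theorem eq_of_inner (hι : C.IsL2TM ι) {V V' : H} (h : ∀ X, C.IsTestV X → ⟪V, ι X⟫_ℝ = ⟪V', ι X⟫_ℝ) :
    V = V' := by
  have h1 : ∀ w : H, ⟪V - V', w⟫_ℝ = 0 := by
    intro w
    have hcl : IsClosed {w : H | ⟪V - V', w⟫_ℝ = 0} :=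
      isClosed_eq (by fun_prop) continuous_const
    have : closure {v | ∃ X, C.IsTestV X ∧ ι X = v} ⊆ {w : H | ⟪V - V', w⟫_ℝ = 0} := by
      apply hcl.closure_subset_iff.2
      rintro _ ⟨X, hX, rfl⟩
      simp only [Set.mem_ofPred_eq, inner_sub_left]
      rw [h X hX, sub_self]
    have h2 := hι.2 w
    exact this h2
  have := h1 (V - V')
  rw [inner_self_eq_zero] at this
  exact sub_eq_zero.1 this

theorem cov_rep [CompleteSpace H] (hι : C.IsL2TM ι) (hX : C.AV X) (hY : C.AV Y) :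
    (∃ V, C.IsCov ι X Y V) ∧
    Rep C D₁ D₂ p q ι (C.cov ι X Y) (kk (cv1 (C.fl D₁ D₂ p q X) (C.fl D₁ D₂ p q Y))
      (cv2 (C.fl D₁ D₂ p q X) (C.fl D₁ D₂ p q Y))) := by
  have mX := S.fl_mem hX
  have mY := S.fl_mem hY
  have m1 := mem_cv1 mX mY
  have m2 := mem_cv2 mX mY
  obtain ⟨V, hV⟩ := S.rep_exists hι (S.mem_closure m1 m2 (S.span_cv hX hY))
  have hcov : C.IsCov ι X Y V := by
    intro Z hZ
    have mZ := S.fl_mem (S.testV_AV hZ)
    rw [S.rep_inner hι hV (S.rep_self Z hZ)]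
    unfold ee
    rw [kk_inner m1 m2 mZ.s0 mZ.s1, S.nab_list hX hY (S.testV_AV hZ)]
    rfl
  refine ⟨⟨V, hcov⟩, ?_⟩
  have hex : ∃ V, C.IsCov ι X Y V := ⟨V, hcov⟩
  have e : C.cov ι X Y = V := by
    have h1 : C.cov ι X Y = hex.choose := by unfold Calc.cov; rw [dif_pos hex]
    rw [h1]
    apply eq_of_inner hι
    intro Z hZ
    rw [hex.choose_spec Z hZ, hcov Z hZ]
  rw [e]; exact hV

theorem covT_rep [CompleteSpace H] (hι : C.IsL2TM ι) (hY : C.IsTestV Y) (hZ : C.AV Z) :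
    (∃ V, C.IsCovT ι Y Z V) ∧
    Rep C D₁ D₂ p q ι (C.covT ι Y Z) (kk (ct1 (C.fl D₁ D₂ p q Y) (C.fl D₁ D₂ p q Z))
      (ct2 (C.fl D₁ D₂ p q Y) (C.fl D₁ D₂ p q Z))) := by
  have mY := S.fl_mem (S.testV_AV hY)
  have mZ := S.fl_mem hZ
  have m1 := mem_ct1 mY mZ
  have m2 := mem_ct2 mY mZ
  obtain ⟨V, hV⟩ := S.rep_exists hι (S.mem_closure m1 m2 (S.span_ct (S.testV_AV hY) hY hZ))
  have hcov : C.IsCovT ι Y Z V := by
    intro X hX
    have mX := S.fl_mem (S.testV_AV hX)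
    rw [S.rep_inner hι hV (S.rep_self X hX)]
    unfold ee
    rw [kk_inner m1 m2 mX.s0 mX.s1, S.nab_list (S.testV_AV hX) (S.testV_AV hY) hZ]
    have e : ct1 (C.fl D₁ D₂ p q Y) (C.fl D₁ D₂ p q Z) * C.fl D₁ D₂ p q X 0
        + ct2 (C.fl D₁ D₂ p q Y) (C.fl D₁ D₂ p q Z) * C.fl D₁ D₂ p q X 1
        = cv1 (C.fl D₁ D₂ p q X) (C.fl D₁ D₂ p q Y) * C.fl D₁ D₂ p q Z 0
        + cv2 (C.fl D₁ D₂ p q X) (C.fl D₁ D₂ p q Y) * C.fl D₁ D₂ p q Z 1 := by
      simp only [ct1, ct2, cv1, cv2]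
      ring
    rw [e]
    rfl
  refine ⟨⟨V, hcov⟩, ?_⟩
  have hex : ∃ V, C.IsCovT ι Y Z V := ⟨V, hcov⟩
  have e : C.covT ι Y Z = V := by
    have h1 : C.covT ι Y Z = hex.choose := by unfold Calc.covT; rw [dif_pos hex]
    rw [h1]
    apply eq_of_inner hι
    intro Z hZ
    rw [hex.choose_spec Z hZ, hcov Z hZ]
  rw [e]; exact hV

end model

end Setup

end Vale.Agent.P233
end
end

section

section

open MeasureTheory Filter Topology
open scoped ENNReal NNReal InnerProductSpace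

universe u

namespace Vale.Agent.P233

namespace Setup

section curv

variable {M : Type*} [MeasurableSpace M] {m : Measure M} {C : Calc m}
variable {κ : ℝ} {D₁ D₂ p q : (M →ₘ[m] ℝ) → (M →ₘ[m] ℝ)} (S : Setup C κ D₁ D₂ p q)
variable {X Y Z : List ((M →ₘ[m] ℝ) × (M →ₘ[m] ℝ))} {f : M →ₘ[m] ℝ}
variable {H : Type*} [NormedAddCommGroup H] [InnerProductSpace ℝ H] [CompleteSpace H]
  {ι : List ((M →ₘ[m] ℝ) × (M →ₘ[m] ℝ)) → H}

/-- the integrand of the curvature functional -/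
theorem rint_eq (w1 w2 f : M →ₘ[m] ℝ) (P Q : Fin 6 → (M →ₘ[m] ℝ)) :
    rint w1 w2 f P Q =
      -(cv1 P (mulF w1 w2 f P) * cv1 Q Q + cv2 P (mulF w1 w2 f P) * cv2 Q Q)
      - f * (cv1 Q Q * P 0 + cv2 Q Q * P 1) * (P 2 + P 5)
      + (cv1 Q (mulF w1 w2 f P) * cv1 P Q + cv2 Q (mulF w1 w2 f P) * cv2 P Q)
      + f * (cv1 P Q * P 0 + cv2 P Q * P 1) * (Q 2 + Q 5)
      - ((cv1 P Q * ct1 Q (mulF w1 w2 f P) + cv2 P Q * ct2 Q (mulF w1 w2 f P))
        - (cv1 Q P * ct1 Q (mulF w1 w2 f P) + cv2 Q P * ct2 Q (mulF w1 w2 f P))) := by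
  simp only [rint, cv1, cv2, ct1, ct2, mulF, Matrix.cons_val, Fin.isValue]
  ring

theorem I_comb {a b c d e e' : M →ₘ[m] ℝ} (ha : MemLp a 1 m) (hb : MemLp b 1 m)
    (hc : MemLp c 1 m) (hd : MemLp d 1 m) (he : MemLp e 1 m) (he' : MemLp e' 1 m) :
    I (-a - b + c + d - (e - e')) = -I a - I b + I c + I d - (I e - I e') := by
  rw [I_sub (mem_add (mem_add (mem_sub (mem_neg ha) hb) hc) hd) (mem_sub he he'), I_sub he he',
    I_add (mem_add (mem_sub (mem_neg ha) hb) hc) hd, I_add (mem_sub (mem_neg ha) hb) hc,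
    I_sub (mem_neg ha) hb, I_neg]

include S

theorem curv_eq (hι : C.IsL2TM ι) (hX : C.IsTestV X) (hY : C.IsTestV Y) (hf : f ∈ C.Test) :
    C.curv ι X Y Y X f
      = I (rint (D₁ f) (D₂ f) f (C.fl D₁ D₂ p q X) (C.fl D₁ D₂ p q Y)) := by
  have aX := S.testV_AV hX
  have aY := S.testV_AV hY
  have aG := S.mulV_AV aX (S.tA hf)
  have mX := S.fl_mem aX
  have mY := S.fl_mem aY
  have mG := S.fl_mem aG
  have r1 := (S.cov_rep hι aX aG).2
  have r2 := (S.cov_rep hι aY aY).2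
  have r3 := (S.cov_rep hι aY aG).2
  have r4 := (S.cov_rep hι aX aY).2
  have r5 := (S.cov_rep hι aY aX).2
  have r6 := (S.covT_rep hι hY aG).2
  have i1 := S.rep_inner hι r1 r2
  have i2 := S.rep_inner hι r3 r4
  have i3 := S.rep_inner hι r4 r6
  have i4 := S.rep_inner hι r5 r6
  rw [kk_inner (mem_cv1 mX mG) (mem_cv2 mX mG) (mem_cv1 mY mY) (mem_cv2 mY mY)] at i1
  rw [kk_inner (mem_cv1 mY mG) (mem_cv2 mY mG) (mem_cv1 mX mY) (mem_cv2 mX mY)] at i2
  rw [kk_inner (mem_cv1 mX mY) (mem_cv2 mX mY) (mem_ct1 mY mG) (mem_ct2 mY mG)] at i3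
  rw [kk_inner (mem_cv1 mY mX) (mem_cv2 mY mX) (mem_ct1 mY mG) (mem_ct2 mY mG)] at i4
  have n1 := mem_add (mem_mul_22 (mem_cv1 mX mG) (mem_cv1 mY mY))
    (mem_mul_22 (mem_cv2 mX mG) (mem_cv2 mY mY))
  have n2 := mem_add (mem_mul_22 (mem_cv1 mY mG) (mem_cv1 mX mY))
    (mem_mul_22 (mem_cv2 mY mG) (mem_cv2 mX mY))
  have n3 := mem_add (mem_mul_22 (mem_cv1 mX mY) (mem_ct1 mY mG))
    (mem_mul_22 (mem_cv2 mX mY) (mem_ct2 mY mG))
  have n4 := mem_add (mem_mul_22 (mem_cv1 mY mX) (mem_ct1 mY mG))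
    (mem_mul_22 (mem_cv2 mY mX) (mem_ct2 mY mG))
  have d1 := S.dv_list aX
  have d2 := S.dv_list aY
  have b1 := S.nab_list aY aY aX
  have b2 := S.nab_list aX aY aX
  have n5 : MemLp (f * C.nab Y Y X * C.dv X) 1 m := by
    rw [b1, d1]
    exact mem_mul_22 (mem_mul_top (S.tT hf) (mem_add (mem_top_mul (mem_cv1 mY mY) mX.t0)
      (mem_top_mul (mem_cv2 mY mY) mX.t1))) (mem_add mX.s2 mX.s5)
  have n6 : MemLp (f * C.nab X Y X * C.dv Y) 1 m := by
    rw [b2, d2]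
    exact mem_mul_22 (mem_mul_top (S.tT hf) (mem_add (mem_top_mul (mem_cv1 mX mY) mX.t0)
      (mem_top_mul (mem_cv2 mX mY) mX.t1))) (mem_add mY.s2 mY.s5)
  have c5 : ∫ x, (f * C.nab Y Y X * C.dv X) x ∂m = I (f * C.nab Y Y X * C.dv X) := rfl
  have c6 : ∫ x, (f * C.nab X Y X * C.dv Y) x ∂m = I (f * C.nab X Y X * C.dv Y) := rfl
  unfold Calc.curv
  rw [inner_sub_left, i1, i2, i3, i4, c5, c6, ← I_comb n1 n5 n2 n6 n3 n4, rint_eq,
    b1, b2, d1, d2, S.fl_mulV aX (S.tA hf)]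

end curv

section model

variable {M : Type u} [MeasurableSpace M] {m : Measure M} {C : Calc m}
variable {κ : ℝ} {D₁ D₂ p q : (M →ₘ[m] ℝ) → (M →ₘ[m] ℝ)}

/-- existence of a model of `L²(TM)` -/
theorem exists_model (S : Setup C κ D₁ D₂ p q) :
    ∃ (H : Type u) (_ : NormedAddCommGroup H) (_ : InnerProductSpace ℝ H) (_ : CompleteSpace H)
      (ι : List ((M →ₘ[m] ℝ) × (M →ₘ[m] ℝ)) → H), C.IsL2TM ι := by
  classical
  refine ⟨(testSub S).topologicalClosure, inferInstance, inferInstance,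
    (testSub S).isClosed_topologicalClosure.completeSpace_coe,
    fun X => if h : C.IsTestV X then ⟨ee C D₁ D₂ p q X,
      (testSub S).le_topologicalClosure ⟨X, h, rfl⟩⟩ else 0, ?_, ?_⟩
  · intro X Y hX hY
    simp only [dif_pos hX, dif_pos hY]
    rw [← S.ee_inner (S.testV_AV hX) (S.testV_AV hY)]
    rfl
  · intro v
    rw [mem_closure_iff_seq_limit]
    have hv : (v : KK2 m) ∈ closure ((testSub S : Submodule ℝ (KK2 m)) : Set (KK2 m)) := by
      rw [← Submodule.topologicalClosure_coe]; exact v.2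
    obtain ⟨w, hw, hlim⟩ := mem_closure_iff_seq_limit.1 hv
    refine ⟨fun n => ⟨w n, (testSub S).le_topologicalClosure (hw n)⟩, fun n => ?_, ?_⟩
    · obtain ⟨X, hX, hXe⟩ := hw n
      refine ⟨X, hX, ?_⟩
      simp only [dif_pos hX]
      exact Subtype.ext hXe
    · rw [tendsto_subtype_rng]
      exact hlim

/-- The abstract theorem. -/
theorem main (S : Setup C κ D₁ D₂ p q) (H : Type*) [NormedAddCommGroup H] [InnerProductSpace ℝ H]
    [CompleteSpace H] (ι : List ((M →ₘ[m] ℝ) × (M →ₘ[m] ℝ)) → H) (hι : C.IsL2TM ι)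
    (X Y : List ((M →ₘ[m] ℝ) × (M →ₘ[m] ℝ))) (hX : C.IsTestV X) (hY : C.IsTestV Y)
    (f : M →ₘ[m] ℝ) (hf : f ∈ C.Test) (h0 : 0 ≤ f) :
    κ * ∫ x, (f * (C.ip X X * C.ip Y Y - C.ip X Y ^ 2)) x ∂m ≤ C.curv ι X Y Y X f := by
  rw [S.curv_eq hι hX hY hf]
  exact S.main_ineq (S.testV_AV hX) (S.testV_AV hY) (S.tA hf) h0

end model

end Setup

end Vale.Agent.P233
end
end

section

section

open MeasureTheory Filter Topology Set
open scoped ENNReal NNReal

namespace Vale.Agent.P233.Met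

variable {M : Type*} [MetricSpace M]

/-- globally Lipschitz functions -/
def IsLip (f : M → ℝ) : Prop := ∃ K : ℝ≥0, LipschitzWith K f

/-- pointwise bound of the local Lipschitz constant, in real terms -/
def LipBd (f : M → ℝ) (x : M) (c : ℝ) : Prop :=
  ∀ c' > c, ∀ᶠ y in 𝓝 x, |f y - f x| ≤ c' * dist y x

theorem lipAt_le_ofReal_iff {f : M → ℝ} {x : M} {c : ℝ} (hc : 0 ≤ c) :
    lipAt f x ≤ ENNReal.ofReal c ↔ LipBd f x c := by
  constructor
  · intro h c' hc'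
    have h1 : lipAt f x < ENNReal.ofReal c' :=
      lt_of_le_of_lt h ((ENNReal.ofReal_lt_ofReal_iff (lt_of_le_of_lt hc hc')).2 hc')
    have h2 := eventually_lt_of_limsup_lt h1
    rw [eventually_nhdsWithin_iff] at h2
    filter_upwards [h2] with y hy
    by_cases hyx : y = x
    · subst hyx; simp
    · have hd : 0 < dist y x := dist_pos.2 hyx
      have h3 := hy hyx
      have h4 := (ENNReal.ofReal_lt_ofReal_iff (lt_of_le_of_lt hc hc')).1 h3
      rw [div_lt_iff₀ hd] at h4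
      exact h4.le
  · intro h
    refine le_of_forall_gt_imp_ge_of_dense ?_
    intro a ha
    by_cases hat : a = ∞
    · subst hat; exact le_top
    obtain ⟨a', rfl⟩ : ∃ a' : ℝ≥0, a = a' := ⟨a.toNNReal, (ENNReal.coe_toNNReal hat).symm⟩
    have h1 : c < a' := by
      have := (ENNReal.ofReal_lt_coe_iff hc).1 ha
      exact this
    unfold lipAt
    refine limsup_le_of_le (by isBoundedDefault) ?_
    rw [eventually_nhdsWithin_iff]
    filter_upwards [h _ h1] with y hy hyx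
    have hd : 0 < dist y x := dist_pos.2 hyx
    rw [← ENNReal.ofReal_coe_nnreal]
    apply ENNReal.ofReal_le_ofReal
    rw [div_le_iff₀ hd]
    exact hy

theorem LipBd.mono {f : M → ℝ} {x : M} {c d : ℝ} (h : LipBd f x c) (hcd : c ≤ d) :
    LipBd f x d := fun c' hc' => h c' (lt_of_le_of_lt hcd hc')

theorem LipBd.add {f g : M → ℝ} {x : M} {a b : ℝ} (hf : LipBd f x a) (hg : LipBd g x b) :
    LipBd (f + g) x (a + b) := by
  intro c hc
  have h1 := hf (a + (c - a - b) / 2) (by linarith only [hc])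
  have h2 := hg (b + (c - a - b) / 2) (by linarith)
  filter_upwards [h1, h2] with y hy1 hy2
  have : (f + g) y - (f + g) x = (f y - f x) + (g y - g x) := by simp; ring
  rw [this]
  refine (abs_add_le _ _).trans ?_
  have : c * dist y x = (a + (c - a - b) / 2) * dist y x + (b + (c - a - b) / 2) * dist y x := by
    ring
  linarith only [hy1, hy2]

theorem LipBd.const_mul {f : M → ℝ} {x : M} {a : ℝ} (c : ℝ) (hf : LipBd f x a) :
    LipBd (fun y => c * f y) x (|c| * a) := by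
  intro b hb
  by_cases hc : c = 0
  · subst hc
    simp only [abs_zero, zero_mul] at hb
    filter_upwards with y
    simp only [zero_mul, sub_self, abs_zero]
    have := dist_nonneg (x := y) (y := x)
    positivity
  · have hc' : 0 < |c| := abs_pos.2 hc
    have h1 := hf (b / |c|) (by rw [gt_iff_lt, lt_div_iff₀ hc']; linarith [mul_comm |c| a])
    filter_upwards [h1] with y hy
    rw [← mul_sub, abs_mul]
    calc |c| * |f y - f x| ≤ |c| * (b / |c| * dist y x) := by gcongr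
      _ = b * dist y x := by field_simp

theorem LipBd.of_lipschitz {f : M → ℝ} {K : ℝ≥0} (hf : LipschitzWith K f) (x : M) :
    LipBd f x K := by
  intro c hc
  filter_upwards with y
  have := hf.dist_le_mul y x
  rw [Real.dist_eq] at this
  refine this.trans ?_
  have := dist_nonneg (x := y) (y := x)
  gcongr

theorem LipBd.comp {f : M → ℝ} {x : M} {a : ℝ} {φ : ℝ → ℝ} (hφ : ContDiff ℝ 1 φ)
    (hfc : ContinuousAt f x) (hf : LipBd f x a) :
    LipBd (fun y => φ (f y)) x (|deriv φ (f x)| * a) := by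
  intro b hb
  -- choose η with (|φ'|+η)(a+η) < b
  set p := |deriv φ (f x)| with hp
  have hp0 : 0 ≤ p := abs_nonneg _
  obtain ⟨η, hη, hηb⟩ : ∃ η > 0, (p + η) * (a + η) < b := by
    have hcont : Continuous (fun η : ℝ => (p + η) * (a + η)) := by fun_prop
    have h0 : (fun η : ℝ => (p + η) * (a + η)) 0 < b := by simpa using hb
    have := (hcont.continuousAt (x := 0)).eventually_lt continuousAt_const h0
    rw [Metric.eventually_nhds_iff] at this
    obtain ⟨ε, hε, h⟩ := this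
    refine ⟨ε / 2, by positivity, h ?_⟩
    simp [abs_of_pos hε, hε]
  -- derivative bound near f x
  have hd : HasStrictDerivAt φ (deriv φ (f x)) (f x) :=
    (hφ.contDiffAt.hasStrictDerivAt (by norm_num))
  have h1 : ∀ᶠ t in 𝓝 (f x), |φ t - φ (f x)| ≤ (p + η) * |t - f x| := by
    have h2 := hd.hasDerivAt.isLittleO.def hη
    filter_upwards [h2] with t ht
    rw [Real.norm_eq_abs, Real.norm_eq_abs] at ht
    have h3 : φ t - φ (f x) = (φ t - φ (f x) - (t - f x) • deriv φ (f x)) +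
        (t - f x) * deriv φ (f x) := by simp
    rw [h3]
    refine (abs_add_le _ _).trans ?_
    rw [abs_mul]
    have : |t - f x| * |deriv φ (f x)| = p * |t - f x| := by rw [hp]; ring
    linarith
  have h3 := hf (a + η) (by linarith)
  filter_upwards [h3, hfc.eventually h1] with y hy1 hy2
  refine hy2.trans ?_
  calc (p + η) * |f y - f x| ≤ (p + η) * ((a + η) * dist y x) := by (clear * - hy1 hη; gcongr)
    _ = ((p + η) * (a + η)) * dist y x := by ring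
    _ ≤ b * dist y x := by (clear * - hηb; gcongr)

theorem LipBd.mul {f g : M → ℝ} {x : M} {a b : ℝ}
    (hfc : ContinuousAt f x)
    (hf : LipBd f x a) (hg : LipBd g x b) :
    LipBd (fun y => f y * g y) x (|f x| * b + |g x| * a) := by
  intro c hc
  obtain ⟨η, hη, hηb⟩ : ∃ η > 0, (|f x| + η) * (b + η) + |g x| * (a + η) < c := by
    have hcont : Continuous (fun η : ℝ => (|f x| + η) * (b + η) + |g x| * (a + η)) := by fun_prop
    have h0 : (fun η : ℝ => (|f x| + η) * (b + η) + |g x| * (a + η)) 0 < c := by simpa using hc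
    have := (hcont.continuousAt (x := 0)).eventually_lt continuousAt_const h0
    rw [Metric.eventually_nhds_iff] at this
    obtain ⟨ε, hε, h⟩ := this
    refine ⟨ε / 2, by positivity, h ?_⟩
    simp [abs_of_pos hε, hε]
  have h1 := hf (a + η) (by linarith)
  have h2 := hg (b + η) (by linarith)
  have h3 : ∀ᶠ y in 𝓝 x, |f y| < |f x| + η := by
    have : ContinuousAt (fun y => |f y|) x := hfc.abs
    exact this.eventually_lt continuousAt_const (by simpa using hη)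
  filter_upwards [h1, h2, h3] with y hy1 hy2 hy3
  have : f y * g y - f x * g x = f y * (g y - g x) + g x * (f y - f x) := by ring
  rw [this]
  refine (abs_add_le _ _).trans ?_
  rw [abs_mul, abs_mul]
  calc |f y| * |g y - g x| + |g x| * |f y - f x|
      ≤ (|f x| + η) * ((b + η) * dist y x) + |g x| * ((a + η) * dist y x) := by (clear * - hy3 hy2 hη hy1; gcongr)
    _ = ((|f x| + η) * (b + η) + |g x| * (a + η)) * dist y x := by ring
    _ ≤ c * dist y x := by (clear * - hηb; gcongr)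

theorem IsLip.continuous {f : M → ℝ} (hf : IsLip f) : Continuous f := by
  obtain ⟨K, hK⟩ := hf; exact hK.continuous

theorem IsLip.add {f g : M → ℝ} (hf : IsLip f) (hg : IsLip g) : IsLip (f + g) := by
  obtain ⟨K, hK⟩ := hf; obtain ⟨L, hL⟩ := hg; exact ⟨K + L, hK.add hL⟩

theorem IsLip.const_mul {f : M → ℝ} (c : ℝ) (hf : IsLip f) : IsLip (fun y => c * f y) := by
  obtain ⟨K, hK⟩ := hf
  refine ⟨Real.toNNReal |c| * K, LipschitzWith.of_dist_le_mul fun x y => ?_⟩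
  rw [Real.dist_eq, ← mul_sub, abs_mul, NNReal.coe_mul, Real.coe_toNNReal _ (abs_nonneg c),
    mul_assoc]
  gcongr
  have := hK.dist_le_mul x y
  rwa [Real.dist_eq] at this

theorem IsLip.mul {f g : M → ℝ} (hf : IsLip f) (hg : IsLip g)
    (hfb : ∃ C, ∀ x, |f x| ≤ C) (hgb : ∃ C, ∀ x, |g x| ≤ C) : IsLip (fun x => f x * g x) := by
  obtain ⟨K, hK⟩ := hf; obtain ⟨L, hL⟩ := hg
  obtain ⟨C, hC⟩ := hfb; obtain ⟨D, hD⟩ := hgb
  refine ⟨Real.toNNReal (|C| * L + |D| * K), LipschitzWith.of_dist_le_mul fun x y => ?_⟩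
  have h1 := hK.dist_le_mul x y
  have h2 := hL.dist_le_mul x y
  rw [Real.dist_eq] at h1 h2
  rw [Real.coe_toNNReal _ (by (clear * -; positivity)), Real.dist_eq]
  have : f x * g x - f y * g y = f x * (g x - g y) + g y * (f x - f y) := by ring
  rw [this]
  refine (abs_add_le _ _).trans ?_
  rw [abs_mul, abs_mul]
  have h3 : |f x| ≤ |C| := (hC x).trans (le_abs_self C)
  have h4 : |g y| ≤ |D| := (hD y).trans (le_abs_self D)
  calc |f x| * |g x - g y| + |g y| * |f x - f y|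
      ≤ |C| * (L * dist x y) + |D| * (K * dist x y) := by gcongr
    _ = _ := by ring

theorem IsLip.comp {f : M → ℝ} (hf : IsLip f) {φ : ℝ → ℝ} {L : ℝ≥0} (hφ : LipschitzWith L φ) :
    IsLip (fun x => φ (f x)) := by
  obtain ⟨K, hK⟩ := hf
  exact ⟨L * K, hφ.comp hK⟩

end Vale.Agent.P233.Met
end
end

section

section

open MeasureTheory Filter Topology Set
open scoped ENNReal NNReal

namespace Vale.Agent.P233.Met

variable {M : Type*} [MeasurableSpace M] {m : Measure M}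

/-- dominated convergence in `L²` -/
theorem tendsto_eLpNorm_zero_of_dominated {F : ℕ → M → ℝ} {B : M → ℝ} (hB : MemLp B 2 m)
    (hF : ∀ k, AEStronglyMeasurable (F k) m) (hFB : ∀ k, ∀ᵐ x ∂m, |F k x| ≤ B x)
    (hlim : ∀ᵐ x ∂m, Tendsto (fun k => F k x) atTop (𝓝 0)) :
    Tendsto (fun k => eLpNorm (F k) 2 m) atTop (𝓝 0) := by
  have h2 : (2 : ℝ≥0∞) ≠ 0 := by norm_num
  have h2' : (2 : ℝ≥0∞) ≠ ∞ := by norm_num
  have key : Tendsto (fun k => ∫⁻ x, ‖F k x‖ₑ ^ (2 : ℝ) ∂m) atTop (𝓝 (∫⁻ _, 0 ∂m)) := by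
    refine tendsto_lintegral_of_dominated_convergence' (fun x => ‖B x‖ₑ ^ (2 : ℝ)) ?_ ?_ ?_ ?_
    · intro k
      exact (hF k).enorm.pow_const _
    · intro k
      filter_upwards [hFB k] with x hx
      have : ‖F k x‖ₑ ≤ ‖B x‖ₑ := by
        rw [Real.enorm_eq_ofReal_abs, Real.enorm_eq_ofReal_abs]
        exact ENNReal.ofReal_le_ofReal (hx.trans (le_abs_self _))
      gcongr
    · have := hB.eLpNorm_lt_top
      have h3 := (eLpNorm_lt_top_iff_lintegral_rpow_enorm_lt_top h2 h2').1 this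
      simpa only [ENNReal.rpow_ofNat, ne_eq, ENNReal.toReal_ofNat] using h3.ne
    · filter_upwards [hlim] with x hx
      have h3 : Tendsto (fun k => ‖F k x‖ₑ) atTop (𝓝 0) := by
        have := (continuous_enorm.tendsto (0 : ℝ)).comp hx
        simpa [Function.comp_def] using this
      have h4 := (ENNReal.continuous_rpow_const (y := (2 : ℝ))).tendsto 0 |>.comp h3
      simpa [Function.comp_def] using h4
  simp only [lintegral_const, zero_mul] at key
  have h5 : ∀ k, eLpNorm (F k) 2 m = (∫⁻ x, ‖F k x‖ₑ ^ (2 : ℝ) ∂m) ^ (1 / 2 : ℝ) := by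
    intro k
    rw [eLpNorm_eq_lintegral_rpow_enorm_toReal h2 h2']
    simp only [ENNReal.toReal_ofNat, ENNReal.rpow_ofNat, one_div]
  simp_rw [h5]
  have h6 := (ENNReal.continuous_rpow_const (y := (1 / 2 : ℝ))).tendsto 0 |>.comp key
  simpa only [ENNReal.rpow_ofNat, one_div, Function.comp_def, inv_pos, Nat.ofNat_pos,     ENNReal.zero_rpow_of_pos] using h6

/-- a subsequence converging almost everywhere -/
theorem exists_subseq_ae {u : ℕ → M → ℝ} {f : M → ℝ}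
    (hu : ∀ k, AEStronglyMeasurable (u k) m) (hf : AEStronglyMeasurable f m)
    (h : Tendsto (fun k => eLpNorm (u k - f) 2 m) atTop (𝓝 0)) :
    ∃ ns : ℕ → ℕ, StrictMono ns ∧ ∀ᵐ x ∂m, Tendsto (fun k => u (ns k) x) atTop (𝓝 (f x)) := by
  have h1 : TendstoInMeasure m u atTop f :=
    tendstoInMeasure_of_tendsto_eLpNorm (by norm_num) hu hf h
  exact h1.exists_seq_tendsto_ae

/-- `L²` limits of nonnegative functions are nonnegative -/
theorem nonneg_of_tendsto_L2 {g : ℕ → M → ℝ} {G : M → ℝ}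
    (hg : ∀ k, AEStronglyMeasurable (g k) m) (hG : AEStronglyMeasurable G m)
    (h : Tendsto (fun k => eLpNorm (g k - G) 2 m) atTop (𝓝 0)) (h0 : ∀ k, ∀ᵐ x ∂m, 0 ≤ g k x) :
    ∀ᵐ x ∂m, 0 ≤ G x := by
  obtain ⟨ns, -, hns⟩ := exists_subseq_ae hg hG h
  have h0' : ∀ᵐ x ∂m, ∀ k, 0 ≤ g k x := ae_all_iff.2 h0
  filter_upwards [hns, h0'] with x hx hx0
  exact ge_of_tendsto' hx (fun k => hx0 _)

end Vale.Agent.P233.Met
end
end

section

section

open MeasureTheory Filter Topology Set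
open scoped ENNReal NNReal

namespace Vale.Agent.P233.Met

variable {M : Type*} [MetricSpace M] [MeasurableSpace M] {m : Measure M}

/-- admissible pair: Lipschitz function with an `L²` bound of its local Lipschitz constant -/
def Good (m : Measure M) (u g : M → ℝ) : Prop :=
  IsLip u ∧ MemLp u 2 m ∧ MemLp g 2 m ∧ ∀ᵐ x ∂m, 0 ≤ g x ∧ lipAt u x ≤ ENNReal.ofReal (g x)

/-- `G` is a relaxed slope of `f` -/
def RSlope (m : Measure M) (f G : M → ℝ) : Prop :=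
  MemLp f 2 m ∧ MemLp G 2 m ∧ ∃ u g : ℕ → M → ℝ, (∀ k, Good m (u k) (g k)) ∧
    Tendsto (fun k => eLpNorm (u k - f) 2 m) atTop (𝓝 0) ∧
    Tendsto (fun k => eLpNorm (g k - G) 2 m) atTop (𝓝 0)

theorem Good.lipBd {u g : M → ℝ} (h : Good m u g) : ∀ᵐ x ∂m, 0 ≤ g x ∧ LipBd u x (g x) := by
  filter_upwards [h.2.2.2] with x hx
  exact ⟨hx.1, (lipAt_le_ofReal_iff hx.1).1 hx.2⟩

theorem Good.mk' {u g : M → ℝ} (h1 : IsLip u) (h2 : MemLp u 2 m) (h3 : MemLp g 2 m)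
    (h4 : ∀ᵐ x ∂m, 0 ≤ g x ∧ LipBd u x (g x)) : Good m u g := by
  refine ⟨h1, h2, h3, ?_⟩
  filter_upwards [h4] with x hx
  exact ⟨hx.1, (lipAt_le_ofReal_iff hx.1).2 hx.2⟩

theorem rSlope_iff_eps {f G : M → ℝ} :
    RSlope m f G ↔ MemLp f 2 m ∧ MemLp G 2 m ∧ ∀ ε : ℝ≥0∞, ε ≠ 0 →
      ∃ u g : M → ℝ, Good m u g ∧ eLpNorm (u - f) 2 m ≤ ε ∧ eLpNorm (g - G) 2 m ≤ ε := by
  constructor
  · rintro ⟨hf, hG, u, g, hug, h1, h2⟩
    refine ⟨hf, hG, fun ε hε => ?_⟩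
    have e1 := (h1.eventually (ge_mem_nhds (pos_iff_ne_zero.2 hε)))
    have e2 := (h2.eventually (ge_mem_nhds (pos_iff_ne_zero.2 hε)))
    obtain ⟨k, hk1, hk2⟩ := (e1.and e2).exists
    exact ⟨u k, g k, hug k, hk1, hk2⟩
  · rintro ⟨hf, hG, h⟩
    have hex : ∀ k : ℕ, ∃ p : (M → ℝ) × (M → ℝ), Good m p.1 p.2 ∧
        eLpNorm (p.1 - f) 2 m ≤ ((k : ℝ≥0∞) + 1)⁻¹ ∧
        eLpNorm (p.2 - G) 2 m ≤ ((k : ℝ≥0∞) + 1)⁻¹ := by
      intro k
      obtain ⟨u, g, h1, h2, h3⟩ := h ((k : ℝ≥0∞) + 1)⁻¹ (by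
        simp [ENNReal.inv_eq_zero])
      exact ⟨(u, g), h1, h2, h3⟩
    choose p hp1 hp2 hp3 using hex
    have hlim : Tendsto (fun k : ℕ => ((k : ℝ≥0∞) + 1)⁻¹) atTop (𝓝 0) := by
      have := ENNReal.tendsto_inv_nat_nhds_zero
      have h2 := this.comp (tendsto_add_atTop_nat 1)
      simpa only [Function.comp_def, Nat.cast_add, Nat.cast_one] using h2
    refine ⟨hf, hG, fun k => (p k).1, fun k => (p k).2, hp1, ?_, ?_⟩
    · exact tendsto_of_tendsto_of_tendsto_of_le_of_le tendsto_const_nhds hlim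
        (fun _ => zero_le) hp2
    · exact tendsto_of_tendsto_of_tendsto_of_le_of_le tendsto_const_nhds hlim
        (fun _ => zero_le) hp3

theorem Good.rSlope {u g : M → ℝ} (h : Good m u g) : RSlope m u g := by
  rw [rSlope_iff_eps]
  refine ⟨h.2.1, h.2.2.1, fun ε _ => ⟨u, g, h, ?_, ?_⟩⟩ <;> simp only [sub_self, eLpNorm_zero, zero_le]

theorem RSlope.congr {f G f' G' : M → ℝ} (h : RSlope m f G)
    (hf : f =ᵐ[m] f') (hG : G =ᵐ[m] G') : RSlope m f' G' := by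
  rw [rSlope_iff_eps] at h ⊢
  refine ⟨h.1.ae_eq hf, h.2.1.ae_eq hG, fun ε hε => ?_⟩
  obtain ⟨u, g, h1, h2, h3⟩ := h.2.2 ε hε
  refine ⟨u, g, h1, ?_, ?_⟩
  · rwa [eLpNorm_congr_ae (g := u - f)]
    filter_upwards [hf] with x hx; simp [hx]
  · rwa [eLpNorm_congr_ae (g := g - G)]
    filter_upwards [hG] with x hx; simp [hx]

theorem RSlope.nonneg {f G : M → ℝ} (h : RSlope m f G) : ∀ᵐ x ∂m, 0 ≤ G x := by
  obtain ⟨-, hG, u, g, hug, -, h2⟩ := h
  refine nonneg_of_tendsto_L2 (fun k => (hug k).2.2.1.1) hG.1 h2 (fun k => ?_)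
  filter_upwards [(hug k).2.2.2] with x hx using hx.1

/-- closure under strong `L²` convergence -/
theorem RSlope.of_eps {f G : M → ℝ} (hf : MemLp f 2 m) (hG : MemLp G 2 m)
    (h : ∀ ε : ℝ≥0∞, ε ≠ 0 → ∃ f' G' : M → ℝ, RSlope m f' G' ∧
      eLpNorm (f' - f) 2 m ≤ ε ∧ eLpNorm (G' - G) 2 m ≤ ε) : RSlope m f G := by
  rw [rSlope_iff_eps]
  refine ⟨hf, hG, fun ε hε => ?_⟩
  obtain ⟨f', G', hfG, h1, h2⟩ := h (ε / 2) (by simpa using hε)
  obtain ⟨u, g, hug, h3, h4⟩ := (rSlope_iff_eps.1 hfG).2.2 (ε / 2) (by simpa using hε)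
  refine ⟨u, g, hug, ?_, ?_⟩
  · have : u - f = (u - f') + (f' - f) := by simp
    rw [this]
    refine (eLpNorm_add_le (hug.2.1.1.sub hfG.1.1) (hfG.1.1.sub hf.1) (by norm_num)).trans ?_
    calc _ ≤ ε / 2 + ε / 2 := by (clear * - h3 h1; gcongr)
      _ = ε := ENNReal.add_halves ε
  · have : g - G = (g - G') + (G' - G) := by simp
    rw [this]
    refine (eLpNorm_add_le (hug.2.2.1.1.sub hfG.2.1.1) (hfG.2.1.1.sub hG.1) (by norm_num)).trans ?_
    calc _ ≤ ε / 2 + ε / 2 := by (clear * - h4 h2; gcongr)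
      _ = ε := ENNReal.add_halves ε

theorem RSlope.of_tendsto {f G : M → ℝ} {F H : ℕ → M → ℝ} (hf : MemLp f 2 m)
    (hG : MemLp G 2 m) (h : ∀ k, RSlope m (F k) (H k))
    (h1 : Tendsto (fun k => eLpNorm (F k - f) 2 m) atTop (𝓝 0))
    (h2 : Tendsto (fun k => eLpNorm (H k - G) 2 m) atTop (𝓝 0)) : RSlope m f G := by
  refine RSlope.of_eps hf hG fun ε hε => ?_
  have e1 := (h1.eventually (ge_mem_nhds (pos_iff_ne_zero.2 hε)))
  have e2 := (h2.eventually (ge_mem_nhds (pos_iff_ne_zero.2 hε)))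
  obtain ⟨k, hk1, hk2⟩ := (e1.and e2).exists
  exact ⟨F k, H k, h k, hk1, hk2⟩

theorem Good.add {u g v h : M → ℝ} (h1 : Good m u g) (h2 : Good m v h) :
    Good m (u + v) (g + h) := by
  refine Good.mk' (h1.1.add h2.1) (h1.2.1.add h2.2.1) (h1.2.2.1.add h2.2.2.1) ?_
  filter_upwards [h1.lipBd, h2.lipBd] with x hx hy
  exact ⟨add_nonneg hx.1 hy.1, hx.2.add hy.2⟩

theorem Good.const_mul {u g : M → ℝ} (c : ℝ) (h1 : Good m u g) :
    Good m (fun x => c * u x) (fun x => |c| * g x) := by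
  refine Good.mk' (h1.1.const_mul c) (h1.2.1.const_mul c) (h1.2.2.1.const_mul |c|) ?_
  filter_upwards [h1.lipBd] with x hx
  exact ⟨mul_nonneg (abs_nonneg c) hx.1, hx.2.const_mul c⟩

theorem RSlope.add {f G f' G' : M → ℝ} (h : RSlope m f G)
    (h' : RSlope m f' G') : RSlope m (f + f') (G + G') := by
  rw [rSlope_iff_eps] at *
  refine ⟨h.1.add h'.1, h.2.1.add h'.2.1, fun ε hε => ?_⟩
  obtain ⟨u, g, h1, h2, h3⟩ := h.2.2 (ε / 2) (by simpa using hε)
  obtain ⟨u', g', h1', h2', h3'⟩ := h'.2.2 (ε / 2) (by simpa using hε)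
  refine ⟨u + u', g + g', h1.add h1', ?_, ?_⟩
  · have : u + u' - (f + f') = (u - f) + (u' - f') := by abel
    rw [this]
    refine (eLpNorm_add_le (h1.2.1.1.sub h.1.1) (h1'.2.1.1.sub h'.1.1) (by norm_num)).trans ?_
    calc _ ≤ ε / 2 + ε / 2 := by (clear * - h2 h2'; gcongr)
      _ = ε := ENNReal.add_halves ε
  · have : g + g' - (G + G') = (g - G) + (g' - G') := by abel
    rw [this]
    refine (eLpNorm_add_le (h1.2.2.1.1.sub h.2.1.1) (h1'.2.2.1.1.sub h'.2.1.1)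
      (by norm_num)).trans ?_
    calc _ ≤ ε / 2 + ε / 2 := by (clear * - h3 h3'; gcongr)
      _ = ε := ENNReal.add_halves ε

theorem RSlope.const_mul {f G : M → ℝ} (c : ℝ) (h : RSlope m f G) :
    RSlope m (fun x => c * f x) (fun x => |c| * G x) := by
  rw [rSlope_iff_eps] at *
  refine ⟨h.1.const_mul c, h.2.1.const_mul |c|, fun ε hε => ?_⟩
  obtain ⟨u, g, h1, h2, h3⟩ := h.2.2 (ε / (ENNReal.ofReal |c| + 1)) (by
    rw [ne_eq, ENNReal.div_eq_zero_iff]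
    push Not
    exact ⟨hε, by simp⟩)
  have hkey : ENNReal.ofReal |c| * (ε / (ENNReal.ofReal |c| + 1)) ≤ ε := by
    calc ENNReal.ofReal |c| * (ε / (ENNReal.ofReal |c| + 1))
        ≤ (ENNReal.ofReal |c| + 1) * (ε / (ENNReal.ofReal |c| + 1)) := by
          gcongr; exact le_self_add
      _ ≤ ε := ENNReal.mul_div_le
  refine ⟨_, _, h1.const_mul c, ?_, ?_⟩
  · have : (fun x => c * u x) - (fun x => c * f x) = c • (u - f) := by
      ext x; simp [mul_sub]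
    rw [this, eLpNorm_const_smul]
    rw [Real.enorm_eq_ofReal_abs]
    exact (by gcongr : _ ≤ _).trans hkey
  · have : (fun x => |c| * g x) - (fun x => |c| * G x) = |c| • (g - G) := by
      ext x; simp [mul_sub]
    rw [this, eLpNorm_const_smul]
    rw [Real.enorm_eq_ofReal_abs, abs_abs]
    exact (by gcongr : _ ≤ _).trans hkey

/-- relaxed slopes are upward closed -/
theorem RSlope.mono {f G G' : M → ℝ} (h : RSlope m f G) (hG' : MemLp G' 2 m)
    (hle : ∀ᵐ x ∂m, G x ≤ G' x) : RSlope m f G' := by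
  rw [rSlope_iff_eps] at *
  refine ⟨h.1, hG', fun ε hε => ?_⟩
  obtain ⟨u, g, h1, h2, h3⟩ := h.2.2 ε hε
  refine ⟨u, g + (G' - G), ?_, h2, ?_⟩
  · refine Good.mk' h1.1 h1.2.1 (h1.2.2.1.add (hG'.sub h.2.1)) ?_
    filter_upwards [h1.lipBd, hle] with x hx hy
    simp only [Pi.add_apply, Pi.sub_apply]
    exact ⟨by linarith [hx.1], hx.2.mono (by linarith)⟩
  · have : g + (G' - G) - G' = g - G := by abel
    rwa [this]

theorem rSlope_zero : RSlope m (0 : M → ℝ) 0 := by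
  apply Good.rSlope
  refine Good.mk' ⟨0, LipschitzWith.const 0⟩ MemLp.zero MemLp.zero ?_
  filter_upwards with x
  refine ⟨le_rfl, fun c hc => ?_⟩
  filter_upwards with y
  have := dist_nonneg (x := y) (y := x)
  have hc' : 0 < c := hc
  simp only [Pi.zero_apply, sub_self, abs_zero]
  positivity

end Vale.Agent.P233.Met
end
end

section

section

open MeasureTheory Filter Topology Set
open scoped ENNReal NNReal

namespace Vale.Agent.P233.Met

variable {M : Type*} [MetricSpace M] [MeasurableSpace M] {m : Measure M}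

set_option linter.unusedSectionVars false

/-- truncation at height `n` -/
def trunc (n : ℝ) (t : ℝ) : ℝ := max (min t n) (-n)

theorem trunc_lip (n : ℝ) : LipschitzWith 1 (trunc n) := by
  unfold trunc
  exact (LipschitzWith.id.min_const n).max_const (-n)

theorem abs_trunc_sub_le (n s t : ℝ) : |trunc n s - trunc n t| ≤ |s - t| := by
  have := (trunc_lip n).dist_le_mul s t
  simpa [Real.dist_eq] using this

theorem abs_trunc_le {n : ℝ} (hn : 0 ≤ n) (t : ℝ) : |trunc n t| ≤ n := by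
  unfold trunc
  rw [abs_le]
  constructor
  · exact le_max_right _ _
  · exact max_le (min_le_right _ _) (by linarith)

theorem trunc_of_abs_le {n t : ℝ} (h : |t| ≤ n) : trunc n t = t := by
  unfold trunc
  rw [abs_le] at h
  rw [min_eq_left h.2, max_eq_left h.1]

theorem abs_trunc_le_abs {n : ℝ} (hn : 0 ≤ n) (t : ℝ) : |trunc n t| ≤ |t| := by
  have h0 : trunc n 0 = 0 := trunc_of_abs_le (by simpa only [abs_zero] using hn)
  have := abs_trunc_sub_le n t 0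
  simpa [h0] using this

theorem LipBd.trunc {f : M → ℝ} {x : M} {a : ℝ} (n : ℝ) (hf : LipBd f x a) :
    LipBd (fun y => trunc n (f y)) x a := by
  intro c hc
  filter_upwards [hf c hc] with y hy
  exact (abs_trunc_sub_le n _ _).trans hy

theorem Good.trunc {u g : M → ℝ} {n : ℝ} (hn : 0 ≤ n) (h : Good m u g) :
    Good m (fun x => trunc n (u x)) g := by
  refine Good.mk' (h.1.comp (trunc_lip n)) ?_ h.2.2.1 ?_
  · refine h.2.1.mono ((trunc_lip n).continuous.comp_aestronglyMeasurable h.2.1.1) ?_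
    filter_upwards with x
    simpa using abs_trunc_le_abs hn (u x)
  · filter_upwards [h.lipBd] with x hx
    exact ⟨hx.1, hx.2.trunc n⟩

theorem tendsto_trunc {f : M → ℝ} (hf : MemLp f 2 m) :
    Tendsto (fun k : ℕ => eLpNorm ((fun x => trunc k (f x)) - f) 2 m) atTop (𝓝 0) := by
  refine tendsto_eLpNorm_zero_of_dominated (B := fun x => 2 * |f x|) (hf.abs.const_mul 2) ?_ ?_ ?_
  · intro k
    exact ((trunc_lip k).continuous.comp_aestronglyMeasurable hf.1).sub hf.1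
  · intro k
    filter_upwards with x
    simp only [Pi.sub_apply]
    have h1 := abs_trunc_le_abs (n := (k : ℝ)) (by positivity) (f x)
    have h2 := abs_sub (trunc (k : ℝ) (f x)) (f x)
    linarith only [h1, h2]
  · filter_upwards with x
    obtain ⟨N, hN⟩ := exists_nat_ge |f x|
    refine tendsto_const_nhds.congr' ?_
    filter_upwards [eventually_ge_atTop N] with k hk
    have : |f x| ≤ (k : ℝ) := hN.trans (by exact_mod_cast hk)
    simp [trunc_of_abs_le this]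

/-- bounded approximating pairs -/
theorem RSlope.exists_bdd {f G : M → ℝ} (h : RSlope m f G) {ε : ℝ≥0∞}
    (hε : ε ≠ 0) : ∃ u g : M → ℝ, Good m u g ∧ (∃ C, ∀ x, |u x| ≤ C) ∧
      eLpNorm (u - f) 2 m ≤ ε ∧ eLpNorm (g - G) 2 m ≤ ε := by
  have hε2 : ε / 2 ≠ 0 := by simpa using hε
  obtain ⟨u, g, h1, h2, h3⟩ := (rSlope_iff_eps.1 h).2.2 (ε / 2) hε2
  have e1 := ((tendsto_trunc h1.2.1).eventually (ge_mem_nhds (pos_iff_ne_zero.2 hε2)))
  obtain ⟨k, hk⟩ := e1.exists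
  refine ⟨fun x => Met.trunc k (u x), g, h1.trunc (by positivity),
    ⟨k, fun x => abs_trunc_le (by positivity) _⟩, ?_, h3.trans ENNReal.half_le_self⟩
  have : (fun x => Met.trunc k (u x)) - f = ((fun x => Met.trunc k (u x)) - u) + (u - f) := by
    simp
  rw [this]
  refine (eLpNorm_add_le
    (((trunc_lip k).continuous.comp_aestronglyMeasurable h1.2.1.1).sub h1.2.1.1)
    (h1.2.1.1.sub h.1.1) (by norm_num)).trans ?_
  calc _ ≤ ε / 2 + ε / 2 := by (clear * - hk h2; gcongr)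
    _ = ε := ENNReal.add_halves ε

theorem LipBd.glue {u v χ : M → ℝ} {x : M} {a b K : ℝ} (ha : 0 ≤ a) (hb : 0 ≤ b) (hK : 0 ≤ K)
    (hχ0 : ∀ y, 0 ≤ χ y) (hχ1 : ∀ y, χ y ≤ 1) (hχc : ContinuousAt χ x) (hχ : LipBd χ x K)
    (hu : LipBd u x a) (hv : LipBd v x b) :
    LipBd (fun y => χ y * u y + (1 - χ y) * v y) x
      (χ x * a + (1 - χ x) * b + K * |u x - v x|) := by
  intro c hc
  obtain ⟨η, hη, hηb⟩ : ∃ η > 0, (χ x + η) * (a + η) + (1 - χ x + η) * (b + η) +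
      (K + η) * |u x - v x| < c := by
    have hcont : Continuous (fun η : ℝ => (χ x + η) * (a + η) + (1 - χ x + η) * (b + η) +
      (K + η) * |u x - v x|) := by fun_prop
    have h0 : (fun η : ℝ => (χ x + η) * (a + η) + (1 - χ x + η) * (b + η) +
      (K + η) * |u x - v x|) 0 < c := by simpa using hc
    have := (hcont.continuousAt (x := 0)).eventually_lt continuousAt_const h0
    rw [Metric.eventually_nhds_iff] at this
    obtain ⟨ε, hε, h⟩ := this
    refine ⟨ε / 2, by positivity, h ?_⟩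
    simp [abs_of_pos hε, hε]
  have h1 := hu (a + η) (by linarith)
  have h2 := hv (b + η) (by linarith)
  have h3 := hχ (K + η) (by linarith)
  have h4 : ∀ᶠ y in 𝓝 x, |χ y - χ x| < η := by
    filter_upwards [hχc (Metric.ball_mem_nhds _ hη)] with y hy
    simpa [Real.dist_eq] using hy
  filter_upwards [h1, h2, h3, h4] with y hy1 hy2 hy3 hy4
  have e : χ y * u y + (1 - χ y) * v y - (χ x * u x + (1 - χ x) * v x) =
    χ y * (u y - u x) + (1 - χ y) * (v y - v x) + (χ y - χ x) * (u x - v x) := by ring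
  rw [e]
  have hy5 := abs_lt.1 hy4
  have h1y : 0 ≤ 1 - χ y := by linarith only [hχ1 y]
  refine (abs_add_three _ _ _).trans ?_
  rw [abs_mul, abs_mul, abs_mul, abs_of_nonneg (hχ0 y), abs_of_nonneg h1y]
  calc χ y * |u y - u x| + (1 - χ y) * |v y - v x| + |χ y - χ x| * |u x - v x|
      ≤ (χ x + η) * ((a + η) * dist y x) + (1 - χ x + η) * ((b + η) * dist y x) +
        ((K + η) * dist y x) * |u x - v x| := by
        gcongr
        · linarith only [hη, hχ0 x]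
        · linarith
        · linarith [hχ1 x]
        · linarith
    _ = ((χ x + η) * (a + η) + (1 - χ x + η) * (b + η) +
      (K + η) * |u x - v x|) * dist y x := by ring
    _ ≤ c * dist y x := by (clear * - hηb; gcongr)

theorem Good.glue {u g v h χ : M → ℝ} {K : ℝ≥0} (hχ : LipschitzWith K χ)
    (hχ0 : ∀ y, 0 ≤ χ y) (hχ1 : ∀ y, χ y ≤ 1) [BorelSpace M]
    (hu : Good m u g) (hv : Good m v h) (hub : ∃ C, ∀ x, |u x| ≤ C) (hvb : ∃ C, ∀ x, |v x| ≤ C) :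
    Good m (fun x => χ x * u x + (1 - χ x) * v x)
      (fun x => χ x * g x + (1 - χ x) * h x + K * |u x - v x|) := by
  have hχL : IsLip χ := ⟨K, hχ⟩
  have hχm : AEStronglyMeasurable χ m := hχ.continuous.measurable.aestronglyMeasurable
  have hχm' : AEStronglyMeasurable (fun x => 1 - χ x) m :=
    (continuous_const.sub hχ.continuous).measurable.aestronglyMeasurable
  have hχb : ∃ C, ∀ x, |χ x| ≤ C := ⟨1, fun x => abs_le.2 ⟨by linarith [hχ0 x], hχ1 x⟩⟩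
  have hχL' : IsLip (fun x => 1 - χ x) := by
    refine ⟨K, LipschitzWith.of_dist_le_mul fun x y => ?_⟩
    have := hχ.dist_le_mul y x
    rw [Real.dist_eq] at this ⊢
    rw [dist_comm]
    have e : 1 - χ x - (1 - χ y) = χ y - χ x := by ring
    rwa [e]
  have hχb' : ∃ C, ∀ x, |1 - χ x| ≤ C :=
    ⟨1, fun x => abs_le.2 ⟨by linarith [hχ1 x], by linarith [hχ0 x]⟩⟩
  have mulmem : ∀ {w c : M → ℝ}, MemLp w 2 m → AEStronglyMeasurable c m → (∀ x, |c x| ≤ 1) →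
      MemLp (fun x => c x * w x) 2 m := by
    intro w c hw hc hc1
    refine hw.mono (hc.mul hw.1) ?_
    filter_upwards with x
    rw [norm_mul, Real.norm_eq_abs (c x)]
    calc |c x| * ‖w x‖ ≤ 1 * ‖w x‖ := by gcongr; exact hc1 x
      _ = _ := one_mul _
  have hc1 : ∀ x, |χ x| ≤ 1 := fun x => abs_le.2 ⟨by linarith [hχ0 x], hχ1 x⟩
  have hc2 : ∀ x, |1 - χ x| ≤ 1 := fun x => abs_le.2 ⟨by linarith [hχ1 x], by linarith [hχ0 x]⟩
  refine Good.mk' ?_ ?_ ?_ ?_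
  · exact (hχL.mul hu.1 hχb hub).add (hχL'.mul hv.1 hχb' hvb)
  · exact (mulmem hu.2.1 hχm hc1).add (mulmem hv.2.1 hχm' hc2)
  · exact ((mulmem hu.2.2.1 hχm hc1).add (mulmem hv.2.2.1 hχm' hc2)).add
      ((hu.2.1.sub hv.2.1).abs.const_mul (K : ℝ))
  · filter_upwards [hu.lipBd, hv.lipBd] with x hx hy
    refine ⟨?_, LipBd.glue hx.1 hy.1 K.2 hχ0 hχ1 hχ.continuous.continuousAt
      (LipBd.of_lipschitz hχ x) hx.2 hy.2⟩
    have := hχ0 x
    have h1 : 0 ≤ 1 - χ x := by linarith [hχ1 x]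
    have := hx.1
    have := hy.1
    positivity

/-- gluing with Lipschitz weights -/
theorem RSlope.glue [BorelSpace M] {f G H χ : M → ℝ} {K : ℝ≥0} (hχ : LipschitzWith K χ)
    (hχ0 : ∀ y, 0 ≤ χ y) (hχ1 : ∀ y, χ y ≤ 1)
    (hG : RSlope m f G) (hH : RSlope m f H) :
    RSlope m f (fun x => χ x * G x + (1 - χ x) * H x) := by
  have hχm : AEStronglyMeasurable χ m := hχ.continuous.measurable.aestronglyMeasurable
  have hχm' : AEStronglyMeasurable (fun x => 1 - χ x) m :=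
    (continuous_const.sub hχ.continuous).measurable.aestronglyMeasurable
  have hc1 : ∀ x, |χ x| ≤ 1 := fun x => abs_le.2 ⟨by linarith [hχ0 x], hχ1 x⟩
  have hc2 : ∀ x, |1 - χ x| ≤ 1 := fun x => abs_le.2 ⟨by linarith [hχ1 x], by linarith [hχ0 x]⟩
  have mulmem : ∀ {w c : M → ℝ}, MemLp w 2 m → AEStronglyMeasurable c m → (∀ x, |c x| ≤ 1) →
      MemLp (fun x => c x * w x) 2 m := by
    intro w c hw hc hc1
    refine hw.mono (hc.mul hw.1) ?_
    filter_upwards with x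
    rw [norm_mul, Real.norm_eq_abs (c x)]
    calc |c x| * ‖w x‖ ≤ 1 * ‖w x‖ := by gcongr; exact hc1 x
      _ = _ := one_mul _
  have mulnorm : ∀ {w c : M → ℝ}, (∀ x, |c x| ≤ 1) →
      eLpNorm (fun x => c x * w x) 2 m ≤ eLpNorm w 2 m := by
    intro w c hc1
    refine eLpNorm_mono fun x => ?_
    rw [norm_mul, Real.norm_eq_abs (c x)]
    calc |c x| * ‖w x‖ ≤ 1 * ‖w x‖ := by gcongr; exact hc1 x
      _ = _ := one_mul _
  refine RSlope.of_eps hG.1
    ((mulmem hG.2.1 hχm hc1).add (mulmem hH.2.1 hχm' hc2)) fun ε hε => ?_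
  set δ : ℝ≥0∞ := ε / (2 * (K + 2)) with hδ
  have hden : (2 * ((K : ℝ≥0∞) + 2)) ≠ ∞ := by
    refine ENNReal.mul_ne_top (by norm_num) (by simp)
  have hδ0 : δ ≠ 0 := by
    rw [hδ, ne_eq, ENNReal.div_eq_zero_iff]
    push Not
    exact ⟨hε, hden⟩
  have hδε : (2 * ((K : ℝ≥0∞) + 2)) * δ ≤ ε := ENNReal.mul_div_le
  obtain ⟨u, g, h1, hub, h2, h3⟩ := hG.exists_bdd hδ0
  obtain ⟨v, h, h1', hvb, h2', h3'⟩ := hH.exists_bdd hδ0
  have hgl := Good.glue hχ hχ0 hχ1 h1 h1' hub hvb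
  refine ⟨_, _, hgl.rSlope, ?_, ?_⟩
  · have e : (fun x => χ x * u x + (1 - χ x) * v x) - f =
        (fun x => χ x * (u - f) x) + (fun x => (1 - χ x) * (v - f) x) := by
      ext x; simp; ring
    rw [e]
    refine (eLpNorm_add_le (hχm.mul (h1.2.1.1.sub hG.1.1)) (hχm'.mul (h1'.2.1.1.sub hG.1.1))
      (by norm_num)).trans ?_
    calc _ ≤ δ + δ := by
          gcongr
          · exact (mulnorm hc1).trans h2
          · exact (mulnorm hc2).trans h2'
      _ = 2 * (1 * δ) := by rw [one_mul, two_mul]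
      _ ≤ 2 * (((K : ℝ≥0∞) + 2) * δ) := by
          gcongr
          calc (1 : ℝ≥0∞) ≤ 2 := by norm_num
            _ ≤ _ := le_add_self
      _ = (2 * ((K : ℝ≥0∞) + 2)) * δ := by ring
      _ ≤ ε := hδε
  · have e : (fun x => χ x * g x + (1 - χ x) * h x + K * |u x - v x|) -
        (fun x => χ x * G x + (1 - χ x) * H x) =
        ((fun x => χ x * (g - G) x) + (fun x => (1 - χ x) * (h - H) x)) +
          (K : ℝ) • (fun x => |u x - v x|) := by
      ext x; simp only [Pi.sub_apply, Pi.add_apply, Pi.smul_apply, smul_eq_mul]; ring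
    rw [e]
    have huv : eLpNorm (fun x => |u x - v x|) 2 m ≤ δ + δ := by
      have e1 : eLpNorm (fun x => |u x - v x|) 2 m = eLpNorm (u - v) 2 m :=
        eLpNorm_congr_norm_ae (by filter_upwards with x; simp)
      rw [e1]
      have e2 : u - v = (u - f) + (f - v) := by abel
      rw [e2]
      refine (eLpNorm_add_le (h1.2.1.1.sub hG.1.1) (hG.1.1.sub h1'.2.1.1) (by norm_num)).trans ?_
      gcongr
      rw [← eLpNorm_neg, neg_sub]
      exact h2'
    have hm3 : AEStronglyMeasurable ((K : ℝ) • (fun x => |u x - v x|)) m :=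
      (h1.2.1.1.sub h1'.2.1.1).norm.const_smul (K : ℝ)
    refine (eLpNorm_add_le ((hχm.mul (h1.2.2.1.1.sub hG.2.1.1)).add
      (hχm'.mul (h1'.2.2.1.1.sub hH.2.1.1))) hm3 (by norm_num)).trans ?_
    refine (add_le_add_left (eLpNorm_add_le (hχm.mul (h1.2.2.1.1.sub hG.2.1.1))
      (hχm'.mul (h1'.2.2.1.1.sub hH.2.1.1)) (by norm_num)) _).trans ?_
    rw [eLpNorm_const_smul]
    have hKe : ‖(K : ℝ)‖ₑ = (K : ℝ≥0∞) := by
      rw [Real.enorm_eq_ofReal K.coe_nonneg, ENNReal.ofReal_coe_nnreal]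
    rw [hKe]
    calc _ ≤ δ + δ + K * (δ + δ) := by
          gcongr
          · exact (mulnorm hc1).trans h3
          · exact (mulnorm hc2).trans h3'
      _ = (2 * (K + 1)) * δ := by ring
      _ ≤ (2 * ((K : ℝ≥0∞) + 2)) * δ := by
          gcongr
          norm_num
      _ ≤ ε := hδε

end Vale.Agent.P233.Met
end
end

section

section

open MeasureTheory Filter Topology Set
open scoped ENNReal NNReal

namespace Vale.Agent.P233.Met

variable {M : Type*} [MetricSpace M] [MeasurableSpace M] {m : Measure M}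

set_option linter.unusedSectionVars false

theorem RSlope.glue_closed [BorelSpace M] {f G H : M → ℝ} {F : Set M} (hF : IsClosed F)
    (hG : RSlope m f G) (hH : RSlope m f H) :
    RSlope m f (fun x => F.indicator (fun _ => (1 : ℝ)) x * G x +
      (1 - F.indicator (fun _ => (1 : ℝ)) x) * H x) := by
  set δ : ℕ → ℝ := fun n => 1 / ((n : ℝ) + 1) with hδ
  have hδ0 : ∀ n, 0 < δ n := fun n => by positivity
  have hδl : Tendsto δ atTop (𝓝 0) := tendsto_one_div_add_atTop_nhds_zero_nat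
  set χ : ℕ → M → ℝ := fun n x => (thickenedIndicator (hδ0 n) F x : ℝ) with hχ
  have hχ0 : ∀ n x, 0 ≤ χ n x := fun n x => NNReal.coe_nonneg _
  have hχ1 : ∀ n x, χ n x ≤ 1 := fun n x => by
    have := thickenedIndicator_le_one (hδ0 n) F x
    exact_mod_cast this
  have hχL : ∀ n, LipschitzWith (δ n).toNNReal⁻¹ (χ n) := fun n => by
    have := lipschitzWith_thickenedIndicator (hδ0 n) F
    refine LipschitzWith.of_dist_le_mul fun x y => ?_
    have h2 := this.dist_le_mul x y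
    rw [NNReal.dist_eq] at h2
    rw [Real.dist_eq]
    exact h2
  have hlim : ∀ x, Tendsto (fun n => χ n x) atTop (𝓝 (F.indicator (fun _ => (1 : ℝ)) x)) := by
    intro x
    have h1 := thickenedIndicator_tendsto_indicator_closure hδ0 hδl F
    rw [tendsto_pi_nhds] at h1
    have h2 := h1 x
    rw [hF.closure_eq] at h2
    have h3 := (NNReal.continuous_coe.tendsto _).comp h2
    have h4 : ((F.indicator (fun _ => (1 : ℝ≥0)) x : ℝ≥0) : ℝ) =
        F.indicator (fun _ => (1 : ℝ)) x := by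
      by_cases hx : x ∈ F <;> simp [hx]
    rw [h4] at h3
    exact h3
  have hind : AEStronglyMeasurable (F.indicator (fun _ => (1 : ℝ))) m :=
    (aestronglyMeasurable_const.indicator hF.measurableSet)
  have hi0 : ∀ x, 0 ≤ F.indicator (fun _ => (1 : ℝ)) x := fun x => by
    by_cases hx : x ∈ F <;> simp [hx]
  have hi1 : ∀ x, F.indicator (fun _ => (1 : ℝ)) x ≤ 1 := fun x => by
    by_cases hx : x ∈ F <;> simp [hx]
  refine RSlope.of_tendsto (F := fun _ => f)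
    (H := fun n => fun x => χ n x * G x + (1 - χ n x) * H x) hG.1 ?_ ?_ ?_ ?_
  · have e : (fun x => F.indicator (fun _ => (1 : ℝ)) x * G x +
      (1 - F.indicator (fun _ => (1 : ℝ)) x) * H x) =
      fun x => H x + F.indicator (fun _ => (1 : ℝ)) x * (G x - H x) := by
      ext x; ring
    rw [e]
    refine hH.2.1.add ((hG.2.1.sub hH.2.1).mono (hind.mul (hG.2.1.1.sub hH.2.1.1)) ?_)
    filter_upwards with x
    rw [norm_mul, Real.norm_eq_abs, abs_of_nonneg (hi0 x)]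
    calc _ ≤ 1 * ‖G x - H x‖ := by gcongr; exact hi1 x
      _ = _ := one_mul _
  · intro n
    exact RSlope.glue (hχL n) (hχ0 n) (hχ1 n) hG hH
  · simp only [sub_self, eLpNorm_zero, tendsto_const_nhds_iff]
  · refine tendsto_eLpNorm_zero_of_dominated (B := fun x => |G x - H x|)
      (hG.2.1.sub hH.2.1).abs ?_ ?_ ?_
    · intro n
      have h1 : AEStronglyMeasurable (χ n) m :=
        (hχL n).continuous.measurable.aestronglyMeasurable
      have h2 : AEStronglyMeasurable (fun x => 1 - χ n x) m :=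
        (continuous_const.sub (hχL n).continuous).measurable.aestronglyMeasurable
      have h3 : AEStronglyMeasurable (fun x => 1 - F.indicator (fun _ => (1 : ℝ)) x) m :=
        aestronglyMeasurable_const.sub hind
      exact ((h1.mul hG.2.1.1).add (h2.mul hH.2.1.1)).sub
        ((hind.mul hG.2.1.1).add (h3.mul hH.2.1.1))
    · intro n
      filter_upwards with x
      simp only [Pi.sub_apply]
      have e : χ n x * G x + (1 - χ n x) * H x - (F.indicator (fun _ => (1 : ℝ)) x * G x +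
        (1 - F.indicator (fun _ => (1 : ℝ)) x) * H x) =
        (χ n x - F.indicator (fun _ => (1 : ℝ)) x) * (G x - H x) := by ring
      rw [e, abs_mul]
      have h1 : |χ n x - F.indicator (fun _ => (1 : ℝ)) x| ≤ 1 := by
        rw [abs_le]
        constructor <;> linarith [hχ0 n x, hχ1 n x, hi0 x, hi1 x]
      calc _ ≤ 1 * |G x - H x| := by (clear * - h1; gcongr)
        _ = _ := one_mul _
    · filter_upwards with x
      simp only [Pi.sub_apply]
      have h1 := hlim x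
      have h2 : Tendsto (fun n => χ n x * G x + (1 - χ n x) * H x) atTop
          (𝓝 (F.indicator (fun _ => (1 : ℝ)) x * G x +
        (1 - F.indicator (fun _ => (1 : ℝ)) x) * H x)) :=
        (h1.mul_const _).add ((tendsto_const_nhds.sub h1).mul_const _)
      have h3 := h2.sub_const (F.indicator (fun _ => (1 : ℝ)) x * G x +
        (1 - F.indicator (fun _ => (1 : ℝ)) x) * H x)
      simpa only [sub_self] using h3

/-- gluing of relaxed slopes along a Borel set -/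
theorem RSlope.glue_measurable [BorelSpace M] {f G H : M → ℝ} {B : Set M}
    (hB : MeasurableSet B) (hG : RSlope m f G) (hH : RSlope m f H) :
    RSlope m f (fun x => B.indicator (fun _ => (1 : ℝ)) x * G x +
      (1 - B.indicator (fun _ => (1 : ℝ)) x) * H x) := by
  have hi0 : ∀ (B : Set M) x, 0 ≤ B.indicator (fun _ => (1 : ℝ)) x := fun B x => by
    by_cases hx : x ∈ B <;> simp [hx]
  have hi1 : ∀ (B : Set M) x, B.indicator (fun _ => (1 : ℝ)) x ≤ 1 := fun B x => by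
    by_cases hx : x ∈ B <;> simp [hx]
  have hindB : AEStronglyMeasurable (B.indicator (fun _ => (1 : ℝ))) m :=
    (aestronglyMeasurable_const.indicator hB)
  set D : M → ℝ := fun x => G x - H x with hD
  have hDm : MemLp D 2 m := hG.2.1.sub hH.2.1
  have hmem : MemLp (fun x => B.indicator (fun _ => (1 : ℝ)) x * G x +
      (1 - B.indicator (fun _ => (1 : ℝ)) x) * H x) 2 m := by
    have e : (fun x => B.indicator (fun _ => (1 : ℝ)) x * G x +
      (1 - B.indicator (fun _ => (1 : ℝ)) x) * H x) =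
      fun x => H x + B.indicator (fun _ => (1 : ℝ)) x * D x := by
      ext x; simp [hD]; ring
    rw [e]
    refine hH.2.1.add (hDm.mono (hindB.mul hDm.1) ?_)
    filter_upwards with x
    rw [norm_mul, Real.norm_eq_abs, abs_of_nonneg (hi0 B x)]
    calc _ ≤ 1 * ‖D x‖ := by gcongr; exact hi1 B x
      _ = _ := one_mul _
  -- the finite measure with density D^2
  set ν : Measure M := m.withDensity (fun x => ‖D x‖ₑ ^ (2 : ℝ)) with hν
  have h2 : (2 : ℝ≥0∞) ≠ 0 := by norm_num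
  have h2' : (2 : ℝ≥0∞) ≠ ∞ := by norm_num
  have hfin : ∫⁻ x, ‖D x‖ₑ ^ (2 : ℝ) ∂m < ∞ := by
    have := (eLpNorm_lt_top_iff_lintegral_rpow_enorm_lt_top h2 h2').1 hDm.eLpNorm_lt_top
    simpa only [ENNReal.rpow_ofNat, gt_iff_lt, ENNReal.toReal_ofNat] using this
  haveI : IsFiniteMeasure ν := by
    refine ⟨?_⟩
    rw [hν, withDensity_apply _ MeasurableSet.univ]
    simpa only [Measure.restrict_univ, ENNReal.rpow_ofNat] using hfin
  refine RSlope.of_eps hG.1 hmem fun ε hε => ?_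
  have hε2 : ε ^ (2 : ℝ) ≠ 0 := by
    rw [ne_eq, ENNReal.rpow_eq_zero_iff]
    push Not
    exact ⟨fun h => absurd h hε, fun h => by norm_num⟩
  obtain ⟨F, hFB, hFc, hF⟩ := hB.exists_isClosed_sdiff_lt (μ := ν) (measure_ne_top ν B) hε2
  refine ⟨f, _, RSlope.glue_closed hFc hG hH, by simp only [sub_self, eLpNorm_zero, zero_le], ?_⟩
  have e : (fun x => F.indicator (fun _ => (1 : ℝ)) x * G x +
      (1 - F.indicator (fun _ => (1 : ℝ)) x) * H x) -
      (fun x => B.indicator (fun _ => (1 : ℝ)) x * G x +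
      (1 - B.indicator (fun _ => (1 : ℝ)) x) * H x) =
      -((B \ F).indicator D) := by
    ext x
    by_cases hxF : x ∈ F
    · have hxB := hFB hxF
      simp [hxF, hxB]
    · by_cases hxB : x ∈ B
      · simp [hxF, hxB, hD]
      · simp only [Pi.sub_apply, hxF, not_false_eq_true, indicator_of_notMem, zero_mul, sub_zero, one_mul, zero_add, hxB, sub_self, Pi.neg_apply, Set.mem_sdiff, and_true, neg_zero]
  rw [e, eLpNorm_neg, eLpNorm_eq_lintegral_rpow_enorm_toReal h2 h2']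
  have hmeas : MeasurableSet (B \ F) := hB.diff hFc.measurableSet
  have e2 : ∫⁻ x, ‖(B \ F).indicator D x‖ₑ ^ (2 : ℝ≥0∞).toReal ∂m = ν (B \ F) := by
    rw [hν, withDensity_apply _ hmeas, ← lintegral_indicator hmeas]
    congr 1
    ext x
    by_cases hx : x ∈ B \ F
    · simp [hx]
    · simp [hx]
  rw [e2]
  have h3 : (ν (B \ F)) ^ (1 / (2 : ℝ≥0∞).toReal) ≤ (ε ^ (2 : ℝ)) ^ (1 / (2 : ℝ≥0∞).toReal) := by
    (clear * - hF; gcongr)
  refine h3.trans ?_
  rw [← ENNReal.rpow_mul]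
  simp

theorem RSlope.min [BorelSpace M] {f G H : M → ℝ}
    (hG : RSlope m f G) (hH : RSlope m f H) :
    RSlope m f (fun x => min (G x) (H x)) := by
  obtain ⟨G', hG'm, hGG'⟩ := hG.2.1.1
  obtain ⟨H', hH'm, hHH'⟩ := hH.2.1.1
  have hG2 := hG.congr (Filter.EventuallyEq.rfl) hGG'
  have hH2 := hH.congr (Filter.EventuallyEq.rfl) hHH'
  have hB : MeasurableSet {x | G' x ≤ H' x} :=
    measurableSet_le hG'm.measurable hH'm.measurable
  refine (RSlope.glue_measurable hB hG2 hH2).congr Filter.EventuallyEq.rfl ?_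
  filter_upwards [hGG', hHH'] with x hx hy
  by_cases h : G' x ≤ H' x
  · have : x ∈ {x | G' x ≤ H' x} := h
    simp [this, hx, hy, h]
  · have h' : x ∉ {x | G' x ≤ H' x} := h
    simp only [h', not_false_eq_true, indicator_of_notMem, zero_mul, sub_zero, one_mul, zero_add, hx, hy, (not_le.1 h).le, inf_of_le_right]

/-- the almost everywhere minimal relaxed slope -/
def RMin (m : Measure M) (f G : M → ℝ) : Prop :=
  RSlope m f G ∧ ∀ H, RSlope m f H → ∀ᵐ x ∂m, G x ≤ H x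

theorem exists_rmin [BorelSpace M] {f H : M → ℝ} (hH : RSlope m f H) :
    ∃ G, RMin m f G := by
  set K : Set (Lp ℝ 2 m) := {g | RSlope m f g} with hK
  have hne : K.Nonempty := ⟨hH.2.1.toLp, hH.congr Filter.EventuallyEq.rfl
    (hH.2.1.coeFn_toLp).symm⟩
  have hclosed : IsClosed K := by
    refine isClosed_of_closure_subset fun g hg => ?_
    rw [mem_closure_iff_seq_limit] at hg
    obtain ⟨s, hs, hlim⟩ := hg
    rw [Lp.tendsto_Lp_iff_tendsto_eLpNorm'] at hlim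
    exact RSlope.of_tendsto (F := fun _ => f) (H := fun n => s n) hH.1 (Lp.memLp g)
      hs (by simp only [sub_self, eLpNorm_zero, tendsto_const_nhds_iff]) hlim
  have hconv : Convex ℝ K := by
    intro g hg h hh a b ha hb hab
    have h1 := (RSlope.const_mul a hg).add (RSlope.const_mul b hh)
    refine h1.congr ?_ ?_
    · filter_upwards with x
      simp only [Pi.add_apply]
      rw [← add_mul, hab, one_mul]
    · filter_upwards [Lp.coeFn_add (a • g) (b • h), Lp.coeFn_smul a g, Lp.coeFn_smul b h]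
        with x hx1 hx2 hx3
      rw [hx1]
      simp only [Pi.add_apply, hx2, hx3, Pi.smul_apply, smul_eq_mul, abs_of_nonneg ha,
        abs_of_nonneg hb]
  obtain ⟨g, hgK, hg⟩ := exists_norm_eq_iInf_of_complete_convex hne hclosed.isComplete hconv 0
  simp only [zero_sub, norm_neg] at hg
  have hmin : ∀ h ∈ K, ‖g‖ ≤ ‖h‖ := by
    intro h hh
    rw [hg]
    exact ciInf_le (f := fun w : K => ‖(w : Lp ℝ 2 m)‖)
      ⟨0, by rintro _ ⟨w, rfl⟩; exact norm_nonneg _⟩ ⟨h, hh⟩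
  refine ⟨g, hgK, fun H hH' => ?_⟩
  have h1 := RSlope.min hgK hH'
  have h2 : h1.2.1.toLp ∈ K := h1.congr Filter.EventuallyEq.rfl (h1.2.1.coeFn_toLp).symm
  have h3 := hmin _ h2
  -- compare the squares
  have hg0 := RSlope.nonneg hgK
  have hH0 := RSlope.nonneg hH'
  have hint1 : Integrable (fun x => (g x) ^ 2) m := (Lp.memLp g).integrable_sq
  have hint2 : Integrable (fun x => (Min.min (g x) (H x)) ^ 2) m := h1.2.1.integrable_sq
  have h4 : ∫ x, (g x) ^ 2 ∂m ≤ ∫ x, (Min.min (g x) (H x)) ^ 2 ∂m := by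
    have e1 : ‖g‖ ^ 2 = ∫ x, (g x) ^ 2 ∂m := by
      rw [← real_inner_self_eq_norm_sq, L2.inner_def]
      simp only [inner_self_eq_norm_sq_to_K, Real.norm_eq_abs, Real.ringHom_apply, sq, abs_mul_abs_self]
    have e2 : ‖h1.2.1.toLp‖ ^ 2 = ∫ x, (Min.min (g x) (H x)) ^ 2 ∂m := by
      rw [← real_inner_self_eq_norm_sq, L2.inner_def]
      refine integral_congr_ae ?_
      filter_upwards [h1.2.1.coeFn_toLp] with x hx
      simp only [hx, inner_self_eq_norm_sq_to_K, Real.norm_eq_abs, Real.ringHom_apply, sq, abs_mul_abs_self]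
    rw [← e1, ← e2]
    (clear * - h1 h3; gcongr)
  have h5 : ∀ᵐ x ∂m, 0 ≤ (g x) ^ 2 - (Min.min (g x) (H x)) ^ 2 := by
    filter_upwards [hg0, hH0] with x hx hy
    have h6 : 0 ≤ Min.min (g x) (H x) := le_min hx hy
    have h7 : Min.min (g x) (H x) ≤ g x := min_le_left _ _
    nlinarith only [h7, h6]
  have h6 : ∫ x, ((g x) ^ 2 - (Min.min (g x) (H x)) ^ 2) ∂m = 0 := by
    have h7 : ∫ x, ((g x) ^ 2 - (Min.min (g x) (H x)) ^ 2) ∂m ≤ 0 := by
      rw [integral_sub hint1 hint2]; linarith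
    exact le_antisymm h7 (integral_nonneg_of_ae h5)
  have h7 := (integral_eq_zero_iff_of_nonneg_ae h5 (hint1.sub hint2)).1 h6
  filter_upwards [h7, hg0, hH0] with x hx hy hz
  simp only [Pi.zero_apply] at hx
  have h8 : 0 ≤ Min.min (g x) (H x) := le_min hy hz
  have h9 : g x = Min.min (g x) (H x) := by
    have := sq_eq_sq₀ hy h8
    exact this.1 (by linarith only [hx])
  rw [h9]
  exact min_le_right _ _

end Vale.Agent.P233.Met
end
end

section

section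

open MeasureTheory Filter Topology Set
open scoped ENNReal NNReal

namespace Vale.Agent.P233.Met

variable {M : Type*} [MetricSpace M] [MeasurableSpace M] {m : Measure M}

set_option linter.unusedSectionVars false

/-- monotone family of convex sets in a Hilbert space: the minimal norm points of the closures
converge -/
theorem exists_limit_min_norm {H : Type*} [NormedAddCommGroup H] [InnerProductSpace ℝ H]
    [CompleteSpace H] (S : ℕ → Set H) (hS : ∀ n, S (n + 1) ⊆ S n) (hconv : ∀ n, Convex ℝ (S n))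
    {C : ℝ} (hne : ∀ n, ∃ g ∈ S n, ‖g‖ ≤ C) :
    ∃ p : H, ∃ g : ℕ → H, (∀ n, g n ∈ S n) ∧ Tendsto g atTop (𝓝 p) ∧ ‖p‖ ≤ C := by
  have hex : ∀ n, ∃ v ∈ closure (S n), ‖(0 : H) - v‖ = ⨅ w : closure (S n), ‖(0 : H) - w‖ := by
    intro n
    obtain ⟨g, hg, -⟩ := hne n
    exact exists_norm_eq_iInf_of_complete_convex ⟨g, subset_closure hg⟩
      isClosed_closure.isComplete (hconv n).closure 0
  choose p hpS hp using hex
  simp only [zero_sub, norm_neg] at hp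
  have hmin : ∀ n, ∀ w ∈ closure (S n), ‖p n‖ ≤ ‖w‖ := by
    intro n w hw
    rw [hp n]
    exact ciInf_le (f := fun w : closure (S n) => ‖(w : H)‖)
      ⟨0, by rintro _ ⟨w, rfl⟩; exact norm_nonneg _⟩ ⟨w, hw⟩
  have hanti : Antitone S := antitone_nat_of_succ_le hS
  have hmono : Monotone (fun n => ‖p n‖) := by
    intro a b hab
    exact hmin a _ (closure_mono (hanti hab) (hpS b))
  have hbdd : ∀ n, ‖p n‖ ≤ C := by
    intro n
    obtain ⟨g, hg, hgC⟩ := hne n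
    exact (hmin n g (subset_closure hg)).trans hgC
  have hconvg : ∃ L, Tendsto (fun n => ‖p n‖) atTop (𝓝 L) :=
    ⟨_, tendsto_atTop_ciSup hmono ⟨C, by rintro _ ⟨n, rfl⟩; exact hbdd n⟩⟩
  obtain ⟨L, hL⟩ := hconvg
  have hpL : ∀ n, ‖p n‖ ≤ L := fun n => hmono.ge_of_tendsto hL n
  have hest : ∀ a b, a ≤ b → ‖p a - p b‖ ^ 2 ≤ 2 * (L ^ 2 - ‖p a‖ ^ 2) := by
    intro a b hab
    have hmid : (1 / 2 : ℝ) • p a + (1 / 2 : ℝ) • p b ∈ closure (S a) := by
      refine (hconv a).closure (hpS a) (closure_mono (hanti hab) (hpS b)) (by norm_num)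
        (by norm_num) (by norm_num)
    have h1 := hmin a _ hmid
    have h2 : ‖p a + p b‖ ^ 2 ≥ 4 * ‖p a‖ ^ 2 := by
      have h3 : (1 / 2 : ℝ) • p a + (1 / 2 : ℝ) • p b = (1 / 2 : ℝ) • (p a + p b) := by
        rw [smul_add]
      rw [h3, norm_smul] at h1
      have h4 : ‖(1 / 2 : ℝ)‖ = 1 / 2 := by norm_num
      rw [h4] at h1
      have h5 : 2 * ‖p a‖ ≤ ‖p a + p b‖ := by linarith only [h1]
      have h6 := norm_nonneg (p a)
      nlinarith only [h1, h6]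
    have h7 := parallelogram_law_with_norm ℝ (p a) (p b)
    have h8 : ‖p b‖ ^ 2 ≤ L ^ 2 := by
      have := hpL b
      have := norm_nonneg (p b)
      (clear hconv C hne hbdd a hab hmid h1 h2 h7 this; gcongr)
    linarith
  have hcauchy : CauchySeq p := by
    rw [Metric.cauchySeq_iff']
    intro ε hε
    have h1 : Tendsto (fun n => 2 * (L ^ 2 - ‖p n‖ ^ 2)) atTop (𝓝 (2 * (L ^ 2 - L ^ 2))) :=
      (tendsto_const_nhds.sub (hL.pow 2)).const_mul 2
    rw [sub_self, mul_zero] at h1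
    obtain ⟨N, hN⟩ := (h1.eventually (gt_mem_nhds (show (0 : ℝ) < ε ^ 2 by positivity))).exists
    refine ⟨N, fun n hn => ?_⟩
    rw [dist_comm, dist_eq_norm]
    have h2 := hest N n hn
    have h3 : ‖p N - p n‖ ^ 2 < ε ^ 2 := lt_of_le_of_lt h2 hN
    exact lt_of_pow_lt_pow_left₀ 2 hε.le h3
  obtain ⟨q, hq⟩ := cauchySeq_tendsto_of_complete hcauchy
  have hg : ∀ n, ∃ g ∈ S n, dist (p n) g < 1 / ((n : ℝ) + 1) := by
    intro n
    exact Metric.mem_closure_iff.1 (hpS n) _ (by positivity)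
  choose g hgS hg using hg
  refine ⟨q, g, hgS, ?_, ?_⟩
  · have h1 : Tendsto (fun n => dist (p n) (g n)) atTop (𝓝 0) :=
      squeeze_zero (fun _ => dist_nonneg) (fun n => (hg n).le)
        tendsto_one_div_add_atTop_nhds_zero_nat
    exact (tendsto_iff_of_dist h1).1 hq
  · exact le_of_tendsto hq.norm (Eventually.of_forall hbdd)

/-- lower semicontinuity: if `f` is an `L²` limit of functions with relaxed slopes bounded by `C`
in `L²`, then it has a relaxed slope bounded by `C` -/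
theorem exists_rSlope_of_bounded {f : M → ℝ} (hf : MemLp f 2 m) {C : ℝ≥0}
    (h : ∀ ε : ℝ≥0∞, ε ≠ 0 → ∃ f' G' : M → ℝ, RSlope m f' G' ∧
      eLpNorm (f' - f) 2 m ≤ ε ∧ eLpNorm G' 2 m ≤ C) :
    ∃ G, RSlope m f G ∧ eLpNorm G 2 m ≤ C := by
  set ε : ℕ → ℝ≥0∞ := fun n => ((n : ℝ≥0∞) + 1)⁻¹ with hε
  have hε0 : ∀ n, ε n ≠ 0 := fun n => by simp [hε, ENNReal.inv_eq_zero]
  have hεt : ∀ n, ε n ≠ ∞ := fun n => by simp only [hε, ne_eq, ENNReal.inv_eq_top, add_eq_zero, Nat.cast_eq_zero, one_ne_zero, and_false, not_false_eq_true]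
  have hεanti : ∀ n, ε (n + 1) ≤ ε n := fun n => by
    simp only [hε]
    gcongr
    push_cast
    exact le_self_add
  have hεlim : Tendsto ε atTop (𝓝 0) := by
    have := ENNReal.tendsto_inv_nat_nhds_zero
    have h2 := this.comp (tendsto_add_atTop_nat 1)
    simpa [Function.comp_def] using h2
  set S : ℕ → Set (Lp ℝ 2 m) := fun n =>
    {g | ∃ f', RSlope m f' g ∧ eLpNorm (f' - f) 2 m ≤ ε n} with hS
  have hSmono : ∀ n, S (n + 1) ⊆ S n := by
    rintro n g ⟨f', h1, h2⟩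
    exact ⟨f', h1, h2.trans (hεanti n)⟩
  have hconv : ∀ n, Convex ℝ (S n) := by
    rintro n g ⟨f1, hg1, hg2⟩ h' ⟨f2, hh1, hh2⟩ a b ha hb hab
    refine ⟨(fun x => a * f1 x) + (fun x => b * f2 x), ?_, ?_⟩
    · refine ((RSlope.const_mul a hg1).add (RSlope.const_mul b hh1)).congr
        Filter.EventuallyEq.rfl ?_
      filter_upwards [Lp.coeFn_add (a • g) (b • h'), Lp.coeFn_smul a g, Lp.coeFn_smul b h']
        with x hx1 hx2 hx3
      rw [hx1]
      simp only [Pi.add_apply, hx2, hx3, Pi.smul_apply, smul_eq_mul, abs_of_nonneg ha,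
        abs_of_nonneg hb]
    · have e : (fun x => a * f1 x) + (fun x => b * f2 x) - f = a • (f1 - f) + b • (f2 - f) := by
        ext x
        simp only [Pi.sub_apply, Pi.add_apply, Pi.smul_apply, smul_eq_mul]
        have : f x = (a + b) * f x := by rw [hab, one_mul]
        linear_combination (-1 : ℝ) * this
      rw [e]
      refine (eLpNorm_add_le ((hg1.1.1.sub hf.1).const_smul a) ((hh1.1.1.sub hf.1).const_smul b)
        (by norm_num)).trans ?_
      rw [eLpNorm_const_smul, eLpNorm_const_smul]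
      calc ‖a‖ₑ * eLpNorm (f1 - f) 2 m + ‖b‖ₑ * eLpNorm (f2 - f) 2 m
          ≤ ‖a‖ₑ * ε n + ‖b‖ₑ * ε n := by (clear * - hg2 hh2; gcongr)
        _ = (‖a‖ₑ + ‖b‖ₑ) * ε n := by ring
        _ = ε n := by
          rw [Real.enorm_eq_ofReal ha, Real.enorm_eq_ofReal hb, ← ENNReal.ofReal_add ha hb, hab]
          simp
  have hne : ∀ n, ∃ g ∈ S n, ‖g‖ ≤ (C : ℝ) := by
    intro n
    obtain ⟨f', G', h1, h2, h3⟩ := h (ε n) (hε0 n)
    refine ⟨h1.2.1.toLp, ⟨f', h1.congr Filter.EventuallyEq.rfl (h1.2.1.coeFn_toLp).symm, h2⟩, ?_⟩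
    rw [Lp.norm_toLp]
    have := ENNReal.toReal_mono (by simp) h3
    simpa only [ge_iff_le, ENNReal.coe_toReal] using this
  obtain ⟨p, g, hg, hgp, hpC⟩ := exists_limit_min_norm S hSmono hconv hne
  refine ⟨p, ?_, ?_⟩
  · choose f' hf'1 hf'2 using hg
    refine RSlope.of_tendsto (F := f') (H := fun n => g n) hf (Lp.memLp p) hf'1 ?_ ?_
    · exact tendsto_of_tendsto_of_tendsto_of_le_of_le tendsto_const_nhds hεlim
        (fun _ => zero_le) hf'2
    · rwa [Lp.tendsto_Lp_iff_tendsto_eLpNorm'] at hgp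
  · rw [Lp.norm_def] at hpC
    have h1 : eLpNorm p 2 m ≠ ∞ := (Lp.memLp p).eLpNorm_lt_top.ne
    rw [← ENNReal.ofReal_toReal h1, ← ENNReal.ofReal_coe_nnreal]
    exact ENNReal.ofReal_le_ofReal hpC

end Vale.Agent.P233.Met
end
end

section

section

open MeasureTheory Filter Topology Set
open scoped ENNReal NNReal

namespace Vale.Agent.P233.Met

variable {M : Type*} [MetricSpace M] [MeasurableSpace M] {m : Measure M}

set_option linter.unusedSectionVars false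

theorem memLp_bdd_mul {w c : M → ℝ} {C : ℝ} (hw : MemLp w 2 m) (hc : AEStronglyMeasurable c m)
    (hcb : ∀ᵐ x ∂m, |c x| ≤ C) : MemLp (fun x => c x * w x) 2 m := by
  refine (hw.const_mul C).mono (hc.mul hw.1) ?_
  filter_upwards [hcb] with x hx
  rw [norm_mul, norm_mul, Real.norm_eq_abs (c x), Real.norm_eq_abs C]
  exact mul_le_mul_of_nonneg_right (hx.trans (le_abs_self C)) (norm_nonneg _)

/-- convergence of products: bounded a.e. convergent times `L²` convergent -/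
theorem tendsto_mul_L2 {a : ℕ → M → ℝ} {A : M → ℝ} {g : ℕ → M → ℝ} {G : M → ℝ} {C : ℝ}
    (ha : ∀ k, AEStronglyMeasurable (a k) m) (hA : AEStronglyMeasurable A m)
    (haC : ∀ k, ∀ᵐ x ∂m, |a k x| ≤ C)
    (hlim : ∀ᵐ x ∂m, Tendsto (fun k => a k x) atTop (𝓝 (A x)))
    (hg : ∀ k, MemLp (g k) 2 m) (hG : MemLp G 2 m)
    (hgG : Tendsto (fun k => eLpNorm (g k - G) 2 m) atTop (𝓝 0)) :
    Tendsto (fun k => eLpNorm ((fun x => a k x * g k x) - (fun x => A x * G x)) 2 m) atTop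
      (𝓝 0) := by
  have haC' : ∀ᵐ x ∂m, ∀ k, |a k x| ≤ C := ae_all_iff.2 haC
  have hAC : ∀ᵐ x ∂m, |A x| ≤ C := by
    filter_upwards [hlim, haC'] with x hx hx2
    exact le_of_tendsto hx.abs (Eventually.of_forall hx2)
  have h1 : Tendsto (fun k => eLpNorm (fun x => (a k x - A x) * G x) 2 m) atTop (𝓝 0) := by
    refine tendsto_eLpNorm_zero_of_dominated (B := fun x => (2 * C) * |G x|)
      (hG.abs.const_mul (2 * C)) ?_ ?_ ?_
    · intro k; exact ((ha k).sub hA).mul hG.1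
    · intro k
      filter_upwards [haC k, hAC] with x hx hy
      rw [abs_mul]
      have : |a k x - A x| ≤ 2 * C := (abs_sub _ _).trans (by linarith)
      gcongr
    · filter_upwards [hlim] with x hx
      have := (hx.sub_const (A x)).mul_const (G x)
      simpa using this
  have h2 : Tendsto (fun k => eLpNorm (fun x => a k x * (g k - G) x) 2 m) atTop (𝓝 0) := by
    have h3 : Tendsto (fun k => ‖C‖ₑ * eLpNorm (g k - G) 2 m) atTop (𝓝 0) := by
      have := ENNReal.Tendsto.const_mul (a := ‖C‖ₑ) hgG (Or.inr (by simp))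
      simpa only [mul_zero] using this
    refine tendsto_of_tendsto_of_tendsto_of_le_of_le tendsto_const_nhds h3
      (fun _ => zero_le) (fun k => ?_)
    rw [← eLpNorm_const_smul]
    refine eLpNorm_mono_ae ?_
    filter_upwards [haC k] with x hx
    simp only [Pi.smul_apply, smul_eq_mul]
    rw [norm_mul, norm_mul, Real.norm_eq_abs (a k x), Real.norm_eq_abs C]
    exact mul_le_mul_of_nonneg_right (hx.trans (le_abs_self C)) (norm_nonneg _)
  have h3 := h1.add h2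
  rw [add_zero] at h3
  refine tendsto_of_tendsto_of_tendsto_of_le_of_le tendsto_const_nhds h3
    (fun _ => zero_le) (fun k => ?_)
  have e : (fun x => a k x * g k x) - (fun x => A x * G x) =
      (fun x => (a k x - A x) * G x) + (fun x => a k x * (g k - G) x) := by
    ext x; simp; ring
  rw [e]
  exact eLpNorm_add_le (((ha k).sub hA).mul hG.1) ((ha k).mul ((hg k).1.sub hG.1)) (by norm_num)

/-- `C¹` chain rule for relaxed slopes -/
theorem RSlope.comp {f G : M → ℝ} (h : RSlope m f G) {φ : ℝ → ℝ}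
    (hφ : ContDiff ℝ 1 φ) (hφ0 : φ 0 = 0) {L : ℝ≥0} (hL : ∀ t, |deriv φ t| ≤ L) :
    RSlope m (fun x => φ (f x)) (fun x => |deriv φ (f x)| * G x) := by
  have hφL : LipschitzWith L φ := by
    refine lipschitzWith_of_nnnorm_deriv_le (hφ.differentiable (by norm_num)) fun t => ?_
    have := hL t
    rw [← Real.norm_eq_abs] at this
    exact_mod_cast this
  have hdc : Continuous (deriv φ) := hφ.continuous_deriv (by norm_num)
  obtain ⟨hf, hG, u, g, hug, h1, h2⟩ := h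
  obtain ⟨ns, hns, hlim⟩ := exists_subseq_ae (fun k => (hug k).2.1.1) hf.1 h1
  have habs : ∀ w : M → ℝ, MemLp w 2 m → MemLp (fun x => φ (w x)) 2 m := by
    intro w hw
    refine (hw.const_mul (L : ℝ)).mono (hφL.continuous.comp_aestronglyMeasurable hw.1) ?_
    filter_upwards with x
    have := hφL.dist_le_mul (w x) 0
    rw [hφ0, dist_zero_right, dist_zero_right] at this
    rw [norm_mul, NNReal.norm_eq]
    exact this
  have hda : ∀ w : M → ℝ, AEStronglyMeasurable w m →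
      AEStronglyMeasurable (fun x => |deriv φ (w x)|) m := fun w hw =>
    (hdc.comp_aestronglyMeasurable hw).norm
  have hdb : ∀ w : M → ℝ, ∀ᵐ x ∂m, |(|deriv φ (w x)|)| ≤ (L : ℝ) := fun w => by
    filter_upwards with x
    rw [abs_abs]; exact hL _
  refine RSlope.of_tendsto (F := fun k x => φ (u (ns k) x))
    (H := fun k x => |deriv φ (u (ns k) x)| * g (ns k) x) (habs f hf)
    (memLp_bdd_mul hG (hda f hf.1) (hdb f)) ?_ ?_ ?_
  · intro k
    obtain ⟨hu1, hu2, hg, -⟩ := hug (ns k)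
    refine (Good.mk' (hu1.comp hφL) (habs _ hu2) (memLp_bdd_mul hg (hda _ hu2.1) (hdb _)) ?_
      ).rSlope
    filter_upwards [(hug (ns k)).lipBd] with x hx
    exact ⟨mul_nonneg (abs_nonneg _) hx.1, LipBd.comp hφ hu1.continuous.continuousAt hx.2⟩
  · have h3 : Tendsto (fun k => ‖(L : ℝ)‖ₑ * eLpNorm (u (ns k) - f) 2 m) atTop (𝓝 0) := by
      have := ENNReal.Tendsto.const_mul (a := ‖(L : ℝ)‖ₑ) (h1.comp hns.tendsto_atTop)
        (Or.inr (by simp))
      simpa only [NNReal.enorm_eq, Function.comp_apply, mul_zero] using this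
    refine tendsto_of_tendsto_of_tendsto_of_le_of_le tendsto_const_nhds h3
      (fun _ => zero_le) (fun k => ?_)
    rw [← eLpNorm_const_smul]
    refine eLpNorm_mono fun x => ?_
    have := hφL.dist_le_mul (u (ns k) x) (f x)
    rw [dist_eq_norm, dist_eq_norm] at this
    simp only [Pi.smul_apply, smul_eq_mul, Pi.sub_apply]
    rw [norm_mul, NNReal.norm_eq]
    exact this
  · refine tendsto_mul_L2 (fun k => hda _ (hug _).2.1.1) (hda f hf.1) (fun k => hdb _) ?_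
      (fun k => (hug (ns k)).2.2.1) hG (h2.comp hns.tendsto_atTop)
    filter_upwards [hlim] with x hx
    exact ((hdc.tendsto _).comp hx).abs

/-- approximants respecting an `L^∞` bound -/
theorem RSlope.exists_seq_bdd {f G : M → ℝ} (h : RSlope m f G) {C : ℝ}
    (hC : 0 ≤ C) (hfC : ∀ᵐ x ∂m, |f x| ≤ C) :
    ∃ u g : ℕ → M → ℝ, (∀ k, Good m (u k) (g k) ∧ ∀ x, |u k x| ≤ C) ∧
      Tendsto (fun k => eLpNorm (u k - f) 2 m) atTop (𝓝 0) ∧
      Tendsto (fun k => eLpNorm (g k - G) 2 m) atTop (𝓝 0) ∧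
      ∀ᵐ x ∂m, Tendsto (fun k => u k x) atTop (𝓝 (f x)) := by
  obtain ⟨hf, hG, u, g, hug, h1, h2⟩ := h
  have h1' : Tendsto (fun k => eLpNorm ((fun x => trunc C (u k x)) - f) 2 m) atTop (𝓝 0) := by
    refine tendsto_of_tendsto_of_tendsto_of_le_of_le tendsto_const_nhds h1
      (fun _ => zero_le) (fun k => ?_)
    refine eLpNorm_mono_ae ?_
    filter_upwards [hfC] with x hx
    simp only [Pi.sub_apply]
    nth_rewrite 1 [← trunc_of_abs_le hx]
    exact abs_trunc_sub_le _ _ _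
  obtain ⟨ns, hns, hlim⟩ := exists_subseq_ae
    (fun k => ((hug k).trunc (n := C) hC).2.1.1) hf.1 h1'
  exact ⟨fun k x => trunc C (u (ns k) x), fun k => g (ns k),
    fun k => ⟨(hug _).trunc hC, fun x => abs_trunc_le hC _⟩,
    h1'.comp hns.tendsto_atTop, h2.comp hns.tendsto_atTop, hlim⟩

/-- Leibniz inequality for relaxed slopes of bounded functions -/
theorem RSlope.mul {f G g H : M → ℝ} (hf : RSlope m f G)
    (hg : RSlope m g H) {C D : ℝ} (hC : 0 ≤ C) (hD : 0 ≤ D) [BorelSpace M]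
    (hfC : ∀ᵐ x ∂m, |f x| ≤ C) (hgD : ∀ᵐ x ∂m, |g x| ≤ D) :
    RSlope m (fun x => f x * g x) (fun x => |f x| * H x + |g x| * G x) := by
  obtain ⟨u, p, hup, hu1, hu2, hu3⟩ := hf.exists_seq_bdd hC hfC
  obtain ⟨v, q, hvq, hv1, hv2, hv3⟩ := hg.exists_seq_bdd hD hgD
  have habs : ∀ {w : M → ℝ}, AEStronglyMeasurable w m → AEStronglyMeasurable (fun x => |w x|) m :=
    fun hw => hw.norm
  refine RSlope.of_tendsto (F := fun k x => u k x * v k x)
    (H := fun k x => |u k x| * q k x + |v k x| * p k x)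
    (memLp_bdd_mul hg.1 hf.1.1 hfC)
    ((memLp_bdd_mul hg.2.1 (habs hf.1.1) (C := C) (by simpa only [abs_abs] using hfC)).add
      (memLp_bdd_mul hf.2.1 (habs hg.1.1) (C := D) (by simpa using hgD))) ?_ ?_ ?_
  · intro k
    obtain ⟨h1, h1b⟩ := hup k
    obtain ⟨h2, h2b⟩ := hvq k
    refine (Good.mk' (h1.1.mul h2.1 ⟨C, h1b⟩ ⟨D, h2b⟩)
      (memLp_bdd_mul h2.2.1 h1.2.1.1 (Eventually.of_forall h1b)) ?_ ?_).rSlope
    · exact (memLp_bdd_mul h2.2.2.1 (habs h1.2.1.1) (C := C)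
          (Eventually.of_forall (by simpa only [abs_abs] using h1b))).add
        (memLp_bdd_mul h1.2.2.1 (habs h2.2.1.1) (C := D)
          (Eventually.of_forall (by simpa only [abs_abs] using h2b)))
    · filter_upwards [h1.lipBd, h2.lipBd] with x hx hy
      refine ⟨?_, LipBd.mul h1.1.continuous.continuousAt hx.2 hy.2⟩
      have := hx.1
      have := hy.1
      positivity
  · exact tendsto_mul_L2 (fun k => (hup k).1.2.1.1) hf.1.1
      (fun k => Eventually.of_forall (hup k).2) hu3 (fun k => (hvq k).1.2.1) hg.1 hv1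
  · have h1 := tendsto_mul_L2 (a := fun k x => |u k x|) (A := fun x => |f x|)
      (fun k => habs (hup k).1.2.1.1) (habs hf.1.1)
      (C := C) (fun k => Eventually.of_forall (by simpa only [abs_abs] using (hup k).2))
      (by filter_upwards [hu3] with x hx using hx.abs) (fun k => (hvq k).1.2.2.1) hg.2.1 hv2
    have h2 := tendsto_mul_L2 (a := fun k x => |v k x|) (A := fun x => |g x|)
      (fun k => habs (hvq k).1.2.1.1) (habs hg.1.1)
      (C := D) (fun k => Eventually.of_forall (by simpa using (hvq k).2))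
      (by filter_upwards [hv3] with x hx using hx.abs) (fun k => (hup k).1.2.2.1) hf.2.1 hu2
    have h3 := h1.add h2
    rw [add_zero] at h3
    refine tendsto_of_tendsto_of_tendsto_of_le_of_le tendsto_const_nhds h3
      (fun _ => zero_le) (fun k => ?_)
    have e : (fun x => |u k x| * q k x + |v k x| * p k x) -
        (fun x => |f x| * H x + |g x| * G x) =
        ((fun x => |u k x| * q k x) - (fun x => |f x| * H x)) +
        ((fun x => |v k x| * p k x) - (fun x => |g x| * G x)) := by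
      ext x; simp only [Pi.sub_apply, Pi.add_apply]; ring
    rw [e]
    refine eLpNorm_add_le ?_ ?_ (by norm_num)
    · exact ((habs (hup k).1.2.1.1).mul (hvq k).1.2.2.1.1).sub ((habs hf.1.1).mul hg.2.1.1)
    · exact ((habs (hvq k).1.2.1.1).mul (hup k).1.2.2.1.1).sub ((habs hg.1.1).mul hf.2.1.1)

end Vale.Agent.P233.Met
end
end

section

section

open MeasureTheory Filter Topology Set
open scoped ENNReal NNReal

namespace Vale.Agent.P233.Met

variable {M : Type*} [MetricSpace M] [MeasurableSpace M] {m : Measure M}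

set_option linter.unusedSectionVars false

/-- the Sobolev class `W^{1,2}` -/
def W12 (m : Measure M) (f : M → ℝ) : Prop := ∃ G, RSlope m f G

open Classical in
/-- the minimal relaxed slope `|Df|` -/
noncomputable def mslope (m : Measure M) (f : M → ℝ) : M → ℝ :=
  if h : ∃ G, RMin m f G then h.choose else 0

theorem W12.memLp {f : M → ℝ} (h : W12 m f) : MemLp f 2 m := by
  obtain ⟨G, hG⟩ := h; exact hG.1

theorem W12.spec [BorelSpace M] {f : M → ℝ} (h : W12 m f) : RMin m f (mslope m f) := by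
  obtain ⟨G, hG⟩ := h
  have h1 := exists_rmin hG
  unfold mslope
  rw [dif_pos h1]
  exact h1.choose_spec

theorem W12.rSlope [BorelSpace M] {f : M → ℝ} (h : W12 m f) :
    RSlope m f (mslope m f) := h.spec.1

theorem W12.memLp_mslope [BorelSpace M] {f : M → ℝ} (h : W12 m f) :
    MemLp (mslope m f) 2 m := h.spec.1.2.1

theorem W12.mslope_nonneg [BorelSpace M] {f : M → ℝ} (h : W12 m f) :
    ∀ᵐ x ∂m, 0 ≤ mslope m f x := h.spec.1.nonneg

theorem RSlope.mslope_le [BorelSpace M] {f G : M → ℝ} (h : RSlope m f G) :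
    ∀ᵐ x ∂m, mslope m f x ≤ G x := (W12.spec ⟨G, h⟩).2 G h

theorem RMin.eq [BorelSpace M] {f G : M → ℝ} (h : RMin m f G) :
    mslope m f =ᵐ[m] G := by
  filter_upwards [h.1.mslope_le, h.2 _ (W12.rSlope ⟨G, h.1⟩)] with x hx hy
  exact le_antisymm hx hy

theorem W12.congr {f g : M → ℝ} (h : W12 m f) (hfg : f =ᵐ[m] g) : W12 m g := by
  obtain ⟨G, hG⟩ := h
  exact ⟨G, hG.congr hfg Filter.EventuallyEq.rfl⟩

theorem mslope_congr [BorelSpace M] {f g : M → ℝ} (hfg : f =ᵐ[m] g) (h : W12 m f) :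
    mslope m f =ᵐ[m] mslope m g := by
  have hg := h.congr hfg
  filter_upwards [(hg.rSlope.congr hfg.symm Filter.EventuallyEq.rfl).mslope_le,
    (h.rSlope.congr hfg Filter.EventuallyEq.rfl).mslope_le] with x hx hy
  exact le_antisymm hx hy

theorem W12.add {f g : M → ℝ} (hf : W12 m f) (hg : W12 m g) : W12 m (f + g) := by
  obtain ⟨F, hF⟩ := hf; obtain ⟨G, hG⟩ := hg
  exact ⟨_, hF.add hG⟩

theorem W12.const_mul {f : M → ℝ} (c : ℝ) (hf : W12 m f) : W12 m (fun x => c * f x) := by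
  obtain ⟨F, hF⟩ := hf
  exact ⟨_, hF.const_mul c⟩

theorem W12.neg {f : M → ℝ} (hf : W12 m f) : W12 m (-f) := by
  have := hf.const_mul (-1)
  exact this.congr (by filter_upwards with x; simp)

theorem W12.sub {f g : M → ℝ} (hf : W12 m f) (hg : W12 m g) : W12 m (f - g) := by
  rw [sub_eq_add_neg]; exact hf.add hg.neg

theorem W12.zero : W12 m (0 : M → ℝ) := ⟨0, rSlope_zero⟩

theorem mslope_add_le [BorelSpace M] {f g : M → ℝ} (hf : W12 m f) (hg : W12 m g) :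
    ∀ᵐ x ∂m, mslope m (f + g) x ≤ mslope m f x + mslope m g x :=
  (hf.rSlope.add hg.rSlope).mslope_le

theorem mslope_const_mul_le [BorelSpace M] {f : M → ℝ} (c : ℝ) (hf : W12 m f) :
    ∀ᵐ x ∂m, mslope m (fun x => c * f x) x ≤ |c| * mslope m f x :=
  (hf.rSlope.const_mul c).mslope_le

theorem mslope_zero [BorelSpace M] : mslope m (0 : M → ℝ) =ᵐ[m] 0 := by
  filter_upwards [(rSlope_zero (m := m)).mslope_le, (W12.zero (m := m)).mslope_nonneg]
    with x hx hy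
  exact le_antisymm hx hy

theorem mslope_const_mul [BorelSpace M] {f : M → ℝ} (c : ℝ) (hf : W12 m f) :
    ∀ᵐ x ∂m, mslope m (fun x => c * f x) x = |c| * mslope m f x := by
  by_cases hc : c = 0
  · subst hc
    have h1 : (fun x => (0 : ℝ) * f x) = 0 := by ext x; simp
    rw [h1]
    filter_upwards [mslope_zero (m := m)] with x hx
    simp [hx]
  · have h1 := mslope_const_mul_le c⁻¹ (hf.const_mul c)
    have h2 : (fun x => c⁻¹ * (c * f x)) = f := by
      ext x; field_simp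
    rw [h2] at h1
    filter_upwards [h1, mslope_const_mul_le c hf] with x hx hy
    refine le_antisymm hy ?_
    have hc' : 0 < |c| := abs_pos.2 hc
    rw [abs_inv] at hx
    have := mul_le_mul_of_nonneg_left hx hc'.le
    rwa [← mul_assoc, mul_inv_cancel₀ hc'.ne', one_mul] at this

theorem mslope_neg [BorelSpace M] {f : M → ℝ} (hf : W12 m f) :
    ∀ᵐ x ∂m, mslope m (-f) x = mslope m f x := by
  have h1 := mslope_const_mul (-1) hf
  have h2 : (fun x => (-1 : ℝ) * f x) = -f := by ext x; simp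
  rw [h2] at h1
  filter_upwards [h1] with x hx
  simpa using hx

theorem mslope_sub_le [BorelSpace M] {f g : M → ℝ} (hf : W12 m f) (hg : W12 m g) :
    ∀ᵐ x ∂m, mslope m (f - g) x ≤ mslope m f x + mslope m g x := by
  rw [sub_eq_add_neg]
  filter_upwards [mslope_add_le hf hg.neg, mslope_neg hg] with x hx hy
  rwa [hy] at hx

/-- reverse triangle inequality -/
theorem abs_mslope_sub_le [BorelSpace M] {f g : M → ℝ} (hf : W12 m f) (hg : W12 m g) :
    ∀ᵐ x ∂m, |mslope m f x - mslope m g x| ≤ mslope m (f - g) x := by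
  have h1 := mslope_add_le (hf.sub hg) hg
  have h2 := mslope_sub_le hf (hf.sub hg)
  have e1 : f - g + g = f := by abel
  have e2 : f - (f - g) = g := by abel
  rw [e1] at h1
  rw [e2] at h2
  filter_upwards [h1, h2] with x hx hy
  rw [abs_le]
  constructor <;> linarith

theorem W12.comp {f : M → ℝ} (hf : W12 m f) {φ : ℝ → ℝ} (hφ : ContDiff ℝ 1 φ)
    (hφ0 : φ 0 = 0) {L : ℝ≥0} (hL : ∀ t, |deriv φ t| ≤ L) : W12 m (fun x => φ (f x)) := by
  obtain ⟨F, hF⟩ := hf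
  exact ⟨_, hF.comp hφ hφ0 hL⟩

theorem mslope_comp_le [BorelSpace M] {f : M → ℝ} (hf : W12 m f) {φ : ℝ → ℝ}
    (hφ : ContDiff ℝ 1 φ) (hφ0 : φ 0 = 0) {L : ℝ≥0} (hL : ∀ t, |deriv φ t| ≤ L) :
    ∀ᵐ x ∂m, mslope m (fun x => φ (f x)) x ≤ |deriv φ (f x)| * mslope m f x :=
  (hf.rSlope.comp hφ hφ0 hL).mslope_le

/-- chain rule `|D(φ∘f)| = |φ'(f)| |Df|` -/
theorem mslope_comp [BorelSpace M] {f : M → ℝ} (hf : W12 m f) {φ : ℝ → ℝ}
    (hφ : ContDiff ℝ 1 φ) (hφ0 : φ 0 = 0) {L : ℝ≥0} (hL : ∀ t, |deriv φ t| ≤ L) :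
    ∀ᵐ x ∂m, mslope m (fun x => φ (f x)) x = |deriv φ (f x)| * mslope m f x := by
  have hφf := hf.comp hφ hφ0 hL
  -- general inequality `(s φ')(f) |Df| ≤ |D(φ∘f)|` for `s = ±1`
  have key : ∀ ψ : ℝ → ℝ, ContDiff ℝ 1 ψ → ψ 0 = 0 → (∀ t, |deriv ψ t| ≤ L) →
      ∀ᵐ x ∂m, deriv ψ (f x) * mslope m f x ≤ mslope m (fun x => ψ (f x)) x := by
    intro ψ hψ hψ0 hψL
    set χ : ℝ → ℝ := fun t => L * t - ψ t with hχ
    have hχc : ContDiff ℝ 1 χ := (contDiff_const.mul contDiff_id).sub hψ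
    have hχ0 : χ 0 = 0 := by simp [hχ, hψ0]
    have hχd : ∀ t, deriv χ t = L - deriv ψ t := by
      intro t
      have h1 : HasDerivAt (fun t : ℝ => (L : ℝ) * t) ((L : ℝ) * 1) t :=
        (hasDerivAt_id t).const_mul (L : ℝ)
      have h2 : HasDerivAt ψ (deriv ψ t) t :=
        (hψ.differentiable (by norm_num) t).hasDerivAt
      have h3 := (h1.sub h2).deriv
      rw [mul_one] at h3
      exact h3
    have hχL : ∀ t, |deriv χ t| ≤ (2 * L : ℝ≥0) := by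
      intro t
      rw [hχd]
      have := abs_le.1 (hψL t)
      rw [abs_le]
      push_cast
      constructor <;> linarith [L.coe_nonneg]
    have hψf := hf.comp hψ hψ0 hψL
    have hχf := hf.comp hχc hχ0 hχL
    have h1 := mslope_add_le hψf hχf
    have e : (fun x => ψ (f x)) + (fun x => χ (f x)) = fun x => (L : ℝ) * f x := by
      ext x; simp [hχ]
    rw [e] at h1
    filter_upwards [h1, mslope_const_mul (L : ℝ) hf, mslope_comp_le hf hχc hχ0 hχL,
      hf.mslope_nonneg] with x hx hy hz h0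
    rw [hy, NNReal.abs_eq] at hx
    rw [hχd, abs_of_nonneg (by linarith only [abs_le.1 (hψL (f x))])] at hz
    linarith
  have h1 := key φ hφ hφ0 hL
  have h2 := key (fun t => - φ t) hφ.neg (by simp [hφ0]) (fun t => by
    rw [deriv.fun_neg, abs_neg]; exact hL t)
  have e : (fun x => - φ (f x)) = -(fun x => φ (f x)) := rfl
  rw [e] at h2
  filter_upwards [h1, h2, mslope_neg hφf, mslope_comp_le hf hφ hφ0 hL] with x hx hy hz hw
  refine le_antisymm hw ?_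
  rw [hz, deriv.fun_neg] at hy
  rcases abs_cases (deriv φ (f x)) with ⟨h, -⟩ | ⟨h, -⟩ <;> rw [h] <;> linarith

end Vale.Agent.P233.Met
end
end

section

section

open MeasureTheory Filter Topology Set
open scoped ENNReal NNReal

namespace Vale.Agent.P233.Met

variable {M : Type*} [MetricSpace M] [MeasurableSpace M] {m : Measure M}

set_option linter.unusedSectionVars false

/-- Lipschitz contraction -/
theorem RSlope.comp_lip {f G : M → ℝ} (h : RSlope m f G) {φ : ℝ → ℝ} {L : ℝ≥0}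
    (hφ : LipschitzWith L φ) (hφ0 : φ 0 = 0) :
    RSlope m (fun x => φ (f x)) (fun x => L * G x) := by
  have habs : ∀ w : M → ℝ, MemLp w 2 m → MemLp (fun x => φ (w x)) 2 m := by
    intro w hw
    refine (hw.const_mul (L : ℝ)).mono (hφ.continuous.comp_aestronglyMeasurable hw.1) ?_
    filter_upwards with x
    have := hφ.dist_le_mul (w x) 0
    rw [hφ0, dist_zero_right, dist_zero_right] at this
    rw [norm_mul, NNReal.norm_eq]
    exact this
  obtain ⟨hf, hG, u, g, hug, h1, h2⟩ := h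
  refine RSlope.of_tendsto (F := fun k x => φ (u k x))
    (H := fun k x => L * g k x) (habs f hf) (hG.const_mul _) ?_ ?_ ?_
  · intro k
    obtain ⟨hu1, hu2, hg, -⟩ := hug k
    refine (Good.mk' (hu1.comp hφ) (habs _ hu2) (hg.const_mul _) ?_).rSlope
    filter_upwards [(hug k).lipBd] with x hx
    refine ⟨mul_nonneg L.coe_nonneg hx.1, fun c hc => ?_⟩
    -- choose an intermediate constant
    obtain ⟨η, hη, hηb⟩ : ∃ η > 0, (L : ℝ) * (g k x + η) < c := by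
      have hcont : Continuous (fun η : ℝ => (L : ℝ) * (g k x + η)) := by fun_prop
      have h0 : (fun η : ℝ => (L : ℝ) * (g k x + η)) 0 < c := by simpa using hc
      have := (hcont.continuousAt (x := 0)).eventually_lt continuousAt_const h0
      rw [Metric.eventually_nhds_iff] at this
      obtain ⟨ε, hε, h⟩ := this
      refine ⟨ε / 2, by positivity, h ?_⟩
      simp [abs_of_pos hε, hε]
    filter_upwards [hx.2 (g k x + η) (by linarith)] with y hy
    have h3 := hφ.dist_le_mul (u k y) (u k x)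
    rw [Real.dist_eq, Real.dist_eq] at h3
    calc |φ (u k y) - φ (u k x)| ≤ L * |u k y - u k x| := h3
      _ ≤ L * ((g k x + η) * dist y x) := by (clear * - hy; gcongr)
      _ = (L * (g k x + η)) * dist y x := by ring
      _ ≤ c * dist y x := by (clear * - hηb; gcongr)
  · have h3 : Tendsto (fun k => ‖(L : ℝ)‖ₑ * eLpNorm (u k - f) 2 m) atTop (𝓝 0) := by
      have := ENNReal.Tendsto.const_mul (a := ‖(L : ℝ)‖ₑ) h1 (Or.inr (by simp))
      simpa only [NNReal.enorm_eq, mul_zero] using this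
    refine tendsto_of_tendsto_of_tendsto_of_le_of_le tendsto_const_nhds h3
      (fun _ => zero_le) (fun k => ?_)
    rw [← eLpNorm_const_smul]
    refine eLpNorm_mono fun x => ?_
    have := hφ.dist_le_mul (u k x) (f x)
    rw [dist_eq_norm, dist_eq_norm] at this
    simp only [Pi.smul_apply, smul_eq_mul, Pi.sub_apply]
    rw [norm_mul, NNReal.norm_eq]
    exact this
  · have h3 : Tendsto (fun k => ‖(L : ℝ)‖ₑ * eLpNorm (g k - G) 2 m) atTop (𝓝 0) := by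
      have := ENNReal.Tendsto.const_mul (a := ‖(L : ℝ)‖ₑ) h2 (Or.inr (by simp))
      simpa using this
    refine h3.congr fun k => ?_
    rw [← eLpNorm_const_smul]
    congr 1
    ext x
    simp [mul_sub]

theorem W12.comp_lip {f : M → ℝ} (h : W12 m f) {φ : ℝ → ℝ} {L : ℝ≥0}
    (hφ : LipschitzWith L φ) (hφ0 : φ 0 = 0) : W12 m (fun x => φ (f x)) := by
  obtain ⟨F, hF⟩ := h
  exact ⟨_, hF.comp_lip hφ hφ0⟩

/-- the auxiliary weight `ψ_n(s) = min 1 (n |s - c|)` -/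
theorem exists_cut (c : ℝ) (n : ℕ) : ∃ φ : ℝ → ℝ, ContDiff ℝ 1 φ ∧ φ 0 = 0 ∧
    (∀ t, deriv φ t = min 1 (n * |t - c|)) ∧ ∀ t, |φ t - t| ≤ |t| := by
  set ψ : ℝ → ℝ := fun s => min 1 (n * |s - c|) with hψ
  have hψc : Continuous ψ := by fun_prop
  have hψ0 : ∀ s, 0 ≤ ψ s := fun s => le_min zero_le_one (by positivity)
  have hψ1 : ∀ s, ψ s ≤ 1 := fun s => min_le_left _ _
  set φ : ℝ → ℝ := fun t => ∫ s in (0 : ℝ)..t, ψ s with hφ
  have hd : ∀ t, HasDerivAt φ (ψ t) t := fun t =>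
    intervalIntegral.integral_hasDerivAt_right (hψc.intervalIntegrable _ _)
      hψc.stronglyMeasurable.stronglyMeasurableAtFilter hψc.continuousAt
  refine ⟨φ, ?_, by simp [hφ], fun t => (hd t).deriv, ?_⟩
  · rw [contDiff_one_iff_deriv]
    refine ⟨fun t => (hd t).differentiableAt, ?_⟩
    have : deriv φ = ψ := by ext t; exact (hd t).deriv
    rw [this]; exact hψc
  · intro t
    have h1 : φ t - t = - ∫ s in (0 : ℝ)..t, (1 - ψ s) := by
      rw [intervalIntegral.integral_sub (by simp) (hψc.intervalIntegrable _ _)]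
      simp [hφ]
    rw [h1, abs_neg]
    have h2 := intervalIntegral.norm_integral_le_of_norm_le_const (a := (0 : ℝ)) (b := t)
      (f := fun s => 1 - ψ s) (C := 1) (fun s _ => by
        rw [Real.norm_eq_abs, abs_le]
        constructor <;> linarith [hψ0 s, hψ1 s])
    simpa only [intervalIntegrable_const, ge_iff_le, Real.norm_eq_abs, sub_zero, one_mul] using h2

/-- quantitative convergence of the auxiliary functions -/
theorem exists_cut' (c : ℝ) : ∃ φ : ℕ → ℝ → ℝ, (∀ n, ContDiff ℝ 1 (φ n)) ∧ (∀ n, φ n 0 = 0) ∧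
    (∀ n t, deriv (φ n) t = min 1 (n * |t - c|)) ∧ (∀ n t, |φ n t - t| ≤ |t|) ∧
    ∀ t, Tendsto (fun n => φ n t) atTop (𝓝 t) := by
  choose φ h1 h2 h3 h4 using exists_cut c
  refine ⟨φ, h1, h2, h3, h4, fun t => ?_⟩
  have h5 : ∀ n, φ n t = ∫ s in (0 : ℝ)..t, min 1 ((n : ℝ) * |s - c|) := by
    intro n
    have h6 := intervalIntegral.integral_eq_sub_of_hasDerivAt (a := (0 : ℝ)) (b := t)
      (f := φ n) (f' := deriv (φ n))
      (fun s _ => ((h1 n).differentiable (by norm_num) s).hasDerivAt)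
      (((h1 n).continuous_deriv (by norm_num)).intervalIntegrable _ _)
    rw [h2 n, sub_zero] at h6
    rw [← h6]
    refine intervalIntegral.integral_congr fun s _ => ?_
    exact h3 n s
  have h7 : Tendsto (fun n : ℕ => ∫ s in (0 : ℝ)..t, min 1 ((n : ℝ) * |s - c|)) atTop
      (𝓝 (∫ _ in (0 : ℝ)..t, (1 : ℝ))) := by
    refine intervalIntegral.tendsto_integral_filter_of_dominated_convergence (fun _ => 1) ?_ ?_
      ?_ ?_
    · filter_upwards with n
      exact (by fun_prop : Continuous fun s : ℝ => min 1 ((n : ℝ) * |s - c|)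
        ).aestronglyMeasurable
    · filter_upwards with n
      filter_upwards with s _
      rw [Real.norm_eq_abs, abs_le]
      have : 0 ≤ (n : ℝ) * |s - c| := by (clear * -; positivity)
      constructor
      · have := le_min zero_le_one this
        linarith
      · exact min_le_left _ _
    · simp
    · have hne : ∀ᵐ s : ℝ, s ≠ c := by
        rw [ae_iff]
        simp
      filter_upwards [hne] with s hs _
      have hpos : 0 < |s - c| := abs_pos.2 (sub_ne_zero.2 hs)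
      obtain ⟨N, hN⟩ := exists_nat_ge (1 / |s - c|)
      refine tendsto_const_nhds.congr' ?_
      filter_upwards [eventually_ge_atTop N] with k hk
      have h8 : 1 / |s - c| ≤ (k : ℝ) := hN.trans (by exact_mod_cast hk)
      rw [div_le_iff₀ hpos] at h8
      rw [min_eq_left h8]
  simp only [intervalIntegral.integral_const, sub_zero, smul_eq_mul, mul_one] at h7
  simpa only [h5] using h7

/-- locality: `|Df| = 0` a.e. on `{f = c}` -/
theorem mslope_eq_zero_of_eq_const [BorelSpace M] {f : M → ℝ} (hf : W12 m f) (c : ℝ) :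
    ∀ᵐ x ∂m, f x = c → mslope m f x = 0 := by
  obtain ⟨φ, h1, h2, h3, h4, h5⟩ := exists_cut' c
  obtain ⟨f', hf'm, hff'⟩ := hf.memLp.1
  have hB : MeasurableSet {x | f' x = c} := hf'm.measurable (measurableSet_singleton c)
  have hL : ∀ n t, |deriv (φ n) t| ≤ (1 : ℝ≥0) := by
    intro n t
    rw [h3, abs_le]
    have h6 : 0 ≤ (n : ℝ) * |t - c| := by (clear * -; positivity)
    have h7 := le_min zero_le_one h6
    have h8 : min 1 ((n : ℝ) * |t - c|) ≤ 1 := min_le_left _ _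
    simp only [NNReal.coe_one]
    constructor <;> linarith
  -- candidate slope
  have hG : MemLp ({x | f' x = c}ᶜ.indicator (mslope m f)) 2 m :=
    hf.memLp_mslope.indicator hB.compl
  have key : RSlope m f ({x | f' x = c}ᶜ.indicator (mslope m f)) := by
    refine RSlope.of_tendsto (F := fun n x => φ n (f x))
      (H := fun _ => {x | f' x = c}ᶜ.indicator (mslope m f)) hf.memLp hG ?_ ?_ (by simp only [sub_self, eLpNorm_zero, tendsto_const_nhds_iff])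
    · intro n
      refine (hf.rSlope.comp (h1 n) (h2 n) (hL n)).mono hG ?_
      filter_upwards [hff', hf.mslope_nonneg] with x hx h0
      by_cases hxc : f' x = c
      · have : x ∉ {x | f' x = c}ᶜ := by simp [hxc]
        rw [indicator_of_notMem this, hx, h3, hxc]
        simp only [sub_self, abs_zero, mul_zero, zero_le_one, inf_of_le_right, zero_mul, Std.le_refl]
      · have : x ∈ {x | f' x = c}ᶜ := by simp [hxc]
        rw [indicator_of_mem this]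
        have := hL n (f x)
        simp only [NNReal.coe_one] at this
        calc _ ≤ 1 * mslope m f x := by (clear * - this h0; gcongr)
          _ = _ := one_mul _
    · refine tendsto_eLpNorm_zero_of_dominated (B := fun x => |f x|) hf.memLp.abs ?_ ?_ ?_
      · intro n
        exact ((h1 n).continuous.comp_aestronglyMeasurable hf.memLp.1).sub hf.memLp.1
      · intro n
        filter_upwards with x
        exact h4 n (f x)
      · filter_upwards with x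
        have := (h5 (f x)).sub_const (f x)
        simpa using this
  filter_upwards [key.mslope_le, hf.mslope_nonneg, hff'] with x hx h0 hx2 hxc
  have : x ∉ {x | f' x = c}ᶜ := by simp [← hx2, hxc]
  rw [indicator_of_notMem this] at hx
  exact le_antisymm hx h0

/-- locality: `|Df| = |Dg|` a.e. on `{f - g = c}` -/
theorem mslope_eq_of_sub_eq_const [BorelSpace M] {f g : M → ℝ} (hf : W12 m f) (hg : W12 m g)
    (c : ℝ) : ∀ᵐ x ∂m, f x - g x = c → mslope m f x = mslope m g x := by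
  filter_upwards [abs_mslope_sub_le hf hg, mslope_eq_zero_of_eq_const (hf.sub hg) c]
    with x hx hy hc
  have h1 := hy hc
  rw [h1] at hx
  have := abs_nonpos_iff.1 hx
  linarith only [this]

theorem W12.trunc {f : M → ℝ} (hf : W12 m f) {n : ℝ} (hn : 0 ≤ n) :
    W12 m (fun x => trunc n (f x)) :=
  hf.comp_lip (trunc_lip n) (trunc_of_abs_le (by simpa only [abs_zero] using hn))

end Vale.Agent.P233.Met
end
end

section

section

open MeasureTheory Filter Topology Set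
open scoped ENNReal NNReal

namespace Vale.Agent.P233.Met

variable {M : Type*} [MetricSpace M] [MeasurableSpace M] {m : Measure M}

set_option linter.unusedSectionVars false

theorem lipBd_zero_of_eventually {u : M → ℝ} {x : M} (h : ∀ᶠ y in 𝓝 x, u y = u x) :
    LipBd u x 0 := by
  intro c hc
  filter_upwards [h] with y hy
  rw [hy, sub_self, abs_zero]
  exact mul_nonneg (le_of_lt hc) dist_nonneg

theorem bdd_of_bounded_support {u : M → ℝ} {K : ℝ≥0} (hu : LipschitzWith K u) {x₀ : M} {R : ℝ}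
    (hR : ∀ x, x ∉ Metric.ball x₀ R → u x = 0) : ∃ C, ∀ x, |u x| ≤ C := by
  refine ⟨|u x₀| + K * |R|, fun x => ?_⟩
  by_cases hx : x ∈ Metric.ball x₀ R
  · have h1 := hu.dist_le_mul x x₀
    rw [Real.dist_eq] at h1
    have h2 : dist x x₀ ≤ |R| := (Metric.mem_ball.1 hx).le.trans (le_abs_self R)
    have h3 : |u x| ≤ |u x₀| + |u x - u x₀| := by
      have := abs_add_le (u x₀) (u x - u x₀)
      simpa only [ge_iff_le, add_sub_cancel] using this
    have h4 : (K : ℝ) * dist x x₀ ≤ K * |R| := by gcongr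
    linarith
  · rw [hR x hx, abs_zero]; positivity

/-- Lipschitz functions with bounded support are admissible -/
theorem good_of_bounded_support [BorelSpace M] (hfin : ∀ (x : M) (r : ℝ), m (Metric.ball x r) < ∞)
    {u : M → ℝ} {K : ℝ≥0} (hu : LipschitzWith K u) {x₀ : M} {R : ℝ}
    (hR : ∀ x, x ∉ Metric.ball x₀ R → u x = 0) :
    Good m u ((Metric.ball x₀ (R + 1)).indicator fun _ => (K : ℝ)) := by
  have hbm : MeasurableSet (Metric.ball x₀ (R + 1)) := Metric.isOpen_ball.measurableSet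
  obtain ⟨C, hC⟩ := bdd_of_bounded_support hu hR
  have hC0 : 0 ≤ C := (abs_nonneg _).trans (hC x₀)
  have hind : ∀ c : ℝ, MemLp ((Metric.ball x₀ (R + 1)).indicator fun _ => c) 2 m := fun c =>
    memLp_indicator_const 2 hbm c (Or.inr (hfin x₀ (R + 1)).ne)
  refine Good.mk' ⟨K, hu⟩ ?_ (hind K) ?_
  · refine (hind C).mono hu.continuous.measurable.aestronglyMeasurable ?_
    filter_upwards with x
    by_cases hx : x ∈ Metric.ball x₀ (R + 1)
    · rw [indicator_of_mem hx, Real.norm_eq_abs, Real.norm_eq_abs, abs_of_nonneg hC0]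
      exact hC x
    · have hx' : x ∉ Metric.ball x₀ R := fun h => hx (Metric.ball_subset_ball (by linarith) h)
      rw [hR x hx', norm_zero]; exact norm_nonneg _
  · filter_upwards with x
    by_cases hx : x ∈ Metric.ball x₀ (R + 1)
    · rw [indicator_of_mem hx]
      exact ⟨K.coe_nonneg, LipBd.of_lipschitz hu x⟩
    · rw [indicator_of_notMem hx]
      refine ⟨le_rfl, lipBd_zero_of_eventually ?_⟩
      have hx2 : R < dist x x₀ := by
        rw [Metric.mem_ball, not_lt] at hx; linarith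
      have h1 : ∀ᶠ y in 𝓝 x, R < dist y x₀ :=
        (continuous_id.dist continuous_const).continuousAt.eventually_const_lt hx2
      filter_upwards [h1] with y hy
      rw [hR y (by rw [Metric.mem_ball, not_lt]; exact hy.le),
        hR x (by rw [Metric.mem_ball, not_lt]; exact hx2.le)]

/-- cut-off functions -/
noncomputable def cutoff (x₀ : M) (R : ℝ) (x : M) : ℝ := max 0 (min 1 (R + 1 - dist x x₀))

theorem cutoff_lip (x₀ : M) (R : ℝ) : LipschitzWith 1 (cutoff x₀ R) := by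
  unfold cutoff
  have h1 : LipschitzWith 1 (fun x : M => R + 1 - dist x x₀) := by
    refine LipschitzWith.of_dist_le_mul fun x y => ?_
    rw [Real.dist_eq, NNReal.coe_one, one_mul]
    have : R + 1 - dist x x₀ - (R + 1 - dist y x₀) = dist y x₀ - dist x x₀ := by ring
    rw [this, dist_comm x y]
    exact abs_dist_sub_le y x x₀
  exact (h1.const_min 1).const_max 0

theorem cutoff_nonneg (x₀ : M) (R : ℝ) (x : M) : 0 ≤ cutoff x₀ R x := le_max_left _ _
theorem cutoff_le_one (x₀ : M) (R : ℝ) (x : M) : cutoff x₀ R x ≤ 1 :=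
  max_le zero_le_one (min_le_left _ _)
theorem cutoff_eq_one {x₀ : M} {R : ℝ} {x : M} (h : dist x x₀ ≤ R) : cutoff x₀ R x = 1 := by
  unfold cutoff
  rw [min_eq_left (by linarith)]
  norm_num
theorem cutoff_eq_zero {x₀ : M} {R : ℝ} {x : M} (h : x ∉ Metric.ball x₀ (R + 1)) :
    cutoff x₀ R x = 0 := by
  rw [Metric.mem_ball, not_lt] at h
  unfold cutoff
  exact max_eq_left ((min_le_right _ _).trans (by linarith))

theorem tendsto_cutoff (x₀ x : M) : Tendsto (fun n : ℕ => cutoff x₀ n x) atTop (𝓝 1) := by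
  obtain ⟨N, hN⟩ := exists_nat_ge (dist x x₀)
  refine tendsto_const_nhds.congr' ?_
  filter_upwards [eventually_ge_atTop N] with k hk
  rw [cutoff_eq_one]
  exact hN.trans (by exact_mod_cast hk)

/-- `W^{1,2}` is dense in `L²` -/
theorem dense_W12 [BorelSpace M] [SecondCountableTopology M]
    (hfin : ∀ (x : M) (r : ℝ), m (Metric.ball x r) < ∞) {f : M → ℝ} (hf : MemLp f 2 m)
    {ε : ℝ≥0∞} (hε : ε ≠ 0) : ∃ g, eLpNorm (f - g) 2 m ≤ ε ∧ W12 m g := by
  have hloc : IsLocallyFiniteMeasure m :=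
    ⟨fun x => ⟨Metric.ball x 1, Metric.ball_mem_nhds x one_pos, hfin x 1⟩⟩
  refine MemLp.induction_dense (by norm_num) (W12 m) ?_ (fun f g hf hg => hf.add hg)
    (fun f hf => hf.memLp.1) hf hε
  intro c s hs hsfin ε hε
  rcases isEmpty_or_nonempty M with hM | ⟨⟨x₀⟩⟩
  · refine ⟨0, ?_, W12.zero⟩
    have : (0 : M → ℝ) - s.indicator (fun _ => c) = 0 := by ext x; exact (hM.false x).elim
    rw [this]; simp
  -- it suffices to treat bounded closed sets
  -- step A : approximate `s` by `F ⊆ s ∩ ball x₀ n` closed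
  set δ : ℝ≥0∞ := ε / 3 with hδ
  have hδ0 : δ ≠ 0 := by simp [hδ, hε]
  have h2 : (2 : ℝ≥0∞) ≠ 0 := by norm_num
  have h2' : (2 : ℝ≥0∞) ≠ ∞ := by norm_num
  -- the norm of an indicator tends to zero with the measure
  have hsmall : ∃ η : ℝ≥0∞, η ≠ 0 ∧ ∀ A : Set M, MeasurableSet A → m A ≤ η →
      eLpNorm (A.indicator fun _ => c) 2 m ≤ δ := by
    have hc : Tendsto (fun t : ℝ≥0∞ => ‖c‖ₑ * t ^ (1 / (2 : ℝ≥0∞).toReal)) (𝓝 0) (𝓝 0) := by
      have h3 := (ENNReal.continuous_rpow_const (y := 1 / (2 : ℝ≥0∞).toReal)).tendsto 0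
      have h4 := ENNReal.Tendsto.const_mul (a := ‖c‖ₑ) h3 (Or.inr (by simp))
      simpa only [ENNReal.toReal_ofNat, one_div, inv_pos, Nat.ofNat_pos, ENNReal.zero_rpow_of_pos, mul_zero] using     h4
    have h5 := hc.eventually (ge_mem_nhds (pos_iff_ne_zero.2 hδ0))
    rw [ENNReal.nhds_zero] at h5
    rw [Filter.eventually_iff] at h5
    have h6 : ∃ η : ℝ≥0∞, η ≠ 0 ∧ ∀ t ≤ η, ‖c‖ₑ * t ^ (1 / (2 : ℝ≥0∞).toReal) ≤ δ := by
      have h7 := (ENNReal.nhds_zero_basis_Iic.mem_iff).1 (by rw [ENNReal.nhds_zero]; exact h5)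
      obtain ⟨η, hη, hsub⟩ := h7
      exact ⟨η, hη.ne', fun t ht => hsub ht⟩
    obtain ⟨η, hη, hη2⟩ := h6
    refine ⟨η, hη, fun A hA hmA => ?_⟩
    rw [eLpNorm_indicator_const hA h2 h2']
    exact hη2 _ hmA
  obtain ⟨η, hη, hsmall⟩ := hsmall
  have hball : Tendsto (fun n : ℕ => m (s \ Metric.ball x₀ n)) atTop (𝓝 0) := by
    have h3 : Tendsto (fun n : ℕ => m (s \ Metric.ball x₀ n)) atTop
        (𝓝 (m (⋂ n : ℕ, s \ Metric.ball x₀ n))) := by
      refine tendsto_measure_iInter_atTop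
        (fun n => (hs.diff Metric.isOpen_ball.measurableSet).nullMeasurableSet) ?_
        ⟨0, (measure_mono sdiff_subset).trans_lt hsfin |>.ne⟩
      intro a b hab
      exact sdiff_subset_sdiff_right (Metric.ball_subset_ball (by exact_mod_cast hab))
    have h4 : (⋂ n : ℕ, s \ Metric.ball x₀ n) = ∅ := by
      rw [Set.eq_empty_iff_forall_notMem]
      intro x hx
      obtain ⟨n, hn⟩ := exists_nat_gt (dist x x₀)
      have h5 := mem_iInter.1 hx n
      exact h5.2 hn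
    rwa [h4, measure_empty] at h3
  obtain ⟨n, hn⟩ := (hball.eventually (ge_mem_nhds (pos_iff_ne_zero.2 hη))).exists
  set s' := s ∩ Metric.ball x₀ n with hs'
  have hs'm : MeasurableSet s' := hs.inter Metric.isOpen_ball.measurableSet
  have hs'fin : m s' ≠ ∞ := ((measure_mono inter_subset_left).trans_lt hsfin).ne
  obtain ⟨F, hFs, hFc, hF⟩ := hs'm.exists_isClosed_sdiff_lt hs'fin hη
  -- thickened indicators of F
  set d : ℕ → ℝ := fun k => 1 / ((k : ℝ) + 1) with hd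
  have hd0 : ∀ k, 0 < d k := fun k => by (clear * -; positivity)
  have hd1 : ∀ k, d k ≤ 1 := fun k => by
    simp only [hd]
    rw [div_le_one (by (clear * -; positivity))]
    have : (0 : ℝ) ≤ k := by (clear * -; positivity)
    linarith only []
  have hdl : Tendsto d atTop (𝓝 0) := tendsto_one_div_add_atTop_nhds_zero_nat
  set χ : ℕ → M → ℝ := fun k x => c * (thickenedIndicator (hd0 k) F x : ℝ) with hχ
  have hχL : ∀ k, IsLip (χ k) := fun k => by
    have h3 := lipschitzWith_thickenedIndicator (hd0 k) F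
    have h4 : LipschitzWith (d k).toNNReal⁻¹ (fun x => (thickenedIndicator (hd0 k) F x : ℝ)) := by
      refine LipschitzWith.of_dist_le_mul fun x y => ?_
      have h5 := h3.dist_le_mul x y
      rw [NNReal.dist_eq] at h5
      rw [Real.dist_eq]
      exact h5
    exact IsLip.const_mul c ⟨_, h4⟩
  have hχsupp : ∀ k x, x ∉ Metric.ball x₀ (n + 1) → χ k x = 0 := by
    intro k x hx
    have h3 : x ∉ Metric.thickening (d k) F := by
      intro h4
      rw [Metric.mem_thickening_iff] at h4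
      obtain ⟨z, hz, hxz⟩ := h4
      have h5 : dist z x₀ < n := (hFs hz).2
      apply hx
      rw [Metric.mem_ball]
      calc dist x x₀ ≤ dist x z + dist z x₀ := dist_triangle _ _ _
        _ < d k + n := add_lt_add hxz h5
        _ ≤ n + 1 := by linarith only [hd1 k]
    simp only [hχ]
    rw [thickenedIndicator_zero (hd0 k) F h3]
    simp
  have hχW : ∀ k, W12 m (χ k) := fun k => by
    obtain ⟨K, hK⟩ := hχL k
    exact ⟨_, (good_of_bounded_support hfin hK (hχsupp k)).rSlope⟩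
  have hχlim : Tendsto (fun k => eLpNorm (χ k - F.indicator (fun _ => c)) 2 m) atTop (𝓝 0) := by
    refine tendsto_eLpNorm_zero_of_dominated
      (B := (Metric.ball x₀ (n + 1)).indicator fun _ => |c|) ?_ ?_ ?_ ?_
    · exact memLp_indicator_const 2 Metric.isOpen_ball.measurableSet |c|
        (Or.inr (hfin x₀ (n + 1)).ne)
    · intro k
      exact ((hχL k).continuous.measurable.aestronglyMeasurable).sub
        (aestronglyMeasurable_const.indicator hFc.measurableSet)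
    · intro k
      filter_upwards with x
      by_cases hx : x ∈ Metric.ball x₀ (n + 1)
      · rw [indicator_of_mem hx]
        have h3 := thickenedIndicator_le_one (hd0 k) F x
        have h3' : (thickenedIndicator (hd0 k) F x : ℝ) ≤ 1 := by exact_mod_cast h3
        have h30 : 0 ≤ (thickenedIndicator (hd0 k) F x : ℝ) := NNReal.coe_nonneg _
        by_cases hxF : x ∈ F
        · have h4 := thickenedIndicator_one (hd0 k) F hxF
          simp only [Pi.sub_apply, hχ, h4, indicator_of_mem hxF]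
          simp
        · simp only [Pi.sub_apply, hχ, indicator_of_notMem hxF, sub_zero, abs_mul,
            abs_of_nonneg h30]
          calc |c| * _ ≤ |c| * 1 := by (clear * - hd0 h3'; gcongr)
            _ = |c| := mul_one _
      · rw [indicator_of_notMem hx]
        have hxF : x ∉ F := fun h => hx (Metric.ball_subset_ball (by linarith only []) (hFs h).2)
        simp only [Pi.sub_apply, hχsupp k x hx, indicator_of_notMem hxF]
        simp
    · filter_upwards with x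
      have h3 := thickenedIndicator_tendsto_indicator_closure hd0 hdl F
      rw [tendsto_pi_nhds] at h3
      have h4 := h3 x
      rw [hFc.closure_eq] at h4
      have h5 := ((NNReal.continuous_coe.tendsto _).comp h4).const_mul c
      have h6 : c * ((F.indicator (fun _ => (1 : ℝ≥0)) x : ℝ≥0) : ℝ) =
          F.indicator (fun _ => c) x := by
        by_cases hx : x ∈ F <;> simp [hx]
      rw [h6] at h5
      have h7 := h5.sub_const (F.indicator (fun _ => c) x)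
      rw [sub_self] at h7
      exact h7
  obtain ⟨k, hk⟩ := (hχlim.eventually (ge_mem_nhds (pos_iff_ne_zero.2 hδ0))).exists
  refine ⟨χ k, ?_, hχW k⟩
  have e : χ k - s.indicator (fun _ => c) = (χ k - F.indicator (fun _ => c)) +
      (-((s' \ F).indicator (fun _ => c)) + -((s \ Metric.ball x₀ n).indicator fun _ => c)) := by
    ext x
    simp only [Pi.sub_apply, Pi.add_apply, Pi.neg_apply]
    by_cases hxF : x ∈ F
    · have hxs' := hFs hxF
      have : x ∈ s := hxs'.1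
      have h4 : x ∉ s \ Metric.ball x₀ n := fun h => h.2 hxs'.2
      have h5 : x ∉ s' \ F := fun h => h.2 hxF
      rw [indicator_of_mem hxF, indicator_of_mem this, indicator_of_notMem h4,
        indicator_of_notMem h5]
      ring
    · by_cases hxs : x ∈ s
      · by_cases hxb : x ∈ Metric.ball x₀ n
        · have h4 : x ∉ s \ Metric.ball x₀ n := fun h => h.2 hxb
          have h5 : x ∈ s' \ F := ⟨⟨hxs, hxb⟩, hxF⟩
          rw [indicator_of_notMem hxF, indicator_of_mem hxs, indicator_of_notMem h4,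
            indicator_of_mem h5]
          ring
        · have h4 : x ∈ s \ Metric.ball x₀ n := ⟨hxs, hxb⟩
          have h5 : x ∉ s' \ F := fun h => hxb h.1.2
          rw [indicator_of_notMem hxF, indicator_of_mem hxs, indicator_of_mem h4,
            indicator_of_notMem h5]
          ring
      · have h4 : x ∉ s \ Metric.ball x₀ n := fun h => hxs h.1
        have h5 : x ∉ s' \ F := fun h => hxs h.1.1
        rw [indicator_of_notMem hxF, indicator_of_notMem hxs, indicator_of_notMem h4,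
          indicator_of_notMem h5]
        ring
  rw [e]
  have hm1 : AEStronglyMeasurable (χ k - F.indicator (fun _ => c)) m :=
    ((hχL k).continuous.measurable.aestronglyMeasurable).sub
        (aestronglyMeasurable_const.indicator hFc.measurableSet)
  have hm2 : MeasurableSet (s' \ F) := hs'm.diff hFc.measurableSet
  have hm3 : MeasurableSet (s \ Metric.ball x₀ n) := hs.diff Metric.isOpen_ball.measurableSet
  have hm2' : AEStronglyMeasurable (-((s' \ F).indicator (fun _ => c))) m :=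
    (aestronglyMeasurable_const.indicator hm2).neg
  have hm3' : AEStronglyMeasurable (-((s \ Metric.ball x₀ n).indicator (fun _ => c))) m :=
    (aestronglyMeasurable_const.indicator hm3).neg
  refine (eLpNorm_add_le hm1 (hm2'.add hm3') (by norm_num)).trans ?_
  refine (add_le_add_right (eLpNorm_add_le hm2' hm3' (by norm_num)) _).trans ?_
  rw [eLpNorm_neg, eLpNorm_neg]
  calc _ ≤ δ + (δ + δ) := by
        gcongr
        · exact hsmall _ hm2 hF.le
        · exact hsmall _ hm3 hn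
    _ = 3 * δ := by ring
    _ ≤ ε := ENNReal.mul_div_le

end Vale.Agent.P233.Met
end
end

section

section

open MeasureTheory Filter Topology
open scoped ENNReal NNReal

namespace Vale.Agent.P233

section
variable {M : Type*} [MetricSpace M] [MeasurableSpace M] {m : Measure M}

theorem relaxed_iff {f G : M →ₘ[m] ℝ} : IsRelaxedSlope f G ↔ Met.RSlope m f G := Iff.rfl

theorem isMinSlope_iff {f G : M →ₘ[m] ℝ} : IsMinSlope f G ↔ Met.RMin m f G := by
  constructor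
  · rintro ⟨h1, h2⟩
    refine ⟨h1, fun H hH => ?_⟩
    have h3 : IsRelaxedSlope f (AEEqFun.mk H hH.2.1.1) :=
      relaxed_iff.2 (hH.congr Filter.EventuallyEq.rfl (AEEqFun.coeFn_mk H _).symm)
    filter_upwards [le_iff_ae.1 (h2 _ h3), AEEqFun.coeFn_mk H hH.2.1.1] with x hx hy
    rwa [hy] at hx
  · rintro ⟨h1, h2⟩
    exact ⟨h1, fun G' hG' => le_iff_ae.2 (h2 _ hG')⟩

theorem mem_sob_iff {f : M →ₘ[m] ℝ} : f ∈ (sob m).W ↔ Met.W12 m f := by
  constructor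
  · rintro ⟨G, hG⟩
    exact ⟨G, hG⟩
  · rintro ⟨G, hG⟩
    exact ⟨AEEqFun.mk G hG.2.1.1,
      relaxed_iff.2 (hG.congr Filter.EventuallyEq.rfl (AEEqFun.coeFn_mk G _).symm)⟩

variable [BorelSpace M]

theorem exists_minSlope' {f : M →ₘ[m] ℝ} (hf : f ∈ (sob m).W) : IsMinSlope f (slope f) := by
  have h1 := mem_sob_iff.1 hf
  obtain ⟨G, hG⟩ := Met.exists_rmin (m := m) h1.choose_spec
  have h2 : IsMinSlope f (AEEqFun.mk G hG.1.2.1.1) := by
    rw [isMinSlope_iff]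
    have hae := AEEqFun.coeFn_mk G hG.1.2.1.1
    refine ⟨hG.1.congr Filter.EventuallyEq.rfl hae.symm, fun H hH => ?_⟩
    filter_upwards [hG.2 H hH, hae] with x hx hy
    rwa [hy]
  have h3 : ∃ G, IsMinSlope f G := ⟨_, h2⟩
  unfold slope
  rw [dif_pos h3]
  exact h3.choose_spec

theorem slope_ae {f : M →ₘ[m] ℝ} (hf : f ∈ (sob m).W) : ⇑(slope f) =ᵐ[m] Met.mslope m f :=
  (isMinSlope_iff.1 (exists_minSlope' hf)).eq.symm

end

variable {M : Type*} [MetricSpace M] [MeasurableSpace M] [BorelSpace M]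
  [SecondCountableTopology M] {m : Measure M}

/-! ### relaxed slopes; no assumption on `m` except finiteness on balls -/

/-- `L²` convergence in terms of `I` -/
theorem eLpNorm_eq_I {f : M →ₘ[m] ℝ} (hf : MemLp f 2 m) :
    eLpNorm f 2 m = ENNReal.ofReal (Real.sqrt (I (f ^ 2))) := by
  have h1 : I (f ^ 2) = (eLpNorm f 2 m).toReal ^ 2 := by
    have h2 : (eLpNorm f 2 m).toReal = ‖hf.toLp‖ := (Lp.norm_toLp _ hf).symm
    rw [h2, ← real_inner_self_eq_norm_sq, L2.inner_def]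
    unfold I
    refine integral_congr_ae ?_
    filter_upwards [hf.coeFn_toLp, sq_ae f] with x hx hy
    rw [hy, hx]
    simp only [sq, inner_self_eq_norm_sq_to_K, Real.norm_eq_abs, Real.ringHom_apply, abs_mul_abs_self]
  rw [h1, Real.sqrt_sq ENNReal.toReal_nonneg, ENNReal.ofReal_toReal hf.eLpNorm_lt_top.ne]

theorem dense_L2_sob (hfin : ∀ (x : M) (r : ℝ), m (Metric.ball x r) < ∞) (f : M →ₘ[m] ℝ)
    (hf : MemLp f 2 m) (ε : ℝ) (hε : 0 < ε) : ∃ g ∈ (sob m).W, I ((f - g) ^ 2) < ε := by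
  have hε' : ENNReal.ofReal (Real.sqrt (ε / 2)) ≠ 0 := by
    rw [ne_eq, ENNReal.ofReal_eq_zero, not_le]
    exact Real.sqrt_pos.2 (by linarith only [hε])
  obtain ⟨g, hg1, hg2⟩ := Met.dense_W12 hfin hf hε'
  have hae := AEEqFun.coeFn_mk g hg2.memLp.1
  refine ⟨AEEqFun.mk g hg2.memLp.1, mem_sob_iff.2 (hg2.congr hae.symm), ?_⟩
  have hgm : MemLp (AEEqFun.mk g hg2.memLp.1) 2 m := (memLp_congr_ae hae).2 hg2.memLp
  have h1 := eLpNorm_eq_I (mem_sub hf hgm)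
  have h2 : eLpNorm (f - AEEqFun.mk g hg2.memLp.1 : M →ₘ[m] ℝ) 2 m = eLpNorm (⇑f - g) 2 m := by
    refine eLpNorm_congr_ae ?_
    filter_upwards [AEEqFun.coeFn_sub f (AEEqFun.mk g hg2.memLp.1), hae] with x hx hy
    rw [hx]
    simp [hy]
  rw [h2] at h1
  rw [h1] at hg1
  have h3 := (ENNReal.ofReal_le_ofReal_iff (Real.sqrt_nonneg _)).1 hg1
  have h4 := (Real.sqrt_le_sqrt_iff (by linarith only [hε])).1 h3
  linarith only [hε, h4]

/-- if `u` is Lipschitz then `|Du| ≤ lip u` -/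
theorem slope_le_of_lipschitz (hfin : ∀ (x : M) (r : ℝ), m (Metric.ball x r) < ∞)
    {f : M →ₘ[m] ℝ} (hf : f ∈ (sob m).W) {u : M → ℝ} (hfu : f =ᵐ[m] u) {K : ℝ≥0}
    (hu : LipschitzWith K u) : slope f ≤ (K : ℝ) • (1 : M →ₘ[m] ℝ) := by
  have hf' := mem_sob_iff.1 hf
  rw [le_iff_ae]
  rcases isEmpty_or_nonempty M with hM | ⟨⟨x₀⟩⟩
  · filter_upwards with x
    exact (hM.false x).elim
  have key : ∀ n : ℕ, ∀ᵐ x ∂m, dist x x₀ < n → Met.mslope m f x ≤ K := by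
    intro n
    -- localized function
    set C : ℝ := |u x₀| + K * (n + 1) with hC
    have hC0 : 0 ≤ C := by (clear * -; positivity)
    set w : M → ℝ := fun x => Met.cutoff x₀ n x * Met.trunc C (u x) with hw
    have hcl : Met.IsLip (Met.cutoff x₀ n) := ⟨1, Met.cutoff_lip x₀ n⟩
    have htl : Met.IsLip (fun x => Met.trunc C (u x)) :=
      Met.IsLip.comp ⟨K, hu⟩ (Met.trunc_lip C)
    obtain ⟨L, hL⟩ : Met.IsLip w := hcl.mul htl
      ⟨1, fun x => abs_le.2 ⟨by linarith [Met.cutoff_nonneg x₀ n x], Met.cutoff_le_one x₀ n x⟩⟩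
      ⟨C, fun x => Met.abs_trunc_le hC0 _⟩
    have hsupp : ∀ x, x ∉ Metric.ball x₀ ((n : ℝ) + 1) → w x = 0 := by
      intro x hx
      simp only [hw]
      rw [Met.cutoff_eq_zero hx, zero_mul]
    have hgood := Met.good_of_bounded_support hfin hL hsupp
    have heq : ∀ x, dist x x₀ < n → w x = u x := by
      intro x hx
      simp only [hw]
      rw [Met.cutoff_eq_one hx.le, one_mul, Met.trunc_of_abs_le]
      have h1 := hu.dist_le_mul x x₀
      rw [Real.dist_eq] at h1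
      have h3 : |u x| ≤ |u x₀| + |u x - u x₀| := by
        have := abs_add_le (u x₀) (u x - u x₀)
        simpa only [ge_iff_le, add_sub_cancel] using this
      have h4 : (K : ℝ) * dist x x₀ ≤ K * (n + 1) := by
        gcongr
        linarith
      linarith
    -- improved bound
    set b : M → ℝ := fun x => if dist x x₀ < n then (K : ℝ) else
      (Metric.ball x₀ ((n : ℝ) + 1 + 1)).indicator (fun _ => (L : ℝ)) x with hb
    have hbm : MeasurableSet {x : M | dist x x₀ < n} :=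
      (isOpen_lt (by fun_prop) (by fun_prop)).measurableSet
    have hbmeas : Measurable b :=
      Measurable.ite hbm measurable_const
        (measurable_const.indicator Metric.isOpen_ball.measurableSet)
    have hgood2 : Met.Good m w b := by
      refine Met.Good.mk' hgood.1 hgood.2.1 ?_ ?_
      · have h1 : MemLp ((Metric.ball x₀ ((n : ℝ) + 1 + 1)).indicator fun _ => (K + L : ℝ)) 2 m :=
          memLp_indicator_const 2 Metric.isOpen_ball.measurableSet _ (Or.inr (hfin x₀ _).ne)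
        refine h1.mono hbmeas.aestronglyMeasurable ?_
        filter_upwards with x
        simp only [hb]
        split_ifs with hx
        · have : x ∈ Metric.ball x₀ ((n : ℝ) + 1 + 1) := by
            rw [Metric.mem_ball]; linarith only [hx]
          rw [Set.indicator_of_mem this, Real.norm_eq_abs, Real.norm_eq_abs]
          rw [abs_of_nonneg K.coe_nonneg, abs_of_nonneg (by (clear * -; positivity))]
          linarith [L.coe_nonneg]
        · by_cases hx2 : x ∈ Metric.ball x₀ ((n : ℝ) + 1 + 1)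
          · rw [Set.indicator_of_mem hx2, Set.indicator_of_mem hx2, Real.norm_eq_abs,
              Real.norm_eq_abs, abs_of_nonneg L.coe_nonneg, abs_of_nonneg (by (clear * -; positivity))]
            linarith [K.coe_nonneg]
          · rw [Set.indicator_of_notMem hx2, Set.indicator_of_notMem hx2]
      · filter_upwards [hgood.lipBd] with x hx
        simp only [hb]
        split_ifs with hxn
        · refine ⟨K.coe_nonneg, ?_⟩
          have h1 := Met.LipBd.of_lipschitz hu x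
          intro c hc
          have h2 : ∀ᶠ y in 𝓝 x, dist y x₀ < n :=
            (continuous_id.dist continuous_const).continuousAt.eventually_lt_const hxn
          filter_upwards [h1 c hc, h2] with y hy hy2
          rwa [heq y hy2, heq x hxn]
        · exact hx
    have h1 : Met.W12 m w := ⟨_, hgood2.rSlope⟩
    filter_upwards [hgood2.rSlope.mslope_le, Met.mslope_eq_of_sub_eq_const hf' h1 0, hfu]
      with x hx hy hz hxn
    have h2 : Met.mslope m f x = Met.mslope m w x := hy (by rw [hz, heq x hxn, sub_self])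
    rw [h2]
    refine hx.trans ?_
    simp only [hb]
    rw [if_pos hxn]
  have key' := ae_all_iff.2 key
  filter_upwards [key', slope_ae hf, smul_ae (1 : M →ₘ[m] ℝ) (K : ℝ), one_ae (M := M) (m := m)]
    with x h1 h2 h3 h4
  obtain ⟨n, hn⟩ := exists_nat_gt (dist x x₀)
  rw [h2, h3, h4, mul_one]
  exact h1 n hn

end Vale.Agent.P233
end
end

section

section

open MeasureTheory Filter Topology Set
open scoped ENNReal NNReal

namespace Vale.Agent.P233.Met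

variable {M : Type*} [MetricSpace M] [MeasurableSpace M] {m : Measure M}

set_option linter.unusedSectionVars false

theorem LipBd.poly {u v : M → ℝ} {x : M} {a b : ℝ} (α β γ δ : ℝ)
    (huc : ContinuousAt u x) (hvc : ContinuousAt v x)
    (hu : LipBd u x a) (hv : LipBd v x b) :
    LipBd (fun y => α * u y + β * v y + γ * (u y * v y) + δ * (u y * u y)) x
      (|α + γ * v x + 2 * δ * u x| * a + |β + γ * u x| * b) := by
  intro c hc
  set p : ℝ := |α + γ * v x + 2 * δ * u x| with hp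
  set q : ℝ := |β + γ * u x| with hq
  obtain ⟨η, hη, hηb⟩ : ∃ η > 0, (p + η) * (a + η) + q * (b + η) < c := by
    have hcont : Continuous (fun η : ℝ => (p + η) * (a + η) + q * (b + η)) := by fun_prop
    have h0 : (fun η : ℝ => (p + η) * (a + η) + q * (b + η)) 0 < c := by simpa using hc
    have := (hcont.continuousAt (x := 0)).eventually_lt continuousAt_const h0
    rw [Metric.eventually_nhds_iff] at this
    obtain ⟨ε, hε, h⟩ := this
    refine ⟨ε / 2, by positivity, h ?_⟩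
    simp [abs_of_pos hε, hε]
  have h1 := hu (a + η) (by linarith)
  have h2 := hv (b + η) (by linarith)
  have h3 : ∀ᶠ y in 𝓝 x, |α + γ * v y + δ * (u y + u x)| < p + η := by
    have hc3 : ContinuousAt (fun y => |α + γ * v y + δ * (u y + u x)|) x := by fun_prop
    refine hc3.eventually_lt continuousAt_const ?_
    have e : α + γ * v x + δ * (u x + u x) = α + γ * v x + 2 * δ * u x := by ring
    rw [e]
    linarith only [hη]
  filter_upwards [h1, h2, h3] with y hy1 hy2 hy3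
  have e : α * u y + β * v y + γ * (u y * v y) + δ * (u y * u y) -
      (α * u x + β * v x + γ * (u x * v x) + δ * (u x * u x)) =
      (α + γ * v y + δ * (u y + u x)) * (u y - u x) + (β + γ * u x) * (v y - v x) := by ring
  rw [e]
  refine (abs_add_le _ _).trans ?_
  rw [abs_mul, abs_mul]
  have hp0 : 0 ≤ p := abs_nonneg _
  calc _ ≤ (p + η) * ((a + η) * dist y x) + q * ((b + η) * dist y x) := by
        (clear * - hy3 hy1 hη hy2; gcongr)
    _ = ((p + η) * (a + η) + q * (b + η)) * dist y x := by ring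
    _ ≤ c * dist y x := by (clear * - hηb; gcongr)

/-- chain rule inequality for the polynomials `αu + βv + γuv + δu²` of bounded functions -/
theorem RSlope.poly [BorelSpace M] {f F g G : M → ℝ} (hf : RSlope m f F) (hg : RSlope m g G)
    {C D : ℝ} (hC : 0 ≤ C) (hD : 0 ≤ D) (hfC : ∀ᵐ x ∂m, |f x| ≤ C) (hgD : ∀ᵐ x ∂m, |g x| ≤ D)
    (α β γ δ : ℝ) :
    RSlope m (fun x => α * f x + β * g x + γ * (f x * g x) + δ * (f x * f x))
      (fun x => |α + γ * g x + 2 * δ * f x| * F x + |β + γ * f x| * G x) := by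
  obtain ⟨u, p, hup, hu1, hu2, hu3⟩ := hf.exists_seq_bdd hC hfC
  obtain ⟨v, q, hvq, hv1, hv2, hv3⟩ := hg.exists_seq_bdd hD hgD
  -- coefficients
  have m1 : ∀ {f g : M → ℝ}, AEStronglyMeasurable f m → AEStronglyMeasurable g m →
      AEStronglyMeasurable (fun x => α + γ * g x + δ * f x) m := fun hf hg =>
    (aestronglyMeasurable_const.add (hg.const_mul γ)).add (hf.const_mul δ)
  have m2 : ∀ {f g : M → ℝ}, AEStronglyMeasurable f m → AEStronglyMeasurable g m →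
      AEStronglyMeasurable (fun x => |α + γ * g x + 2 * δ * f x|) m := fun hf hg =>
    ((aestronglyMeasurable_const.add (hg.const_mul γ)).add (hf.const_mul (2 * δ))).norm
  have m3 : ∀ {f : M → ℝ}, AEStronglyMeasurable f m →
      AEStronglyMeasurable (fun x => |β + γ * f x|) m := fun hf =>
    (aestronglyMeasurable_const.add (hf.const_mul γ)).norm
  have b1 : ∀ {s t : ℝ}, |s| ≤ C → |t| ≤ D → |α + γ * t + δ * s| ≤ |α| + |γ| * D + |δ| * C := by
    intro s t hs ht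
    refine (abs_add_three _ _ _).trans ?_
    rw [abs_mul, abs_mul]
    (clear * - ht hs; gcongr)
  have b2 : ∀ {s t : ℝ}, |s| ≤ C → |t| ≤ D →
      |(|α + γ * t + 2 * δ * s|)| ≤ |α| + |γ| * D + |2 * δ| * C := by
    intro s t hs ht
    rw [abs_abs]
    refine (abs_add_three _ _ _).trans ?_
    rw [abs_mul, abs_mul (2 * δ)]
    (clear * - ht hs; gcongr)
  have b3 : ∀ {s : ℝ}, |s| ≤ C → |(|β + γ * s|)| ≤ |β| + |γ| * C := by
    intro s hs
    rw [abs_abs]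
    refine (abs_add_le _ _).trans ?_
    rw [abs_mul]
    (clear * - hs; gcongr)
  have ef : ∀ f g : M → ℝ, (fun x => α * f x + β * g x + γ * (f x * g x) + δ * (f x * f x)) =
      (fun x => (α + γ * g x + δ * f x) * f x) + (fun x => β * g x) := by
    intro f g; ext x; simp; ring
  have memf : ∀ {f g : M → ℝ}, MemLp f 2 m → MemLp g 2 m → (∀ᵐ x ∂m, |f x| ≤ C) →
      (∀ᵐ x ∂m, |g x| ≤ D) →
      MemLp (fun x => α * f x + β * g x + γ * (f x * g x) + δ * (f x * f x)) 2 m := by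
    intro f g hf hg hfC hgD
    rw [ef]
    refine (memLp_bdd_mul hf (m1 hf.1 hg.1) (C := |α| + |γ| * D + |δ| * C) ?_).add
      (hg.const_mul β)
    filter_upwards [hfC, hgD] with x hx hy using b1 hx hy
  have memg : ∀ {f g F G : M → ℝ}, MemLp f 2 m → MemLp g 2 m → (∀ᵐ x ∂m, |f x| ≤ C) →
      (∀ᵐ x ∂m, |g x| ≤ D) → MemLp F 2 m → MemLp G 2 m →
      MemLp (fun x => |α + γ * g x + 2 * δ * f x| * F x + |β + γ * f x| * G x) 2 m := by
    intro f g F G hf hg hfC hgD hF hG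
    refine (memLp_bdd_mul hF (m2 hf.1 hg.1) (C := |α| + |γ| * D + |2 * δ| * C) ?_).add
      (memLp_bdd_mul hG (m3 hf.1) (C := |β| + |γ| * C) ?_)
    · filter_upwards [hfC, hgD] with x hx hy using b2 hx hy
    · filter_upwards [hfC] with x hx using b3 hx
  refine RSlope.of_tendsto
    (F := fun k x => α * u k x + β * v k x + γ * (u k x * v k x) + δ * (u k x * u k x))
    (H := fun k x => |α + γ * v k x + 2 * δ * u k x| * p k x + |β + γ * u k x| * q k x)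
    (memf hf.1 hg.1 hfC hgD) (memg hf.1 hg.1 hfC hgD hf.2.1 hg.2.1) ?_ ?_ ?_
  · intro k
    obtain ⟨h1, h1b⟩ := hup k
    obtain ⟨h2, h2b⟩ := hvq k
    have hb1 : ∃ C, ∀ x, |u k x| ≤ C := ⟨C, h1b⟩
    have hb2 : ∃ C, ∀ x, |v k x| ≤ C := ⟨D, h2b⟩
    refine (Good.mk' ?_ (memf h1.2.1 h2.2.1 (Eventually.of_forall h1b)
      (Eventually.of_forall h2b)) (memg h1.2.1 h2.2.1 (Eventually.of_forall h1b)
      (Eventually.of_forall h2b) h1.2.2.1 h2.2.2.1) ?_).rSlope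
    · exact (((h1.1.const_mul α).add (h2.1.const_mul β)).add
        ((h1.1.mul h2.1 hb1 hb2).const_mul γ)).add ((h1.1.mul h1.1 hb1 hb1).const_mul δ)
    · filter_upwards [h1.lipBd, h2.lipBd] with x hx hy
      refine ⟨?_, LipBd.poly α β γ δ h1.1.continuous.continuousAt h2.1.continuous.continuousAt
        hx.2 hy.2⟩
      have := hx.1
      have := hy.1
      positivity
  · have h1 := tendsto_mul_L2 (a := fun k x => α + γ * v k x + δ * u k x)
      (A := fun x => α + γ * g x + δ * f x) (C := |α| + |γ| * D + |δ| * C)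
      (fun k => m1 (hup k).1.2.1.1 (hvq k).1.2.1.1) (m1 hf.1.1 hg.1.1)
      (fun k => Eventually.of_forall fun x => b1 ((hup k).2 x) ((hvq k).2 x))
      (by filter_upwards [hu3, hv3] with x hx hy
          exact (tendsto_const_nhds.add (hy.const_mul γ)).add (hx.const_mul δ))
      (fun k => (hup k).1.2.1) hf.1 hu1
    have h2 : Tendsto (fun k => ‖β‖ₑ * eLpNorm (v k - g) 2 m) atTop (𝓝 0) := by
      have := ENNReal.Tendsto.const_mul (a := ‖β‖ₑ) hv1 (Or.inr (by simp))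
      simpa only [mul_zero] using this
    have h3 := h1.add h2
    rw [add_zero] at h3
    refine tendsto_of_tendsto_of_tendsto_of_le_of_le tendsto_const_nhds h3
      (fun _ => zero_le) (fun k => ?_)
    have e : (fun x => α * u k x + β * v k x + γ * (u k x * v k x) + δ * (u k x * u k x)) -
        (fun x => α * f x + β * g x + γ * (f x * g x) + δ * (f x * f x)) =
        ((fun x => (α + γ * v k x + δ * u k x) * u k x) -
          (fun x => (α + γ * g x + δ * f x) * f x)) + β • (v k - g) := by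
      ext x; simp only [Pi.sub_apply, Pi.add_apply, Pi.smul_apply, smul_eq_mul]; ring
    rw [e, ← eLpNorm_const_smul]
    refine eLpNorm_add_le ?_ ?_ (by norm_num)
    · exact ((m1 (hup k).1.2.1.1 (hvq k).1.2.1.1).mul (hup k).1.2.1.1).sub
        ((m1 hf.1.1 hg.1.1).mul hf.1.1)
    · exact ((hvq k).1.2.1.1.sub hg.1.1).const_smul β
  · have h1 := tendsto_mul_L2 (a := fun k x => |α + γ * v k x + 2 * δ * u k x|)
      (A := fun x => |α + γ * g x + 2 * δ * f x|) (C := |α| + |γ| * D + |2 * δ| * C)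
      (fun k => m2 (hup k).1.2.1.1 (hvq k).1.2.1.1) (m2 hf.1.1 hg.1.1)
      (fun k => Eventually.of_forall fun x => b2 ((hup k).2 x) ((hvq k).2 x))
      (by filter_upwards [hu3, hv3] with x hx hy
          exact ((tendsto_const_nhds.add (hy.const_mul γ)).add (hx.const_mul (2 * δ))).abs)
      (fun k => (hup k).1.2.2.1) hf.2.1 hu2
    have h2 := tendsto_mul_L2 (a := fun k x => |β + γ * u k x|)
      (A := fun x => |β + γ * f x|) (C := |β| + |γ| * C)
      (fun k => m3 (hup k).1.2.1.1) (m3 hf.1.1)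
      (fun k => Eventually.of_forall fun x => b3 ((hup k).2 x))
      (by filter_upwards [hu3] with x hx
          exact (tendsto_const_nhds.add (hx.const_mul γ)).abs)
      (fun k => (hvq k).1.2.2.1) hg.2.1 hv2
    have h3 := h1.add h2
    rw [add_zero] at h3
    refine tendsto_of_tendsto_of_tendsto_of_le_of_le tendsto_const_nhds h3
      (fun _ => zero_le) (fun k => ?_)
    have e : (fun x => |α + γ * v k x + 2 * δ * u k x| * p k x + |β + γ * u k x| * q k x) -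
        (fun x => |α + γ * g x + 2 * δ * f x| * F x + |β + γ * f x| * G x) =
        ((fun x => |α + γ * v k x + 2 * δ * u k x| * p k x) -
          (fun x => |α + γ * g x + 2 * δ * f x| * F x)) +
        ((fun x => |β + γ * u k x| * q k x) - (fun x => |β + γ * f x| * G x)) := by
      ext x; simp only [Pi.sub_apply, Pi.add_apply]; ring
    rw [e]
    refine eLpNorm_add_le ?_ ?_ (by norm_num)
    · exact ((m2 (hup k).1.2.1.1 (hvq k).1.2.1.1).mul (hup k).1.2.2.1.1).sub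
        ((m2 hf.1.1 hg.1.1).mul hf.2.1.1)
    · exact ((m3 (hup k).1.2.1.1).mul (hvq k).1.2.2.1.1).sub ((m3 hf.1.1).mul hg.2.1.1)

end Vale.Agent.P233.Met
end
end

section

section

open Filter Topology Set

namespace Vale.Agent.P233.Met

/-- seminorms on the plane -/
structure IsSemi2 (N : ℝ → ℝ → ℝ) : Prop where
  nonneg : ∀ s t, 0 ≤ N s t
  homog : ∀ c s t, N (c * s) (c * t) = |c| * N s t
  add_le : ∀ s t s' t', N (s + s') (t + t') ≤ N s t + N s' t'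

namespace IsSemi2

variable {N : ℝ → ℝ → ℝ}

theorem abs_sub_le (h : IsSemi2 N) (s t s' t' : ℝ) :
    |N s t - N s' t'| ≤ N (s - s') (t - t') := by
  have h1 := h.add_le (s - s') (t - t') s' t'
  have h2 := h.add_le (s' - s) (t' - t) s t
  have h3 := h.homog (-1) (s - s') (t - t')
  simp only [sub_add_cancel] at h1 h2
  have e1 : (-1 : ℝ) * (s - s') = s' - s := by ring
  have e2 : (-1 : ℝ) * (t - t') = t' - t := by ring
  rw [e1, e2, abs_neg, abs_one, one_mul] at h3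
  rw [h3] at h2
  rw [abs_le]
  constructor <;> linarith

theorem le_coord (h : IsSemi2 N) (s t : ℝ) : N s t ≤ |s| * N 1 0 + |t| * N 0 1 := by
  have h1 := h.add_le s 0 0 t
  simp only [add_zero, zero_add] at h1
  have h2 := h.homog s 1 0
  have h3 := h.homog t 0 1
  simp only [mul_one, mul_zero] at h2 h3
  rw [h2, h3] at h1
  exact h1

theorem zero (h : IsSemi2 N) : N 0 0 = 0 := by
  have h1 := h.homog 0 0 0
  simpa using h1

theorem flip (h : IsSemi2 N) : IsSemi2 (fun s t => N s (-t)) where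
  nonneg s t := h.nonneg _ _
  homog c s t := by
    have := h.homog c s (-t)
    rw [← this]; congr 1; ring
  add_le s t s' t' := by
    have := h.add_le s (-t) s' (-t')
    have e : -(t + t') = -t + -t' := by ring
    rw [e]; exact this

/-- monotonicity of difference quotients -/
theorem quot_mono (h : IsSemi2 N) {t t' : ℝ} (ht : 0 < t) (htt' : t ≤ t') :
    (N 1 t ^ 2 - N 1 0 ^ 2) / t ≤ (N 1 t' ^ 2 - N 1 0 ^ 2) / t' := by
  have ht' : 0 < t' := lt_of_lt_of_le ht htt'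
  set l : ℝ := t / t' with hl
  have hl0 : 0 ≤ l := by positivity
  have hl1 : l ≤ 1 := by rw [hl, div_le_one ht']; exact htt'
  have h1 := h.add_le (1 - l) 0 l t
  have e1 : 1 - l + l = 1 := by ring
  rw [e1, zero_add] at h1
  have h2 := h.homog (1 - l) 1 0
  have h3 := h.homog l 1 t'
  have e2 : l * t' = t := by rw [hl]; field_simp
  rw [e2, mul_one, abs_of_nonneg hl0] at h3
  rw [mul_one, mul_zero, abs_of_nonneg (by linarith)] at h2
  rw [h2, h3] at h1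
  have hN0 := h.nonneg 1 0
  have hNt := h.nonneg 1 t
  have hNt' := h.nonneg 1 t'
  have h4 : N 1 t ^ 2 ≤ ((1 - l) * N 1 0 + l * N 1 t') ^ 2 := by
    (clear * - hNt h1; gcongr)
  have h5 : ((1 - l) * N 1 0 + l * N 1 t') ^ 2 ≤ (1 - l) * N 1 0 ^ 2 + l * N 1 t' ^ 2 := by
    nlinarith only [mul_nonneg (mul_nonneg hl0 (by linarith : (0 : ℝ) ≤ 1 - l))       (sq_nonneg (N 1 0 - N 1 t'))]
  have h6 : N 1 t ^ 2 - N 1 0 ^ 2 ≤ l * (N 1 t' ^ 2 - N 1 0 ^ 2) := by linarith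
  rw [div_le_iff₀ ht]
  have e3 : (N 1 t' ^ 2 - N 1 0 ^ 2) / t' * t = l * (N 1 t' ^ 2 - N 1 0 ^ 2) := by
    rw [hl]; ring
  rw [e3]
  exact h6

theorem quot_lower (h : IsSemi2 N) {t : ℝ} (ht : 0 < t) (ht1 : t ≤ 1) :
    -(N 0 1 * (2 * N 1 0 + N 0 1)) ≤ (N 1 t ^ 2 - N 1 0 ^ 2) / t := by
  rw [le_div_iff₀ ht]
  have h1 := h.abs_sub_le 1 t 1 0
  rw [sub_self, sub_zero] at h1
  have h2 := h.homog t 0 1
  rw [mul_zero, mul_one, abs_of_pos ht] at h2
  rw [h2] at h1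
  have h3 := abs_le.1 h1
  have hN0 := h.nonneg 1 0
  have hNt := h.nonneg 1 t
  have hB := h.nonneg 0 1
  have h4 : N 1 t ^ 2 - N 1 0 ^ 2 = (N 1 t - N 1 0) * (N 1 t + N 1 0) := by ring
  rw [h4]
  have h5 : N 1 t + N 1 0 ≤ 2 * N 1 0 + N 0 1 := by nlinarith only [h3, ht, ht1]
  have h6 : 0 ≤ N 1 t + N 1 0 := by linarith
  nlinarith only [h5, h3, hN0, hNt]

theorem exists_quot_lim (h : IsSemi2 N) :
    ∃ L, Tendsto (fun t => (N 1 t ^ 2 - N 1 0 ^ 2) / t) (𝓝[>] 0) (𝓝 L) := by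
  refine ⟨_, MonotoneOn.tendsto_nhdsWithin_Ioo_right (x := (0 : ℝ)) (y := 1)
    ⟨1 / 2, by norm_num, by norm_num⟩ ?_ ?_⟩
  · intro t ht t' _ htt'
    exact h.quot_mono ht.1 htt'
  · refine ⟨-(N 0 1 * (2 * N 1 0 + N 0 1)), ?_⟩
    rintro _ ⟨t, ht, rfl⟩
    exact h.quot_lower ht.1 ht.2.le

theorem tendsto_one (h : IsSemi2 N) {s : ℝ → ℝ} (hs : Tendsto s (𝓝[>] 0) (𝓝 0)) :
    Tendsto (fun ε => N 1 (s ε) ^ 2) (𝓝[>] 0) (𝓝 (N 1 0 ^ 2)) := by
  have h1 : Tendsto (fun ε => N 1 (s ε)) (𝓝[>] 0) (𝓝 (N 1 0)) := by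
    rw [tendsto_iff_dist_tendsto_zero]
    have h2 : Tendsto (fun ε => |s ε| * N 0 1) (𝓝[>] 0) (𝓝 0) := by
      have := hs.abs.mul_const (N 0 1)
      simpa using this
    refine squeeze_zero (fun _ => dist_nonneg) (fun ε => ?_) h2
    rw [Real.dist_eq]
    refine (h.abs_sub_le _ _ _ _).trans ?_
    rw [sub_self, sub_zero]
    have := h.homog (s ε) 0 1
    rw [mul_zero, mul_one] at this
    rw [this]
  exact h1.pow 2

/-- the key limit, positive case -/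
theorem key_pos (h : IsSemi2 N) {g : ℝ} (hg : 0 < g) (k : ℝ) :
    Tendsto (fun ε : ℝ => (N (1 + ε * k) (ε * g) ^ 2 - N 1 0 ^ 2) / (2 * ε) -
      (N (2 * g) ε ^ 2 - N (2 * g) 0 ^ 2) / (4 * ε)) (𝓝[>] 0) (𝓝 (k * N 1 0 ^ 2)) := by
  obtain ⟨L, hL⟩ := h.exists_quot_lim
  have hid : Tendsto (fun ε : ℝ => ε) (𝓝[>] (0 : ℝ)) (𝓝 0) := tendsto_nhdsWithin_of_tendsto_nhds
    tendsto_id
  have hpos : ∀ᶠ ε : ℝ in 𝓝[>] 0, 0 < ε := eventually_mem_nhdsWithin
  have h1k : Tendsto (fun ε : ℝ => 1 + ε * k) (𝓝[>] 0) (𝓝 1) := by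
    have := (hid.mul_const k).const_add 1
    simpa using this
  have h1kpos : ∀ᶠ ε : ℝ in 𝓝[>] 0, 0 < 1 + ε * k := h1k.eventually_const_lt (by norm_num)
  set s : ℝ → ℝ := fun ε => ε * g / (1 + ε * k) with hs
  have hs0 : Tendsto s (𝓝[>] 0) (𝓝 0) := by
    have := (hid.mul_const g).div h1k (by norm_num)
    rw [zero_mul, zero_div] at this
    exact this
  have hs' : Tendsto s (𝓝[>] 0) (𝓝[>] 0) := by
    rw [tendsto_nhdsWithin_iff]
    refine ⟨hs0, ?_⟩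
    filter_upwards [hpos, h1kpos] with ε h1 h2
    exact div_pos (mul_pos h1 hg) h2
  set t : ℝ → ℝ := fun ε => ε / (2 * g) with ht
  have ht' : Tendsto t (𝓝[>] 0) (𝓝[>] 0) := by
    rw [tendsto_nhdsWithin_iff]
    refine ⟨?_, ?_⟩
    · have := hid.div_const (2 * g)
      simpa using this
    · filter_upwards [hpos] with ε h1
      exact div_pos h1 (by positivity)
  have hA : Tendsto (fun ε => (k + ε * k ^ 2 / 2) * N 1 (s ε) ^ 2 +
      g / (2 * (1 + ε * k)) * ((N 1 (s ε) ^ 2 - N 1 0 ^ 2) / s ε)) (𝓝[>] 0)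
      (𝓝 (k * N 1 0 ^ 2 + g / 2 * L)) := by
    refine Tendsto.add (Tendsto.mul ?_ (h.tendsto_one hs0)) (Tendsto.mul ?_ (hL.comp hs'))
    · have := ((hid.mul_const (k ^ 2)).div_const 2).const_add k
      simpa only [zero_mul, zero_div, add_zero] using this
    · have := (tendsto_const_nhds (x := g)).div (h1k.const_mul 2) (by norm_num)
      rw [mul_one] at this
      exact this
  have hB : Tendsto (fun ε => g / 2 * ((N 1 (t ε) ^ 2 - N 1 0 ^ 2) / t ε)) (𝓝[>] 0)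
      (𝓝 (g / 2 * L)) := (hL.comp ht').const_mul (g / 2)
  have hAB := hA.sub hB
  have e0 : k * N 1 0 ^ 2 + g / 2 * L - g / 2 * L = k * N 1 0 ^ 2 := by ring
  rw [e0] at hAB
  refine hAB.congr' ?_
  filter_upwards [hpos, h1kpos] with ε h1 h2
  have e1 : N (1 + ε * k) (ε * g) = (1 + ε * k) * N 1 (s ε) := by
    have := h.homog (1 + ε * k) 1 (s ε)
    rw [abs_of_pos h2, mul_one] at this
    rw [← this]
    congr 1
    rw [hs]; (clear * - h2 hg h1; field_simp)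
  have e2 : N (2 * g) ε = (2 * g) * N 1 (t ε) := by
    have := h.homog (2 * g) 1 (t ε)
    rw [abs_of_pos (by positivity : (0 : ℝ) < 2 * g), mul_one] at this
    rw [← this]
    congr 1
    rw [ht]; (clear * - hg h1; field_simp)
  have e3 : N (2 * g) 0 = (2 * g) * N 1 0 := by
    have := h.homog (2 * g) 1 0
    rw [abs_of_pos (by positivity : (0 : ℝ) < 2 * g), mul_one, mul_zero] at this
    exact this
  have hsne : s ε ≠ 0 := (div_pos (mul_pos h1 hg) h2).ne'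
  rw [e1, e2, e3]
  have hε : ε ≠ 0 := h1.ne'
  have h2' : 1 + ε * k ≠ 0 := h2.ne'
  have hg' : g ≠ 0 := hg.ne'
  have e4 : g / (2 * (1 + ε * k)) * ((N 1 (s ε) ^ 2 - N 1 0 ^ 2) / s ε) =
      (N 1 (s ε) ^ 2 - N 1 0 ^ 2) / (2 * ε) := by
    simp only [hs]; (clear * - hg' h2' hε; field_simp)
  have e5 : g / 2 * ((N 1 (t ε) ^ 2 - N 1 0 ^ 2) / t ε) =
      g ^ 2 * (N 1 (t ε) ^ 2 - N 1 0 ^ 2) / ε := by
    simp only [ht]; (clear * - hε hg'; field_simp)
  rw [e4, e5]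
  field_simp
  ring

/-- the key limit -/
theorem key (h : IsSemi2 N) (g k : ℝ) :
    Tendsto (fun ε : ℝ => (N (1 + ε * k) (ε * g) ^ 2 - N 1 0 ^ 2) / (2 * ε) -
      (N (2 * g) ε ^ 2 - N (2 * g) 0 ^ 2) / (4 * ε)) (𝓝[>] 0) (𝓝 (k * N 1 0 ^ 2)) := by
  rcases lt_trichotomy g 0 with hg | hg | hg
  · have h1 := h.flip.key_pos (g := -g) (by linarith) k
    simp only [neg_zero] at h1
    refine h1.congr fun ε => ?_
    have e1 : -(ε * -g) = ε * g := by ring
    have e2 : N (2 * -g) (-ε) = N (2 * g) ε := by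
      have := h.homog (-1) (2 * g) ε
      rw [abs_neg, abs_one, one_mul] at this
      rw [← this]; congr 1 <;> ring
    have e3 : N (2 * -g) 0 = N (2 * g) 0 := by
      have := h.homog (-1) (2 * g) 0
      rw [abs_neg, abs_one, one_mul] at this
      rw [← this]; congr 1 <;> ring
    rw [e1, e2, e3]
  · subst hg
    have hid : Tendsto (fun ε : ℝ => ε) (𝓝[>] (0 : ℝ)) (𝓝 0) :=
      tendsto_nhdsWithin_of_tendsto_nhds tendsto_id
    have hpos : ∀ᶠ ε : ℝ in 𝓝[>] 0, 0 < ε := eventually_mem_nhdsWithin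
    have h1 : Tendsto (fun ε : ℝ => (k + ε * k ^ 2 / 2) * N 1 0 ^ 2 - ε / 4 * N 0 1 ^ 2) (𝓝[>] 0)
        (𝓝 (k * N 1 0 ^ 2)) := by
      have h2 := ((((hid.mul_const (k ^ 2)).div_const 2).const_add k).mul_const (N 1 0 ^ 2)).sub
        ((hid.div_const 4).mul_const (N 0 1 ^ 2))
      simpa only [zero_mul, zero_div, add_zero, sub_zero] using h2
    refine h1.congr' ?_
    filter_upwards [hpos] with ε hε
    have e1 : N (1 + ε * k) (ε * 0) ^ 2 = (1 + ε * k) ^ 2 * N 1 0 ^ 2 := by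
      have := h.homog (1 + ε * k) 1 0
      rw [mul_one, mul_zero] at this
      rw [mul_zero, this, mul_pow, sq_abs]
    have e2 : N (2 * 0) ε ^ 2 = ε ^ 2 * N 0 1 ^ 2 := by
      have := h.homog ε 0 1
      rw [mul_one, mul_zero] at this
      rw [mul_zero, this, mul_pow, sq_abs]
    have e3 : N (2 * 0) 0 = 0 := by rw [mul_zero]; exact h.zero
    rw [e1, e2, e3]
    have hε' : ε ≠ 0 := hε.ne'
    field_simp
    ring
  · exact h.key_pos hg k

theorem bound_a (h : IsSemi2 N) (g k : ℝ) {ε : ℝ} (hε : 0 < ε) (hε1 : ε ≤ 1) :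
    |(N (1 + ε * k) (ε * g) ^ 2 - N 1 0 ^ 2) / (2 * ε)| ≤
      (|k| * N 1 0 + |g| * N 0 1) * (2 * N 1 0 + (|k| * N 1 0 + |g| * N 0 1)) := by
  set A := N 1 0 with hA
  set B := |k| * N 1 0 + |g| * N 0 1 with hB
  have hA0 : 0 ≤ A := h.nonneg _ _
  have hB0 : 0 ≤ B := by
    have := h.nonneg 0 1
    (clear * - hA0 this; positivity)
  have h1 : |N (1 + ε * k) (ε * g) - A| ≤ ε * B := by
    refine (h.abs_sub_le _ _ _ _).trans ?_
    have e : N (1 + ε * k - 1) (ε * g - 0) = ε * N k g := by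
      have := h.homog ε k g
      rw [abs_of_pos hε] at this
      rw [← this]; congr 1 <;> ring
    rw [e]
    have := h.le_coord k g
    (clear * - this hε; gcongr)
  have h2 : N (1 + ε * k) (ε * g) ^ 2 - A ^ 2 =
      (N (1 + ε * k) (ε * g) - A) * (N (1 + ε * k) (ε * g) + A) := by ring
  rw [h2, abs_div, abs_mul, abs_of_pos (by positivity : 0 < 2 * ε), div_le_iff₀ (by positivity)]
  have h3 : |N (1 + ε * k) (ε * g) + A| ≤ 2 * A + B := by
    rw [abs_of_nonneg (add_nonneg (h.nonneg _ _) hA0)]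
    have := (abs_le.1 h1).2
    have h4 : ε * B ≤ 1 * B := by (clear * - hε1 hB0; gcongr)
    linarith only [this, h4]
  calc _ ≤ (ε * B) * (2 * A + B) := by (clear * - h1 h3 hε hB0; gcongr)
    _ ≤ B * (2 * A + B) * (2 * ε) := by
      have : 0 ≤ B * (2 * A + B) * ε := by (clear * - hB0 hA0 hε; positivity)
      linarith

theorem bound_b (h : IsSemi2 N) (g : ℝ) {ε : ℝ} (hε : 0 < ε) (hε1 : ε ≤ 1) :
    |(N (2 * g) ε ^ 2 - N (2 * g) 0 ^ 2) / (4 * ε)| ≤
      N 0 1 * (4 * |g| * N 1 0 + N 0 1) := by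
  have hB0 : 0 ≤ N 0 1 := h.nonneg _ _
  have hA0 : 0 ≤ N 1 0 := h.nonneg _ _
  have e1 : N (2 * g) 0 = 2 * |g| * N 1 0 := by
    have := h.homog (2 * g) 1 0
    rw [mul_one, mul_zero] at this
    rw [this, abs_mul]; norm_num
  have h1 : |N (2 * g) ε - N (2 * g) 0| ≤ ε * N 0 1 := by
    refine (h.abs_sub_le _ _ _ _).trans ?_
    rw [sub_self, sub_zero]
    have := h.homog ε 0 1
    rw [mul_one, mul_zero, abs_of_pos hε] at this
    rw [this]
  have h2 : N (2 * g) ε ^ 2 - N (2 * g) 0 ^ 2 =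
      (N (2 * g) ε - N (2 * g) 0) * (N (2 * g) ε + N (2 * g) 0) := by ring
  rw [h2, abs_div, abs_mul, abs_of_pos (by positivity : 0 < 4 * ε), div_le_iff₀ (by positivity)]
  have h3 : |N (2 * g) ε + N (2 * g) 0| ≤ 4 * |g| * N 1 0 + N 0 1 := by
    rw [abs_of_nonneg (add_nonneg (h.nonneg _ _) (h.nonneg _ _))]
    have := (abs_le.1 h1).2
    have h4 : ε * N 0 1 ≤ 1 * N 0 1 := by gcongr
    linarith only [e1, this, h4]
  calc _ ≤ (ε * N 0 1) * (4 * |g| * N 1 0 + N 0 1) := by (clear * - h1 h3 hε hB0; gcongr)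
    _ ≤ N 0 1 * (4 * |g| * N 1 0 + N 0 1) * (4 * ε) := by
      have : 0 ≤ N 0 1 * (4 * |g| * N 1 0 + N 0 1) * ε := by (clear * - hB0 hA0 hε; positivity)
      linarith

end IsSemi2

/-- extension of a rational seminorm -/
theorem exists_semi2_ext (N : ℚ → ℚ → ℝ) (h0 : ∀ p q, 0 ≤ N p q)
    (h1 : ∀ c p q, N (c * p) (c * q) = |(c : ℝ)| * N p q)
    (h2 : ∀ p q p' q', N (p + p') (q + q') ≤ N p q + N p' q') :
    ∃ N' : ℝ → ℝ → ℝ, IsSemi2 N' ∧ ∀ p q : ℚ, N' p q = N p q := by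
  have hcoord : ∀ p q, N p q ≤ |(p : ℝ)| * N 1 0 + |(q : ℝ)| * N 0 1 := by
    intro p q
    have e1 := h2 p 0 0 q
    have e2 := h1 p 1 0
    have e3 := h1 q 0 1
    simp only [mul_one, mul_zero, add_zero, zero_add] at e1 e2 e3
    rw [e2, e3] at e1
    exact e1
  have hsub : ∀ p q p' q', |N p q - N p' q'| ≤ N (p - p') (q - q') := by
    intro p q p' q'
    have e1 := h2 (p - p') (q - q') p' q'
    have e2 := h2 (p' - p) (q' - q) p q
    have e3 := h1 (-1) (p - p') (q - q')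
    simp only [sub_add_cancel] at e1 e2
    have f1 : (-1 : ℚ) * (p - p') = p' - p := by ring
    have f2 : (-1 : ℚ) * (q - q') = q' - q := by ring
    rw [f1, f2] at e3
    simp only [Rat.cast_neg, Rat.cast_one, abs_neg, abs_one, one_mul] at e3
    rw [e3] at e2
    rw [abs_le]
    constructor <;> linarith
  set e : ℚ × ℚ → ℝ × ℝ := fun r => ((r.1 : ℝ), (r.2 : ℝ)) with he
  have hinj : Function.Injective e := by
    rintro ⟨a, b⟩ ⟨c, d⟩ h
    simp only [he, Prod.mk.injEq, Rat.cast_inj] at h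
    exact Prod.ext h.1 h.2
  have hdense : DenseRange e := Rat.denseRange_cast.prodMap Rat.denseRange_cast
  set K : NNReal := ⟨N 1 0 + N 0 1, add_nonneg (h0 _ _) (h0 _ _)⟩ with hK
  set f : ℝ × ℝ → ℝ := fun z => N (Function.invFun e z).1 (Function.invFun e z).2 with hf
  have hfe : ∀ r, f (e r) = N r.1 r.2 := by
    intro r
    simp only [hf]
    rw [Function.leftInverse_invFun hinj r]
  have hLip : LipschitzOnWith K f (range e) := by
    refine LipschitzOnWith.of_dist_le_mul ?_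
    rintro _ ⟨r, rfl⟩ _ ⟨r', rfl⟩
    rw [hfe, hfe, Real.dist_eq]
    refine (hsub _ _ _ _).trans ((hcoord _ _).trans ?_)
    have hd1 : |((r.1 - r'.1 : ℚ) : ℝ)| ≤ dist (e r) (e r') := by
      rw [Prod.dist_eq]
      refine le_trans ?_ (le_max_left _ _)
      simp [he, Real.dist_eq]
    have hd2 : |((r.2 - r'.2 : ℚ) : ℝ)| ≤ dist (e r) (e r') := by
      rw [Prod.dist_eq]
      refine le_trans ?_ (le_max_right _ _)
      simp [he, Real.dist_eq]
    have n1 := h0 1 0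
    have n2 := h0 0 1
    calc _ ≤ dist (e r) (e r') * N 1 0 + dist (e r) (e r') * N 0 1 := by (clear * - hd1 n1 hd2 n2; gcongr)
      _ = (N 1 0 + N 0 1) * dist (e r) (e r') := by ring
  obtain ⟨F, hF, hFe⟩ := hLip.extend_real
  have hFc : Continuous F := hF.continuous
  have hF' : ∀ p q : ℚ, F ((p : ℝ), (q : ℝ)) = N p q := by
    intro p q
    have : F (e (p, q)) = f (e (p, q)) := (hFe (mem_range_self _)).symm
    rw [hfe] at this
    exact this
  refine ⟨fun s t => F (s, t), ⟨?_, ?_, ?_⟩, hF'⟩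
  · intro s t
    have hcl : IsClosed {z : ℝ × ℝ | 0 ≤ F z} := isClosed_le continuous_const hFc
    have := hdense.induction_on (p := fun z => 0 ≤ F z) (s, t) hcl (fun r => by
      rw [hF']; exact h0 _ _)
    exact this
  · intro c s t
    have hcl : IsClosed {z : ℝ × (ℝ × ℝ) | F (z.1 * z.2.1, z.1 * z.2.2) = |z.1| * F z.2} := by
      refine isClosed_eq (hFc.comp (by fun_prop)) ?_
      exact (continuous_fst.abs).mul (hFc.comp continuous_snd)
    have hd : DenseRange (Prod.map (fun c : ℚ => (c : ℝ)) e) :=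
      Rat.denseRange_cast.prodMap hdense
    have := hd.induction_on (p := fun z : ℝ × (ℝ × ℝ) =>
      F (z.1 * z.2.1, z.1 * z.2.2) = |z.1| * F z.2) (c, (s, t)) hcl (by
        rintro ⟨c, p, q⟩
        simp only [Prod.map, he]
        have := hF' (c * p) (c * q)
        push_cast at this
        rw [this, hF', h1])
    exact this
  · intro s t s' t'
    have hcl : IsClosed {z : (ℝ × ℝ) × (ℝ × ℝ) | F (z.1.1 + z.2.1, z.1.2 + z.2.2) ≤
        F z.1 + F z.2} := by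
      refine isClosed_le (hFc.comp (by fun_prop)) ?_
      exact (hFc.comp continuous_fst).add (hFc.comp continuous_snd)
    have hd : DenseRange (Prod.map e e) := hdense.prodMap hdense
    have := hd.induction_on (p := fun z : (ℝ × ℝ) × (ℝ × ℝ) =>
      F (z.1.1 + z.2.1, z.1.2 + z.2.2) ≤ F z.1 + F z.2) ((s, t), (s', t')) hcl (by
        rintro ⟨⟨p, q⟩, p', q'⟩
        simp only [Prod.map, he]
        have := hF' (p + p') (q + q')
        push_cast at this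
        rw [this, hF', hF']
        exact h2 _ _ _ _)
    exact this

end Vale.Agent.P233.Met
end
end

section

section

open MeasureTheory Filter Topology Set
open scoped ENNReal NNReal

namespace Vale.Agent.P233.Met

variable {M : Type*} [MetricSpace M] [MeasurableSpace M] {m : Measure M}

set_option linter.unusedSectionVars false

/-- twice the Cheeger energy -/
noncomputable def Q (m : Measure M) (f : M → ℝ) : ℝ := ∫ x, (mslope m f x) ^ 2 ∂m

/-- the energy is a quadratic form -/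
def Quad (m : Measure M) : Prop :=
  ∀ f g, W12 m f → W12 m g → Q m (f + g) + Q m (f - g) = 2 * Q m f + 2 * Q m g

/-- the bilinear form -/
noncomputable def E (m : Measure M) (f g : M → ℝ) : ℝ := (Q m (f + g) - Q m (f - g)) / 4

variable [BorelSpace M]

theorem Q_neg {f : M → ℝ} (hf : W12 m f) : Q m (-f) = Q m f := by
  unfold Q
  refine integral_congr_ae ?_
  filter_upwards [mslope_neg hf] with x hx
  rw [hx]

theorem Q_sub_comm {f g : M → ℝ} (hf : W12 m f) (hg : W12 m g) : Q m (f - g) = Q m (g - f) := by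
  rw [← Q_neg (hf.sub hg), neg_sub]

theorem Q_const_mul {f : M → ℝ} (c : ℝ) (hf : W12 m f) :
    Q m (fun x => c * f x) = c ^ 2 * Q m f := by
  unfold Q
  rw [← integral_const_mul]
  refine integral_congr_ae ?_
  filter_upwards [mslope_const_mul c hf] with x hx
  rw [hx, mul_pow, sq_abs]

theorem Q_nonneg (f : M → ℝ) : 0 ≤ Q m f := integral_nonneg fun x => sq_nonneg _

theorem E_symm {f g : M → ℝ} (hf : W12 m f) (hg : W12 m g) : E m f g = E m g f := by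
  unfold E
  rw [Q_sub_comm hf hg, add_comm]

/-- three term identity -/
theorem Q_three (hQ : Quad m) {f g h : M → ℝ} (hf : W12 m f) (hg : W12 m g) (hh : W12 m h) :
    Q m (f + g + h) = Q m (f + g) + Q m (g + h) + Q m (f + h) - Q m f - Q m g - Q m h := by
  have h1 := hQ (f + h) g (hf.add hh) hg
  have h2 := hQ (g + h) f (hg.add hh) hf
  have h3 := hQ (f - g) h (hf.sub hg) hh
  have h4 := hQ f g hf hg
  have e1 : f + h + g = f + g + h := by abel
  have e2 : g + h + f = f + g + h := by abel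
  have e3 : f + h - g = f - g + h := by abel
  have e4 : Q m (f - g - h) = Q m (g + h - f) := by
    rw [show f - g - h = -(g + h - f) by abel, Q_neg ((hg.add hh).sub hf)]
  rw [e1, e3] at h1
  rw [e2] at h2
  rw [e4] at h3
  linarith only [h1, h2, h3, h4]

theorem E_add_left (hQ : Quad m) {f g h : M → ℝ} (hf : W12 m f) (hh : W12 m h) (hg : W12 m g) :
    E m (f + h) g = E m f g + E m h g := by
  unfold E
  have h1 := Q_three hQ hf hh hg
  have h2 := Q_three hQ hf hh hg.neg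
  have e1 : f + h + -g = f + h - g := by abel
  have e2 : h + -g = h - g := by abel
  have e3 : f + -g = f - g := by abel
  rw [e1, e2, e3, Q_neg hg] at h2
  rw [h1, h2]
  ring

theorem E_add_right (hQ : Quad m) {f g h : M → ℝ} (hg : W12 m g) (hf : W12 m f) (hh : W12 m h) :
    E m g (f + h) = E m g f + E m g h := by
  rw [E_symm hg (hf.add hh), E_add_left hQ hf hh hg, E_symm hf hg, E_symm hh hg]

theorem E_neg_right (hQ : Quad m) {f g : M → ℝ} (hg : W12 m g) (hf : W12 m f) :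
    E m g (-f) = -E m g f := by
  unfold E
  rw [sub_neg_eq_add, ← sub_eq_add_neg]
  ring

theorem E_zero_right {g : M → ℝ} : E m g 0 = 0 := by
  unfold E
  simp

theorem E_nat_mul (hQ : Quad m) {f g : M → ℝ} (hg : W12 m g) (hf : W12 m f) (n : ℕ) :
    E m g (fun x => (n : ℝ) * f x) = n * E m g f := by
  induction n with
  | zero =>
    have e : (fun x => ((0 : ℕ) : ℝ) * f x) = 0 := by ext x; simp
    rw [e, E_zero_right]; simp
  | succ n ih =>
    have e : (fun x => ((n + 1 : ℕ) : ℝ) * f x) = (fun x => (n : ℝ) * f x) + f := by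
      ext x; simp; ring
    rw [e, E_add_right hQ hg (hf.const_mul _) hf, ih]
    push_cast; ring

theorem E_inv_mul (hQ : Quad m) {f g : M → ℝ} (hg : W12 m g) (hf : W12 m f) (n : ℕ) :
    E m g (fun x => (1 / ((n : ℝ) + 1)) * f x) = (1 / ((n : ℝ) + 1)) * E m g f := by
  have h1 := E_nat_mul hQ hg (hf.const_mul (1 / ((n : ℝ) + 1))) (n + 1)
  have e : (fun x => ((n + 1 : ℕ) : ℝ) * (1 / ((n : ℝ) + 1) * f x)) = f := by
    ext x
    push_cast
    (clear * -; field_simp)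
  rw [e] at h1
  rw [h1]
  push_cast
  field_simp

theorem Q_add (hQ : Quad m) {f g : M → ℝ} (hf : W12 m f) (hg : W12 m g) :
    Q m (f + g) = Q m f + 2 * E m f g + Q m g := by
  have := hQ f g hf hg
  unfold E
  linarith

theorem Q_add_inv (hQ : Quad m) {f g : M → ℝ} (hf : W12 m f) (hg : W12 m g) (n : ℕ) :
    Q m (f + fun x => (1 / ((n : ℝ) + 1)) * g x) =
      Q m f + 2 * (1 / ((n : ℝ) + 1)) * E m f g + (1 / ((n : ℝ) + 1)) ^ 2 * Q m g := by
  rw [Q_add hQ hf (hg.const_mul _), E_inv_mul hQ hf hg, Q_const_mul _ hg]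
  ring

/-- the pointwise seminorm generated by two Sobolev functions -/
theorem exists_semi {g h : M → ℝ} (hg : W12 m g) (hh : W12 m h) :
    ∀ᵐ x ∂m, ∃ N : ℝ → ℝ → ℝ, IsSemi2 N ∧
      ∀ p q : ℚ, N p q = mslope m (fun y => (p : ℝ) * g y + (q : ℝ) * h y) x := by
  have hW : ∀ p q : ℚ, W12 m (fun y => (p : ℝ) * g y + (q : ℝ) * h y) := fun p q =>
    (hg.const_mul _).add (hh.const_mul _)
  have h1 : ∀ᵐ x ∂m, ∀ p q : ℚ, 0 ≤ mslope m (fun y => (p : ℝ) * g y + (q : ℝ) * h y) x := by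
    rw [ae_all_iff]; intro p; rw [ae_all_iff]; intro q
    exact (hW p q).mslope_nonneg
  have h2 : ∀ᵐ x ∂m, ∀ c p q : ℚ,
      mslope m (fun y => ((c * p : ℚ) : ℝ) * g y + ((c * q : ℚ) : ℝ) * h y) x =
      |(c : ℝ)| * mslope m (fun y => (p : ℝ) * g y + (q : ℝ) * h y) x := by
    rw [ae_all_iff]; intro c; rw [ae_all_iff]; intro p; rw [ae_all_iff]; intro q
    have e : (fun y => ((c * p : ℚ) : ℝ) * g y + ((c * q : ℚ) : ℝ) * h y) =
        fun y => (c : ℝ) * ((p : ℝ) * g y + (q : ℝ) * h y) := by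
      ext y; push_cast; ring
    rw [e]
    exact mslope_const_mul (c : ℝ) (hW p q)
  have h3 : ∀ᵐ x ∂m, ∀ p q p' q' : ℚ,
      mslope m (fun y => ((p + p' : ℚ) : ℝ) * g y + ((q + q' : ℚ) : ℝ) * h y) x ≤
      mslope m (fun y => (p : ℝ) * g y + (q : ℝ) * h y) x +
      mslope m (fun y => (p' : ℝ) * g y + (q' : ℝ) * h y) x := by
    rw [ae_all_iff]; intro p; rw [ae_all_iff]; intro q
    rw [ae_all_iff]; intro p'; rw [ae_all_iff]; intro q'
    have e : (fun y => ((p + p' : ℚ) : ℝ) * g y + ((q + q' : ℚ) : ℝ) * h y) =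
        (fun y => (p : ℝ) * g y + (q : ℝ) * h y) + (fun y => (p' : ℝ) * g y + (q' : ℝ) * h y) := by
      ext y; simp only [Rat.cast_add, Pi.add_apply]; ring
    rw [e]
    exact mslope_add_le (hW p q) (hW p' q')
  filter_upwards [h1, h2, h3] with x hx1 hx2 hx3
  obtain ⟨N, hN, hN'⟩ := exists_semi2_ext
    (fun p q => mslope m (fun y => (p : ℝ) * g y + (q : ℝ) * h y) x) hx1 hx2 hx3
  exact ⟨N, hN, hN'⟩

/-- freezing of coefficients -/
theorem mslope_poly {g h : M → ℝ} (hg : W12 m g) (hh : W12 m h) {C D : ℝ}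
    (hC : 0 ≤ C) (hD : 0 ≤ D) (hgC : ∀ᵐ x ∂m, |g x| ≤ C) (hhD : ∀ᵐ x ∂m, |h x| ≤ D)
    (α β γ δ : ℝ) :
    W12 m (fun y => α * g y + β * h y + γ * (g y * h y) + δ * (g y * g y)) ∧
    ∀ᵐ x ∂m, ∀ N : ℝ → ℝ → ℝ, IsSemi2 N →
      (∀ p q : ℚ, N p q = mslope m (fun y => (p : ℝ) * g y + (q : ℝ) * h y) x) →
      mslope m (fun y => α * g y + β * h y + γ * (g y * h y) + δ * (g y * g y)) x =
        N (α + γ * h x + 2 * δ * g x) (β + γ * g x) := by
  have hP : ∀ α β : ℝ, W12 m (fun y => α * g y + β * h y + γ * (g y * h y) + δ * (g y * g y)) :=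
    fun α β => ⟨_, RSlope.poly hg.rSlope hh.rSlope hC hD hgC hhD α β γ δ⟩
  refine ⟨hP α β, ?_⟩
  have hW : ∀ p q : ℚ, W12 m (fun y => (p : ℝ) * g y + (q : ℝ) * h y) := fun p q =>
    (hg.const_mul _).add (hh.const_mul _)
  have h1 : ∀ᵐ x ∂m, ∀ p q : ℚ,
      |mslope m (fun y => α * g y + β * h y + γ * (g y * h y) + δ * (g y * g y)) x -
        mslope m (fun y => (p : ℝ) * g y + (q : ℝ) * h y) x| ≤
      |α - p + γ * h x + 2 * δ * g x| * mslope m g x + |β - q + γ * g x| * mslope m h x := by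
    rw [ae_all_iff]; intro p; rw [ae_all_iff]; intro q
    have e : (fun y => α * g y + β * h y + γ * (g y * h y) + δ * (g y * g y)) -
        (fun y => (p : ℝ) * g y + (q : ℝ) * h y) =
        fun y => (α - p) * g y + (β - q) * h y + γ * (g y * h y) + δ * (g y * g y) := by
      ext y; simp; ring
    have h2 := abs_mslope_sub_le (hP α β) (hW p q)
    rw [e] at h2
    filter_upwards [h2, (RSlope.poly hg.rSlope hh.rSlope hC hD hgC hhD
      (α - p) (β - q) γ δ).mslope_le] with x hx hy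
    exact hx.trans hy
  filter_upwards [h1] with x hx N hN hNe
  have hA : N 1 0 = mslope m g x := by
    have := hNe 1 0
    simpa using this
  have hB : N 0 1 = mslope m h x := by
    have := hNe 0 1
    simpa using this
  set s := α + γ * h x + 2 * δ * g x with hs
  set t := β + γ * g x with ht
  set P := mslope m (fun y => α * g y + β * h y + γ * (g y * h y) + δ * (g y * g y)) x with hPdef
  have hA0 : 0 ≤ N 1 0 := hN.nonneg _ _
  have hB0 : 0 ≤ N 0 1 := hN.nonneg _ _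
  have key : ∀ p q : ℚ, |P - N s t| ≤ 2 * (|s - p| * N 1 0 + |t - q| * N 0 1) := by
    intro p q
    have h2 := hx p q
    rw [← hNe p q] at h2
    have e1 : α - p + γ * h x + 2 * δ * g x = s - p := by rw [hs]; ring
    have e2 : β - q + γ * g x = t - q := by rw [ht]; ring
    rw [e1, e2, ← hA, ← hB] at h2
    have h3 := (hN.abs_sub_le (p : ℝ) (q : ℝ) s t).trans (hN.le_coord _ _)
    rw [abs_sub_comm (p : ℝ) s, abs_sub_comm (q : ℝ) t] at h3
    have h4 : |P - N s t| ≤ |P - N p q| + |N p q - N s t| := by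
      have := abs_add_le (P - N p q) (N p q - N s t)
      simpa only [ge_iff_le, sub_add_sub_cancel] using this
    linarith only [h2, h3, h4]
  have h0 : |P - N s t| ≤ 0 := by
    refine le_of_forall_pos_le_add fun ε hε => ?_
    obtain ⟨η, hη, hη2⟩ : ∃ η > 0, 2 * (η * N 1 0 + η * N 0 1) ≤ ε := by
      refine ⟨ε / (2 * (N 1 0 + N 0 1 + 1)), by (clear * - hε hA0 hB0; positivity), ?_⟩
      have : 2 * (ε / (2 * (N 1 0 + N 0 1 + 1)) * N 1 0 +
          ε / (2 * (N 1 0 + N 0 1 + 1)) * N 0 1) =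
          ε * ((N 1 0 + N 0 1) / (N 1 0 + N 0 1 + 1)) := by (clear * - hA0 hB0 hε; field_simp)
      rw [this]
      have h5 : (N 1 0 + N 0 1) / (N 1 0 + N 0 1 + 1) ≤ 1 := by
        rw [div_le_one (by (clear * - hA0 hB0; positivity))]; linarith only []
      nlinarith only [hε, h5]
    obtain ⟨p, hp1, hp2⟩ := exists_rat_btwn (show s - η < s by linarith)
    obtain ⟨q, hq1, hq2⟩ := exists_rat_btwn (show t - η < t by linarith)
    have h5 := key p q
    have h6 : |s - p| ≤ η := by rw [abs_le]; constructor <;> linarith only [hp1, hp2]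
    have h7 : |t - q| ≤ η := by rw [abs_le]; constructor <;> linarith only [hp1, hp2, hq2, hq1]
    have h8 : |s - p| * N 1 0 + |t - q| * N 0 1 ≤ η * N 1 0 + η * N 0 1 := by (clear * - h6 hA0 h7 hB0; gcongr)
    linarith only [hη2, h5, h8]
  have := abs_nonpos_iff.1 h0
  linarith only [this]

/-- energy density formula -/
theorem energy_density (hQ : Quad m) {g h : M → ℝ} (hg : W12 m g) (hh : W12 m h) {C D : ℝ}
    (hC : 0 ≤ C) (hD : 0 ≤ D) (hgC : ∀ᵐ x ∂m, |g x| ≤ C) (hhD : ∀ᵐ x ∂m, |h x| ≤ D) :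
    ∫ x, h x * (mslope m g x) ^ 2 ∂m =
      E m g (fun x => g x * h x) - E m (fun x => g x * g x) h / 2 := by
  set ε : ℕ → ℝ := fun n => 1 / ((n : ℝ) + 1) with hε
  have hεpos : ∀ n, 0 < ε n := fun n => by (clear * -; positivity)
  have hε1 : ∀ n, ε n ≤ 1 := fun n => by
    simp only [hε]
    rw [div_le_one (by positivity)]
    have : (0 : ℝ) ≤ n := by positivity
    linarith
  have hεlim : Tendsto ε atTop (𝓝 0) := tendsto_one_div_add_atTop_nhds_zero_nat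
  have hεlim' : Tendsto ε atTop (𝓝[>] 0) := by
    rw [tendsto_nhdsWithin_iff]
    exact ⟨hεlim, Eventually.of_forall hεpos⟩
  -- the functions
  set P1 : ℕ → M → ℝ := fun n y => g y + ε n * (g y * h y) with hP1
  set P2 : ℕ → M → ℝ := fun n y => g y * g y + ε n * h y with hP2
  set P3 : M → ℝ := fun y => g y * g y with hP3
  have e1 : ∀ n, (fun y => (1 : ℝ) * g y + 0 * h y + ε n * (g y * h y) + 0 * (g y * g y)) =
      P1 n := by intro n; ext y; simp [hP1]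
  have e2 : ∀ n, (fun y => (0 : ℝ) * g y + ε n * h y + 0 * (g y * h y) + 1 * (g y * g y)) =
      P2 n := by intro n; ext y; simp [hP2]; ring
  have e3 : (fun y => (0 : ℝ) * g y + 0 * h y + 0 * (g y * h y) + 1 * (g y * g y)) = P3 := by
    ext y; simp [hP3]
  have e4 : (fun y => (0 : ℝ) * g y + 0 * h y + 1 * (g y * h y) + 0 * (g y * g y)) =
      fun y => g y * h y := by
    ext y; simp
  have hp1 := fun n => mslope_poly hg hh hC hD hgC hhD 1 0 (ε n) 0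
  have hp2 := fun n => mslope_poly hg hh hC hD hgC hhD 0 (ε n) 0 1
  have hp3 := mslope_poly hg hh hC hD hgC hhD 0 0 0 1
  have hp4 := mslope_poly hg hh hC hD hgC hhD 0 0 1 0
  simp only [e1] at hp1
  simp only [e2] at hp2
  rw [e3] at hp3
  rw [e4] at hp4
  have hW1 : ∀ n, W12 m (P1 n) := fun n => (hp1 n).1
  have hW2 : ∀ n, W12 m (P2 n) := fun n => (hp2 n).1
  have hW3 : W12 m P3 := hp3.1
  have hW4 : W12 m (fun y => g y * h y) := hp4.1
  have hae1 : ∀ᵐ x ∂m, ∀ n, ∀ N : ℝ → ℝ → ℝ, IsSemi2 N →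
      (∀ p q : ℚ, N p q = mslope m (fun y => (p : ℝ) * g y + (q : ℝ) * h y) x) →
      mslope m (P1 n) x = N (1 + ε n * h x) (ε n * g x) := by
    rw [ae_all_iff]; intro n
    filter_upwards [(hp1 n).2] with x hx N hN hNe
    rw [hx N hN hNe]
    congr 1 <;> ring
  have hae2 : ∀ᵐ x ∂m, ∀ n, ∀ N : ℝ → ℝ → ℝ, IsSemi2 N →
      (∀ p q : ℚ, N p q = mslope m (fun y => (p : ℝ) * g y + (q : ℝ) * h y) x) →
      mslope m (P2 n) x = N (2 * g x) (ε n) := by
    rw [ae_all_iff]; intro n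
    filter_upwards [(hp2 n).2] with x hx N hN hNe
    rw [hx N hN hNe]
    congr 1 <;> ring
  have hae3 : ∀ᵐ x ∂m, ∀ N : ℝ → ℝ → ℝ, IsSemi2 N →
      (∀ p q : ℚ, N p q = mslope m (fun y => (p : ℝ) * g y + (q : ℝ) * h y) x) →
      mslope m P3 x = N (2 * g x) 0 := by
    filter_upwards [hp3.2] with x hx N hN hNe
    rw [hx N hN hNe]
    congr 1 <;> ring
  -- the integrands
  set a : ℕ → M → ℝ := fun n x => (mslope m (P1 n) x ^ 2 - mslope m g x ^ 2) / (2 * ε n) with ha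
  set b : ℕ → M → ℝ := fun n x => (mslope m (P2 n) x ^ 2 - mslope m P3 x ^ 2) / (4 * ε n) with hb
  have hsq : ∀ {f : M → ℝ}, W12 m f → Integrable (fun x => mslope m f x ^ 2) m := fun hf =>
    hf.memLp_mslope.integrable_sq
  have hia : ∀ n, Integrable (a n) m := fun n => ((hsq (hW1 n)).sub (hsq hg)).div_const _
  have hib : ∀ n, Integrable (b n) m := fun n => ((hsq (hW2 n)).sub (hsq hW3)).div_const _
  have hlimab : Tendsto (fun n => ∫ x, (a n x - b n x) ∂m) atTop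
      (𝓝 (∫ x, h x * (mslope m g x) ^ 2 ∂m)) := by
    refine tendsto_integral_of_dominated_convergence
      (fun x => (D * mslope m g x + C * mslope m h x) *
        (2 * mslope m g x + (D * mslope m g x + C * mslope m h x)) +
        mslope m h x * (4 * C * mslope m g x + mslope m h x)) ?_ ?_ ?_ ?_
    · intro n
      exact ((hia n).sub (hib n)).aestronglyMeasurable
    · have hA := hg.memLp_mslope
      have hB := hh.memLp_mslope
      have i1 : MemLp (fun x => D * mslope m g x + C * mslope m h x) 2 m :=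
        (hA.const_mul D).add (hB.const_mul C)
      have i2 : MemLp (fun x => 2 * mslope m g x + (D * mslope m g x + C * mslope m h x)) 2 m :=
        (hA.const_mul 2).add i1
      have i3 : MemLp (fun x => 4 * C * mslope m g x + mslope m h x) 2 m :=
        (hA.const_mul (4 * C)).add hB
      exact (i1.integrable_mul i2).add (hB.integrable_mul i3)
    · intro n
      filter_upwards [exists_semi hg hh, hae1, hae2, hae3, hgC, hhD] with x hx h1 h2 h3 hgx hhx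
      obtain ⟨N, hN, hNe⟩ := hx
      have hA : N 1 0 = mslope m g x := by simpa using hNe 1 0
      have hB : N 0 1 = mslope m h x := by simpa using hNe 0 1
      have b1 := hN.bound_a (g x) (h x) (hεpos n) (hε1 n)
      have b2 := hN.bound_b (g x) (hεpos n) (hε1 n)
      rw [← h1 n N hN hNe, hA, hB] at b1
      rw [← h2 n N hN hNe, ← h3 N hN hNe, hA, hB] at b2
      have hA0 : 0 ≤ mslope m g x := hA ▸ hN.nonneg _ _
      have hB0 : 0 ≤ mslope m h x := hB ▸ hN.nonneg _ _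
      rw [Real.norm_eq_abs]
      refine (abs_sub _ _).trans (add_le_add (b1.trans ?_) (b2.trans ?_))
      · (clear * - hhx hA0 hgx hB0 hD hC; gcongr)
      · (clear * - hgx hA0 hB0; gcongr)
    · filter_upwards [exists_semi hg hh, hae1, hae2, hae3] with x hx h1 h2 h3
      obtain ⟨N, hN, hNe⟩ := hx
      have hA : N 1 0 = mslope m g x := by simpa using hNe 1 0
      have h4 := (hN.key (g x) (h x)).comp hεlim'
      rw [hA] at h4
      refine h4.congr fun n => ?_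
      simp only [ha, hb, Function.comp_apply]
      rw [h1 n N hN hNe, h2 n N hN hNe, h3 N hN hNe]
  have hval : ∀ n, ∫ x, (a n x - b n x) ∂m =
      E m g (fun x => g x * h x) + ε n / 2 * Q m (fun x => g x * h x) -
      (E m P3 h / 2 + ε n / 4 * Q m h) := by
    intro n
    rw [integral_sub (hia n) (hib n)]
    have i1 : ∫ x, a n x ∂m = (Q m (P1 n) - Q m g) / (2 * ε n) := by
      simp only [ha]
      rw [integral_div, integral_sub (hsq (hW1 n)) (hsq hg)]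
      rfl
    have i2 : ∫ x, b n x ∂m = (Q m (P2 n) - Q m P3) / (4 * ε n) := by
      simp only [hb]
      rw [integral_div, integral_sub (hsq (hW2 n)) (hsq hW3)]
      rfl
    have f1 : P1 n = g + fun x => (1 / ((n : ℝ) + 1)) * (g x * h x) := by
      ext y; simp only [hP1, hε, one_div, Pi.add_apply]
    have f2 : P2 n = P3 + fun x => (1 / ((n : ℝ) + 1)) * h x := by
      ext y; simp only [hP2, hε, one_div, hP3, Pi.add_apply]
    have q1 : Q m (P1 n) = Q m g + 2 * ε n * E m g (fun x => g x * h x) +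
        ε n ^ 2 * Q m (fun x => g x * h x) := by
      rw [f1, Q_add_inv hQ hg hW4]
    have q2 : Q m (P2 n) = Q m P3 + 2 * ε n * E m P3 h + ε n ^ 2 * Q m h := by
      rw [f2, Q_add_inv hQ hW3 hh]
    rw [i1, i2, q1, q2]
    have := (hεpos n).ne'
    field_simp
    ring
  have hlim2 : Tendsto (fun n => E m g (fun x => g x * h x) + ε n / 2 * Q m (fun x => g x * h x) -
      (E m P3 h / 2 + ε n / 4 * Q m h)) atTop
      (𝓝 (E m g (fun x => g x * h x) - E m P3 h / 2)) := by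
    have h5 := (((hεlim.div_const 2).mul_const (Q m (fun x => g x * h x))).const_add
      (E m g (fun x => g x * h x))).sub (((hεlim.div_const 4).mul_const (Q m h)).const_add
      (E m P3 h / 2))
    simpa only [zero_div, zero_mul, add_zero] using h5
  simp only [hval] at hlimab
  exact tendsto_nhds_unique hlimab hlim2

end Vale.Agent.P233.Met
end
end

section

section

open MeasureTheory Filter Topology Set
open scoped ENNReal NNReal

namespace Vale.Agent.P233.Met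

variable {M : Type*} [MetricSpace M] [MeasurableSpace M] {m : Measure M}

set_option linter.unusedSectionVars false

variable [BorelSpace M]

theorem sq_integrable {f : M → ℝ} (hf : W12 m f) : Integrable (fun x => mslope m f x ^ 2) m :=
  hf.memLp_mslope.integrable_sq

/-- an integrable function that annihilates all bounded Lipschitz functions with bounded support
vanishes -/
theorem ae_eq_zero_of_forall_lip (hfin : ∀ (x : M) (r : ℝ), m (Metric.ball x r) < ∞)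
    {F : M → ℝ} (hF : Integrable F m)
    (h : ∀ φ : M → ℝ, W12 m φ → (∀ x, 0 ≤ φ x) → (∀ x, φ x ≤ 1) → ∫ x, φ x * F x ∂m = 0) :
    F =ᵐ[m] 0 := by
  refine ae_eq_zero_of_forall_setIntegral_isClosed_eq_zero hF fun s hs => ?_
  rcases isEmpty_or_nonempty M with hM | ⟨⟨x₀⟩⟩
  · have : m = 0 := by
      ext t _
      rw [Set.eq_empty_of_isEmpty t]; simp
    rw [this]; simp
  set d : ℕ → ℝ := fun k => 1 / ((k : ℝ) + 1) with hd
  have hd0 : ∀ k, 0 < d k := fun k => by positivity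
  have hdl : Tendsto d atTop (𝓝 0) := tendsto_one_div_add_atTop_nhds_zero_nat
  set φ : ℕ → M → ℝ := fun k x => cutoff x₀ k x * (thickenedIndicator (hd0 k) s x : ℝ) with hφ
  have ht0 : ∀ k x, 0 ≤ (thickenedIndicator (hd0 k) s x : ℝ) := fun k x => NNReal.coe_nonneg _
  have ht1 : ∀ k x, (thickenedIndicator (hd0 k) s x : ℝ) ≤ 1 := fun k x => by
    exact_mod_cast thickenedIndicator_le_one (hd0 k) s x
  have hφ0 : ∀ k x, 0 ≤ φ k x := fun k x => mul_nonneg (cutoff_nonneg _ _ _) (ht0 k x)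
  have hφ1 : ∀ k x, φ k x ≤ 1 := fun k x =>
    mul_le_one₀ (cutoff_le_one _ _ _) (ht0 k x) (ht1 k x)
  have htL : ∀ k, IsLip (fun x => (thickenedIndicator (hd0 k) s x : ℝ)) := fun k => by
    have h3 := lipschitzWith_thickenedIndicator (hd0 k) s
    refine ⟨(d k).toNNReal⁻¹, LipschitzWith.of_dist_le_mul fun x y => ?_⟩
    have h5 := h3.dist_le_mul x y
    rw [NNReal.dist_eq] at h5
    rw [Real.dist_eq]
    exact h5
  have hφL : ∀ k, IsLip (φ k) := fun k =>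
    IsLip.mul ⟨1, cutoff_lip x₀ k⟩ (htL k)
      ⟨1, fun x => abs_le.2 ⟨by linarith [cutoff_nonneg x₀ k x], cutoff_le_one x₀ k x⟩⟩
      ⟨1, fun x => abs_le.2 ⟨by linarith [ht0 k x], ht1 k x⟩⟩
  have hφW : ∀ k, W12 m (φ k) := fun k => by
    obtain ⟨K, hK⟩ := hφL k
    refine ⟨_, (good_of_bounded_support hfin hK (x₀ := x₀) (R := (k : ℝ) + 1) fun x hx => ?_).rSlope⟩
    simp only [hφ]
    rw [cutoff_eq_zero hx, zero_mul]
  have hz : ∀ k, ∫ x, φ k x * F x ∂m = 0 := fun k => h _ (hφW k) (hφ0 k) (hφ1 k)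
  have hlim : Tendsto (fun k => ∫ x, φ k x * F x ∂m) atTop
      (𝓝 (∫ x, s.indicator (fun _ => (1 : ℝ)) x * F x ∂m)) := by
    refine tendsto_integral_of_dominated_convergence (fun x => |F x|) ?_ hF.abs ?_ ?_
    · intro k
      exact ((hφL k).continuous.measurable.aestronglyMeasurable).mul hF.1
    · intro k
      filter_upwards with x
      rw [norm_mul, Real.norm_eq_abs, Real.norm_eq_abs, abs_of_nonneg (hφ0 k x)]
      calc _ ≤ 1 * |F x| := by gcongr; exact hφ1 k x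
        _ = _ := one_mul _
    · filter_upwards with x
      refine Tendsto.mul_const _ ?_
      have h3 := thickenedIndicator_tendsto_indicator_closure hd0 hdl s
      rw [tendsto_pi_nhds] at h3
      have h4 := h3 x
      rw [hs.closure_eq] at h4
      have h5 := (tendsto_cutoff x₀ x).mul ((NNReal.continuous_coe.tendsto _).comp h4)
      have h6 : (1 : ℝ) * ((s.indicator (fun _ => (1 : ℝ≥0)) x : ℝ≥0) : ℝ) =
          s.indicator (fun _ => (1 : ℝ)) x := by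
        by_cases hx : x ∈ s <;> simp [hx]
      rw [h6] at h5
      exact h5
  simp only [hz] at hlim
  have h1 := tendsto_nhds_unique hlim tendsto_const_nhds
  rw [← integral_indicator hs.measurableSet, ← h1]
  congr 1
  ext x
  by_cases hx : x ∈ s <;> simp [hx]

/-- pointwise parallelogram law, bounded functions -/
theorem parallelogram_bdd (hfin : ∀ (x : M) (r : ℝ), m (Metric.ball x r) < ∞) (hQ : Quad m)
    {f g : M → ℝ} (hf : W12 m f) (hg : W12 m g) {C D : ℝ}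
    (hC : 0 ≤ C) (hD : 0 ≤ D) (hfC : ∀ᵐ x ∂m, |f x| ≤ C) (hgD : ∀ᵐ x ∂m, |g x| ≤ D) :
    ∀ᵐ x ∂m, mslope m (f + g) x ^ 2 + mslope m (f - g) x ^ 2 =
      2 * mslope m f x ^ 2 + 2 * mslope m g x ^ 2 := by
  set F : M → ℝ := fun x => mslope m (f + g) x ^ 2 + mslope m (f - g) x ^ 2 -
    (2 * mslope m f x ^ 2 + 2 * mslope m g x ^ 2) with hF
  have i1 := sq_integrable (hf.add hg)
  have i2 := sq_integrable (hf.sub hg)
  have i3 := sq_integrable hf
  have i4 := sq_integrable hg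
  have hFi : Integrable F m := (i1.add i2).sub ((i3.const_mul 2).add (i4.const_mul 2))
  have key : F =ᵐ[m] 0 := by
    refine ae_eq_zero_of_forall_lip hfin hFi fun h hh h0 h1 => ?_
    have hh1 : ∀ᵐ x ∂m, |h x| ≤ 1 := Eventually.of_forall fun x =>
      abs_le.2 ⟨by linarith [h0 x], h1 x⟩
    have hb1 : ∀ᵐ x ∂m, |(f + g) x| ≤ C + D := by
      filter_upwards [hfC, hgD] with x hx hy
      exact (abs_add_le _ _).trans (add_le_add hx hy)
    have hb2 : ∀ᵐ x ∂m, |(f - g) x| ≤ C + D := by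
      filter_upwards [hfC, hgD] with x hx hy
      exact (abs_sub _ _).trans (add_le_add hx hy)
    have d1 := energy_density hQ (hf.add hg) hh (add_nonneg hC hD) zero_le_one hb1 hh1
    have d2 := energy_density hQ (hf.sub hg) hh (add_nonneg hC hD) zero_le_one hb2 hh1
    have d3 := energy_density hQ hf hh hC zero_le_one hfC hh1
    have d4 := energy_density hQ hg hh hD zero_le_one hgD hh1
    -- products are Sobolev
    have w1 : W12 m (fun x => f x * h x) :=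
      ⟨_, RSlope.mul hf.rSlope hh.rSlope hC zero_le_one hfC hh1⟩
    have w2 : W12 m (fun x => g x * h x) :=
      ⟨_, RSlope.mul hg.rSlope hh.rSlope hD zero_le_one hgD hh1⟩
    have w3 : W12 m (fun x => f x * f x) := ⟨_, RSlope.mul hf.rSlope hf.rSlope hC hC hfC hfC⟩
    have w4 : W12 m (fun x => g x * g x) := ⟨_, RSlope.mul hg.rSlope hg.rSlope hD hD hgD hgD⟩
    have w5 : W12 m (fun x => f x * g x) := ⟨_, RSlope.mul hf.rSlope hg.rSlope hC hD hfC hgD⟩
    have w5' : W12 m (fun x => 2 * (f x * g x)) := w5.const_mul 2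
    -- linear algebra
    have e1 : (fun x => (f + g) x * h x) = (fun x => f x * h x) + (fun x => g x * h x) := by
      ext x; simp; ring
    have e2 : (fun x => (f - g) x * h x) = (fun x => f x * h x) + -(fun x => g x * h x) := by
      ext x; simp; ring
    have e3 : (fun x => (f + g) x * (f + g) x) =
        ((fun x => f x * f x) + (fun x => g x * g x)) + (fun x => 2 * (f x * g x)) := by
      ext x; simp; ring
    have e4 : (fun x => (f - g) x * (f - g) x) =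
        ((fun x => f x * f x) + (fun x => g x * g x)) + -(fun x => 2 * (f x * g x)) := by
      ext x; simp; ring
    have n1 : ∀ {a b : M → ℝ}, W12 m a → W12 m b → E m a (-b) = - E m a b := fun ha hb =>
      E_neg_right hQ ha hb
    have n2 : ∀ {a b : M → ℝ}, W12 m a → W12 m b → E m (-a) b = - E m a b := fun ha hb => by
      rw [E_symm ha.neg hb, n1 hb ha, E_symm hb ha]
    rw [e1, e3, E_add_left hQ hf hg (w1.add w2), E_add_right hQ hf w1 w2,
      E_add_right hQ hg w1 w2, E_add_left hQ (w3.add w4) w5' hh, E_add_left hQ w3 w4 hh] at d1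
    rw [e2, e4, sub_eq_add_neg, E_add_left hQ hf hg.neg (w1.add w2.neg),
      E_add_right hQ hf w1 w2.neg, n2 hg (w1.add w2.neg),
      E_add_right hQ hg w1 w2.neg, n1 hf w2, n1 hg w2,
      E_add_left hQ (w3.add w4) w5'.neg hh, E_add_left hQ w3 w4 hh, n2 w5' hh] at d2
    have hbm : ∀ {G : M → ℝ}, Integrable G m → Integrable (fun x => h x * G x) m := by
      intro G hG
      refine hG.mono (hh.memLp.1.mul hG.1) ?_
      filter_upwards [hh1] with x hx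
      rw [norm_mul, Real.norm_eq_abs (h x)]
      calc _ ≤ 1 * ‖G x‖ := by (clear * - hx; gcongr)
        _ = _ := one_mul _
    have eF : (fun x => h x * F x) = fun x =>
        (h x * mslope m (f + g) x ^ 2 + h x * mslope m (f + -g) x ^ 2) -
        (2 * (h x * mslope m f x ^ 2) + 2 * (h x * mslope m g x ^ 2)) := by
      ext x; simp only [hF, sub_eq_add_neg]; ring
    rw [eF, integral_sub, integral_add (hbm i1) (hbm (by rw [← sub_eq_add_neg]; exact i2)),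
      integral_add ((hbm i3).const_mul 2) ((hbm i4).const_mul 2), integral_const_mul,
      integral_const_mul, d1, d2, d3, d4]
    · ring
    · exact (hbm i1).add (hbm (by rw [← sub_eq_add_neg]; exact i2))
    · exact ((hbm i3).const_mul 2).add ((hbm i4).const_mul 2)
  filter_upwards [key] with x hx
  simp only [hF, Pi.zero_apply] at hx
  linarith

/-- pointwise parallelogram law -/
theorem parallelogram (hfin : ∀ (x : M) (r : ℝ), m (Metric.ball x r) < ∞) (hQ : Quad m)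
    {f g : M → ℝ} (hf : W12 m f) (hg : W12 m g) :
    ∀ᵐ x ∂m, mslope m (f + g) x ^ 2 + mslope m (f - g) x ^ 2 =
      2 * mslope m f x ^ 2 + 2 * mslope m g x ^ 2 := by
  set T : ℕ → (M → ℝ) → (M → ℝ) := fun n u x => trunc (n : ℝ) (u x) with hT
  have hn : ∀ n : ℕ, (0 : ℝ) ≤ n := fun n => Nat.cast_nonneg n
  have hWf : ∀ n, W12 m (T n f) := fun n => hf.trunc (hn n)
  have hWg : ∀ n, W12 m (T n g) := fun n => hg.trunc (hn n)
  have h1 : ∀ᵐ x ∂m, ∀ n : ℕ, mslope m (T n f + T n g) x ^ 2 + mslope m (T n f - T n g) x ^ 2 =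
      2 * mslope m (T n f) x ^ 2 + 2 * mslope m (T n g) x ^ 2 := by
    rw [ae_all_iff]; intro n
    exact parallelogram_bdd hfin hQ (hWf n) (hWg n) (hn n) (hn n)
      (Eventually.of_forall fun x => abs_trunc_le (hn n) _)
      (Eventually.of_forall fun x => abs_trunc_le (hn n) _)
  have h2 : ∀ᵐ x ∂m, ∀ n : ℕ, (T n f + T n g) x - (f + g) x = 0 →
      mslope m (T n f + T n g) x = mslope m (f + g) x := by
    rw [ae_all_iff]; intro n
    exact mslope_eq_of_sub_eq_const ((hWf n).add (hWg n)) (hf.add hg) 0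
  have h3 : ∀ᵐ x ∂m, ∀ n : ℕ, (T n f - T n g) x - (f - g) x = 0 →
      mslope m (T n f - T n g) x = mslope m (f - g) x := by
    rw [ae_all_iff]; intro n
    exact mslope_eq_of_sub_eq_const ((hWf n).sub (hWg n)) (hf.sub hg) 0
  have h4 : ∀ᵐ x ∂m, ∀ n : ℕ, (T n f) x - f x = 0 → mslope m (T n f) x = mslope m f x := by
    rw [ae_all_iff]; intro n
    exact mslope_eq_of_sub_eq_const (hWf n) hf 0
  have h5 : ∀ᵐ x ∂m, ∀ n : ℕ, (T n g) x - g x = 0 → mslope m (T n g) x = mslope m g x := by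
    rw [ae_all_iff]; intro n
    exact mslope_eq_of_sub_eq_const (hWg n) hg 0
  filter_upwards [h1, h2, h3, h4, h5] with x a1 a2 a3 a4 a5
  obtain ⟨n, hn1⟩ := exists_nat_ge (max |f x| |g x|)
  have b1 : T n f x = f x := trunc_of_abs_le ((le_max_left _ _).trans hn1)
  have b2 : T n g x = g x := trunc_of_abs_le ((le_max_right _ _).trans hn1)
  have c1 := a2 n (by simp [b1, b2])
  have c2 := a3 n (by simp [b1, b2])
  have c3 := a4 n (by simp [b1])
  have c4 := a5 n (by simp [b2])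
  have := a1 n
  rwa [c1, c2, c3, c4] at this

end Vale.Agent.P233.Met
end
end

section

section

open MeasureTheory Filter Topology Set
open scoped ENNReal NNReal

namespace Vale.Agent.P233.Met

variable {M : Type*} [MetricSpace M] [MeasurableSpace M] {m : Measure M}

set_option linter.unusedSectionVars false

/-- the polarization of `|Df|²` -/
noncomputable def gam (m : Measure M) (f g : M → ℝ) (x : M) : ℝ :=
  (mslope m (f + g) x ^ 2 - mslope m (f - g) x ^ 2) / 4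

variable [BorelSpace M]

theorem gam_congr {f g f' g' : M → ℝ} (hf : W12 m f) (hg : W12 m g) (hff' : f =ᵐ[m] f')
    (hgg' : g =ᵐ[m] g') : gam m f g =ᵐ[m] gam m f' g' := by
  have h1 : f + g =ᵐ[m] f' + g' := hff'.add hgg'
  have h2 : f - g =ᵐ[m] f' - g' := hff'.sub hgg'
  filter_upwards [mslope_congr h1 (hf.add hg), mslope_congr h2 (hf.sub hg)] with x hx hy
  unfold gam
  rw [hx, hy]

theorem gam_self {f : M → ℝ} (hf : W12 m f) : ∀ᵐ x ∂m, gam m f f x = mslope m f x ^ 2 := by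
  have e1 : f + f = fun x => 2 * f x := by ext x; simp; ring
  filter_upwards [mslope_const_mul 2 hf, mslope_zero (m := m)] with x hx hy
  unfold gam
  rw [sub_self, hy, e1, hx]
  simp
  ring

theorem gam_symm {f g : M → ℝ} (hf : W12 m f) (hg : W12 m g) :
    ∀ᵐ x ∂m, gam m f g x = gam m g f x := by
  filter_upwards [mslope_neg (hf.sub hg)] with x hx
  rw [neg_sub] at hx
  unfold gam
  rw [add_comm g f, hx]

theorem abs_gam_le {f g : M → ℝ} (hf : W12 m f) (hg : W12 m g) :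
    ∀ᵐ x ∂m, |gam m f g x| ≤ mslope m f x * mslope m g x := by
  have h5 := abs_mslope_sub_le hf hg.neg
  rw [sub_neg_eq_add] at h5
  filter_upwards [mslope_add_le hf hg, mslope_sub_le hf hg, abs_mslope_sub_le hf hg, h5,
    mslope_neg hg, hf.mslope_nonneg, hg.mslope_nonneg, (hf.add hg).mslope_nonneg,
    (hf.sub hg).mslope_nonneg] with x a1 a2 a3 a4 a5 a6 a7 a8 a9
  rw [a5] at a4
  unfold gam
  have b1 : mslope m (f + g) x ^ 2 ≤ (mslope m f x + mslope m g x) ^ 2 := by (clear * - a8 a1; gcongr)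
  have b2 : mslope m (f - g) x ^ 2 ≤ (mslope m f x + mslope m g x) ^ 2 := by (clear * - a9 a2; gcongr)
  have b3 : (mslope m f x - mslope m g x) ^ 2 ≤ mslope m (f - g) x ^ 2 := by
    rw [← sq_abs (mslope m f x - mslope m g x)]; (clear * - a3; gcongr)
  have b4 : (mslope m f x - mslope m g x) ^ 2 ≤ mslope m (f + g) x ^ 2 := by
    rw [← sq_abs (mslope m f x - mslope m g x)]; (clear * - a4; gcongr)
  rw [abs_le]
  constructor <;> linarith

theorem mslope_three (hfin : ∀ (x : M) (r : ℝ), m (Metric.ball x r) < ∞) (hQ : Quad m)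
    {f g h : M → ℝ} (hf : W12 m f) (hg : W12 m g) (hh : W12 m h) :
    ∀ᵐ x ∂m, mslope m (f + g + h) x ^ 2 = mslope m (f + g) x ^ 2 + mslope m (g + h) x ^ 2 +
      mslope m (f + h) x ^ 2 - mslope m f x ^ 2 - mslope m g x ^ 2 - mslope m h x ^ 2 := by
  have h1 := parallelogram hfin hQ (hf.add hh) hg
  have h2 := parallelogram hfin hQ (hg.add hh) hf
  have h3 := parallelogram hfin hQ (hf.sub hg) hh
  have h4 := parallelogram hfin hQ hf hg
  have e1 : f + h + g = f + g + h := by abel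
  have e2 : g + h + f = f + g + h := by abel
  have e3 : f + h - g = f - g + h := by abel
  have e4 : f - g - h = -(g + h - f) := by abel
  rw [e1, e3] at h1
  rw [e2] at h2
  rw [e4] at h3
  filter_upwards [h1, h2, h3, h4, mslope_neg ((hg.add hh).sub hf)] with x a1 a2 a3 a4 a5
  rw [a5] at a3
  linarith

theorem gam_add_left (hfin : ∀ (x : M) (r : ℝ), m (Metric.ball x r) < ∞) (hQ : Quad m)
    {f g h : M → ℝ} (hf : W12 m f) (hg : W12 m g) (hh : W12 m h) :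
    ∀ᵐ x ∂m, gam m (f + g) h x = gam m f h x + gam m g h x := by
  have h2 := mslope_three hfin hQ hf hg hh.neg
  have e1 : f + g + -h = f + g - h := by abel
  have e2 : g + -h = g - h := by abel
  have e3 : f + -h = f - h := by abel
  rw [e1, e2, e3] at h2
  filter_upwards [mslope_three hfin hQ hf hg hh, h2, mslope_neg hh] with x a1 a2 a3
  unfold gam
  rw [a3] at a2
  rw [a1, a2]
  ring

theorem gam_neg_left {f g : M → ℝ} (hf : W12 m f) (hg : W12 m g) :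
    ∀ᵐ x ∂m, gam m (-f) g x = -gam m f g x := by
  have e1 : -f + g = -(f - g) := by abel
  have e2 : -f - g = -(f + g) := by abel
  filter_upwards [mslope_neg (hf.sub hg), mslope_neg (hf.add hg)] with x a1 a2
  unfold gam
  rw [e1, e2, a1, a2]
  ring

theorem gam_nat_mul (hfin : ∀ (x : M) (r : ℝ), m (Metric.ball x r) < ∞) (hQ : Quad m)
    {f g : M → ℝ} (hf : W12 m f) (hg : W12 m g) (n : ℕ) :
    ∀ᵐ x ∂m, gam m (fun y => (n : ℝ) * f y) g x = n * gam m f g x := by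
  induction n with
  | zero =>
    have e : (fun y => ((0 : ℕ) : ℝ) * f y) = 0 := by ext y; simp
    rw [e]
    filter_upwards [mslope_neg hg] with x hx
    unfold gam
    rw [zero_add, zero_sub, hx]
    simp
  | succ n ih =>
    have e : (fun y => ((n + 1 : ℕ) : ℝ) * f y) = (fun y => (n : ℝ) * f y) + f := by
      ext y; simp only [Nat.cast_add, Nat.cast_one, Pi.add_apply]; ring
    rw [e]
    filter_upwards [ih, gam_add_left hfin hQ (hf.const_mul (n : ℝ)) hf hg] with x hx hy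
    rw [hy, hx]
    push_cast; ring

theorem gam_rat_mul (hfin : ∀ (x : M) (r : ℝ), m (Metric.ball x r) < ∞) (hQ : Quad m)
    {f g : M → ℝ} (hf : W12 m f) (hg : W12 m g) (q : ℚ) :
    ∀ᵐ x ∂m, gam m (fun y => (q : ℝ) * f y) g x = q * gam m f g x := by
  -- nonnegative case
  have key : ∀ q : ℚ, 0 ≤ q → ∀ᵐ x ∂m, gam m (fun y => (q : ℝ) * f y) g x = q * gam m f g x := by
    intro q hq
    have hden : (q.den : ℝ) ≠ 0 := by exact_mod_cast q.den_nz
    obtain ⟨k, hk⟩ : ∃ k : ℕ, q.num = k := Int.eq_ofNat_of_zero_le (Rat.num_nonneg.2 hq)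
    have hqk : (q : ℝ) * q.den = k := by
      have h1 : q * q.den = q.num := Rat.mul_den_eq_num q
      rw [hk] at h1
      exact_mod_cast h1
    have h1 := gam_nat_mul hfin hQ (hf.const_mul (q : ℝ)) hg q.den
    have h2 := gam_nat_mul hfin hQ hf hg k
    have e : (fun y => ((q.den : ℕ) : ℝ) * ((q : ℝ) * f y)) = fun y => (k : ℝ) * f y := by
      ext y
      rw [← hqk]; ring
    rw [e] at h1
    filter_upwards [h1, h2] with x a1 a2
    rw [a1] at a2
    have : (q.den : ℝ) * gam m (fun y => (q : ℝ) * f y) g x = (q.den : ℝ) * (q * gam m f g x) := by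
      rw [a2, ← hqk]; ring
    exact mul_left_cancel₀ hden this
  rcases le_total 0 q with hq | hq
  · exact key q hq
  · have h1 := key (-q) (by linarith)
    have e : (fun y => (q : ℝ) * f y) = -(fun y => ((-q : ℚ) : ℝ) * f y) := by
      ext y; simp
    rw [e]
    filter_upwards [h1, gam_neg_left (hf.const_mul ((-q : ℚ) : ℝ)) hg] with x a1 a2
    rw [a2, a1]
    push_cast; ring

theorem gam_const_mul (hfin : ∀ (x : M) (r : ℝ), m (Metric.ball x r) < ∞) (hQ : Quad m)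
    {f g : M → ℝ} (hf : W12 m f) (hg : W12 m g) (c : ℝ) :
    ∀ᵐ x ∂m, gam m (fun y => c * f y) g x = c * gam m f g x := by
  have h1 : ∀ᵐ x ∂m, ∀ q : ℚ, gam m (fun y => (q : ℝ) * f y) g x = q * gam m f g x := by
    rw [ae_all_iff]; intro q; exact gam_rat_mul hfin hQ hf hg q
  have h2 : ∀ᵐ x ∂m, ∀ q : ℚ, |gam m (fun y => (c - q) * f y) g x| ≤
      |c - q| * mslope m f x * mslope m g x := by
    rw [ae_all_iff]; intro q
    filter_upwards [abs_gam_le (hf.const_mul (c - q)) hg, mslope_const_mul (c - q) hf]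
      with x a1 a2
    rwa [a2] at a1
  have h3 : ∀ᵐ x ∂m, ∀ q : ℚ, gam m (fun y => c * f y) g x =
      gam m (fun y => (c - q) * f y) g x + gam m (fun y => (q : ℝ) * f y) g x := by
    rw [ae_all_iff]; intro q
    have e : (fun y => c * f y) = (fun y => (c - q) * f y) + (fun y => (q : ℝ) * f y) := by
      ext y; simp; ring
    rw [e]
    exact gam_add_left hfin hQ (hf.const_mul _) (hf.const_mul _) hg
  filter_upwards [h1, h2, h3, hf.mslope_nonneg, hg.mslope_nonneg] with x a1 a2 a3 a4 a5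
  set G := gam m f g x
  set K := mslope m f x * mslope m g x + |G| with hK
  have hK0 : 0 ≤ K := by (clear * - a4 a5; positivity)
  have h0 : |gam m (fun y => c * f y) g x - c * G| ≤ 0 := by
    refine le_of_forall_pos_le_add fun ε hε => ?_
    obtain ⟨q, hq1, hq2⟩ := exists_rat_btwn (show c - ε / (K + 1) < c by
      have : 0 < ε / (K + 1) := by (clear * - hε a4 a5; positivity)
      linarith only [this])
    have hcq : |c - q| ≤ ε / (K + 1) := by rw [abs_le]; constructor <;> linarith only [hq1, hq2]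
    have e : gam m (fun y => c * f y) g x - c * G =
        gam m (fun y => (c - q) * f y) g x - (c - q) * G := by
      rw [a3 q, a1 q]; ring
    rw [e]
    refine (abs_sub _ _).trans ?_
    rw [abs_mul]
    have h6 := a2 q
    calc _ ≤ |c - q| * mslope m f x * mslope m g x + |c - q| * |G| := by (clear * - h6; gcongr)
      _ = |c - q| * K := by rw [hK]; ring
      _ ≤ ε / (K + 1) * K := by (clear * - hcq a4 a5; gcongr)
      _ = ε * (K / (K + 1)) := by ring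
      _ ≤ ε * 1 := by
        gcongr
        rw [div_le_one (by (clear * - a4 a5; positivity))]; linarith only []
      _ = 0 + ε := by ring
  have := abs_nonpos_iff.1 h0
  linarith only [this]

/-- chain rule -/
theorem gam_comp (hfin : ∀ (x : M) (r : ℝ), m (Metric.ball x r) < ∞) (hQ : Quad m)
    {f g : M → ℝ} (hf : W12 m f) (hg : W12 m g) {φ : ℝ → ℝ} (hφ : ContDiff ℝ 1 φ)
    (hφ0 : φ 0 = 0) {L : ℝ≥0} (hL : ∀ t, |deriv φ t| ≤ L) :
    ∀ᵐ x ∂m, gam m (fun y => φ (f y)) g x = deriv φ (f x) * gam m f g x := by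
  have hφf := hf.comp hφ hφ0 hL
  have h1 : ∀ᵐ x ∂m, ∀ q : ℚ, gam m (fun y => (q : ℝ) * f y) g x = q * gam m f g x := by
    rw [ae_all_iff]; intro q; exact gam_rat_mul hfin hQ hf hg q
  have hψ : ∀ q : ℚ, ContDiff ℝ 1 (fun t => φ t - q * t) := fun q =>
    hφ.sub (contDiff_const.mul contDiff_id)
  have hψd : ∀ (q : ℚ) t, deriv (fun t => φ t - q * t) t = deriv φ t - q := by
    intro q t
    have h1 : HasDerivAt (fun t : ℝ => (q : ℝ) * t) ((q : ℝ) * 1) t :=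
      (hasDerivAt_id t).const_mul (q : ℝ)
    have h2 : HasDerivAt φ (deriv φ t) t := (hφ.differentiable (by norm_num) t).hasDerivAt
    have h3 := (h2.sub h1).deriv
    rw [mul_one] at h3
    exact h3
  have hψL : ∀ (q : ℚ) t, |deriv (fun t => φ t - q * t) t| ≤ (L + Real.toNNReal |(q : ℝ)| : ℝ≥0) := by
    intro q t
    rw [hψd]
    refine (abs_sub _ _).trans ?_
    push_cast
    rw [Real.coe_toNNReal _ (abs_nonneg _)]
    gcongr
    exact hL t
  have hψ0 : ∀ q : ℚ, (fun t => φ t - q * t) 0 = 0 := by intro q; simp [hφ0]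
  have h2 : ∀ᵐ x ∂m, ∀ q : ℚ, |gam m (fun y => φ (f y) - q * f y) g x| ≤
      |deriv φ (f x) - q| * mslope m f x * mslope m g x := by
    rw [ae_all_iff]; intro q
    have hw := hf.comp (hψ q) (hψ0 q) (hψL q)
    filter_upwards [abs_gam_le hw hg, mslope_comp hf (hψ q) (hψ0 q) (hψL q)] with x a1 a2
    rw [hψd] at a2
    rw [a2] at a1
    exact a1
  have h3 : ∀ᵐ x ∂m, ∀ q : ℚ, gam m (fun y => φ (f y)) g x =
      gam m (fun y => φ (f y) - q * f y) g x + gam m (fun y => (q : ℝ) * f y) g x := by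
    rw [ae_all_iff]; intro q
    have e : (fun y => φ (f y)) = (fun y => φ (f y) - q * f y) + (fun y => (q : ℝ) * f y) := by
      ext y; simp
    have hw := hf.comp (hψ q) (hψ0 q) (hψL q)
    have := gam_add_left hfin hQ hw (hf.const_mul (q : ℝ)) hg
    rw [← e] at this
    exact this
  filter_upwards [h1, h2, h3, hf.mslope_nonneg, hg.mslope_nonneg] with x a1 a2 a3 a4 a5
  set G := gam m f g x
  set c := deriv φ (f x)
  set K := mslope m f x * mslope m g x + |G| with hK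
  have hK0 : 0 ≤ K := by (clear * - a4 a5; positivity)
  have h0 : |gam m (fun y => φ (f y)) g x - c * G| ≤ 0 := by
    refine le_of_forall_pos_le_add fun ε hε => ?_
    obtain ⟨q, hq1, hq2⟩ := exists_rat_btwn (show c - ε / (K + 1) < c by
      have : 0 < ε / (K + 1) := by (clear * - hε a4 a5; positivity)
      linarith only [this])
    have hcq : |c - q| ≤ ε / (K + 1) := by rw [abs_le]; constructor <;> linarith only [hq1, hq2]
    have e : gam m (fun y => φ (f y)) g x - c * G =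
        gam m (fun y => φ (f y) - q * f y) g x - (c - q) * G := by
      rw [a3 q, a1 q]; ring
    rw [e]
    refine (abs_sub _ _).trans ?_
    rw [abs_mul]
    have h6 := a2 q
    calc _ ≤ |c - q| * mslope m f x * mslope m g x + |c - q| * |G| := by (clear * - h6; gcongr)
      _ = |c - q| * K := by rw [hK]; ring
      _ ≤ ε / (K + 1) * K := by (clear * - hcq a4 a5; gcongr)
      _ = ε * (K / (K + 1)) := by ring
      _ ≤ ε * 1 := by
        gcongr
        rw [div_le_one (by (clear * - a4 a5; positivity))]; linarith only []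
      _ = 0 + ε := by ring
  have := abs_nonpos_iff.1 h0
  linarith only [this]

end Vale.Agent.P233.Met
end
end

section

section

open MeasureTheory Filter Topology Set
open scoped ENNReal NNReal

namespace Vale.Agent.P233.Met

variable {M : Type*} [MetricSpace M] [MeasurableSpace M] {m : Measure M}

set_option linter.unusedSectionVars false

theorem sq_integral_eq {f : M → ℝ} (hf : MemLp f 2 m) :
    ∫ x, f x ^ 2 ∂m = (eLpNorm f 2 m).toReal ^ 2 := by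
  rw [← Lp.norm_toLp f hf, ← real_inner_self_eq_norm_sq, L2.inner_def]
  refine integral_congr_ae ?_
  filter_upwards [hf.coeFn_toLp] with x hx
  rw [hx]
  simp only [sq, inner_self_eq_norm_sq_to_K, Real.norm_eq_abs, Real.ringHom_apply, abs_mul_abs_self]

theorem eLpNorm_le_of_sq {f : M → ℝ} (hf : MemLp f 2 m) {c : ℝ≥0}
    (h : ∫ x, f x ^ 2 ∂m ≤ (c : ℝ) ^ 2) : eLpNorm f 2 m ≤ c := by
  rw [sq_integral_eq hf] at h
  have h1 : (eLpNorm f 2 m).toReal ≤ c := (sq_le_sq₀ ENNReal.toReal_nonneg c.coe_nonneg).1 h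
  rw [← ENNReal.ofReal_toReal hf.eLpNorm_lt_top.ne, ← ENNReal.ofReal_coe_nnreal]
  exact ENNReal.ofReal_le_ofReal h1

theorem sq_le_of_eLpNorm {f : M → ℝ} (hf : MemLp f 2 m) {c : ℝ≥0}
    (h : eLpNorm f 2 m ≤ c) : ∫ x, f x ^ 2 ∂m ≤ (c : ℝ) ^ 2 := by
  rw [sq_integral_eq hf]
  have h1 : (eLpNorm f 2 m).toReal ≤ c := by
    have := ENNReal.toReal_mono (by simp) h
    simpa only [ge_iff_le, ENNReal.coe_toReal] using this
  have h0 := ENNReal.toReal_nonneg (a := eLpNorm f 2 m)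
  gcongr

theorem tendsto_sq_of_eLpNorm {u : ℕ → M → ℝ} {f : M → ℝ} (hu : ∀ n, MemLp (u n) 2 m)
    (hf : MemLp f 2 m) (h : Tendsto (fun n => eLpNorm (u n - f) 2 m) atTop (𝓝 0)) :
    Tendsto (fun n => ∫ x, (u n x - f x) ^ 2 ∂m) atTop (𝓝 0) := by
  have h1 : ∀ n, ∫ x, (u n x - f x) ^ 2 ∂m = (eLpNorm (u n - f) 2 m).toReal ^ 2 := fun n =>
    sq_integral_eq ((hu n).sub hf)
  simp_rw [h1]
  have h2 := ((ENNReal.tendsto_toReal (by simp)).comp h).pow 2
  simpa only [Function.comp_apply, ENNReal.toReal_zero, ne_eq, OfNat.ofNat_ne_zero, not_false_eq_true,     zero_pow] using h2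

theorem tendsto_norm_sq_of_eLpNorm {u : ℕ → M → ℝ} {f : M → ℝ} (hu : ∀ n, MemLp (u n) 2 m)
    (hf : MemLp f 2 m) (h : Tendsto (fun n => eLpNorm (u n - f) 2 m) atTop (𝓝 0)) :
    Tendsto (fun n => ∫ x, (u n x) ^ 2 ∂m) atTop (𝓝 (∫ x, (f x) ^ 2 ∂m)) := by
  have h1 : ∀ n, ∫ x, (u n x) ^ 2 ∂m = ‖(hu n).toLp‖ ^ 2 := fun n => by
    rw [sq_integral_eq (hu n), Lp.norm_toLp]
  have h2 : ∫ x, (f x) ^ 2 ∂m = ‖hf.toLp‖ ^ 2 := by
    rw [sq_integral_eq hf, Lp.norm_toLp]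
  simp_rw [h1]
  rw [h2]
  have h3 : Tendsto (fun n => (hu n).toLp) atTop (𝓝 hf.toLp) := by
    rw [Lp.tendsto_Lp_iff_tendsto_eLpNorm']
    refine h.congr fun n => eLpNorm_congr_ae ?_
    filter_upwards [(hu n).coeFn_toLp, hf.coeFn_toLp] with x hx hy
    simp [hx, hy]
  exact (h3.norm).pow 2

variable [BorelSpace M]

/-- lower semicontinuity of the energy -/
theorem Q_le_of_approx {f : M → ℝ} (hf : MemLp f 2 m) {c : ℝ} (hc : 0 ≤ c)
    (h : ∀ ε : ℝ≥0∞, ε ≠ 0 → ∃ f' : M → ℝ, W12 m f' ∧ eLpNorm (f' - f) 2 m ≤ ε ∧ Q m f' ≤ c) :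
    W12 m f ∧ Q m f ≤ c := by
  have h1 : ∃ G, RSlope m f G ∧ eLpNorm G 2 m ≤ (Real.toNNReal (Real.sqrt c)) := by
    refine exists_rSlope_of_bounded hf fun ε hε => ?_
    obtain ⟨f', h1, h2, h3⟩ := h ε hε
    refine ⟨f', mslope m f', h1.rSlope, h2, eLpNorm_le_of_sq h1.memLp_mslope ?_⟩
    rw [Real.coe_toNNReal _ (Real.sqrt_nonneg _), Real.sq_sqrt hc]
    exact h3
  obtain ⟨G, hG, hGc⟩ := h1
  have hW : W12 m f := ⟨G, hG⟩
  refine ⟨hW, ?_⟩
  have h2 := sq_le_of_eLpNorm hG.2.1 hGc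
  rw [Real.coe_toNNReal _ (Real.sqrt_nonneg _), Real.sq_sqrt hc] at h2
  refine le_trans ?_ h2
  unfold Q
  refine integral_mono_ae (sq_integrable hW) hG.2.1.integrable_sq ?_
  filter_upwards [hG.mslope_le, hW.mslope_nonneg] with x hx hy
  (clear * - hy hx; gcongr)

/-- completeness of `W^{1,2}` -/
theorem W12_complete (u : ℕ → M → ℝ) (hu : ∀ n, W12 m (u n))
    (hc : ∀ ε > 0, ∃ N, ∀ n ≥ N, ∀ k ≥ N,
      ∫ x, (u n x - u k x) ^ 2 ∂m + Q m (u n - u k) < ε) :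
    ∃ f : M → ℝ, W12 m f ∧
      Tendsto (fun n => ∫ x, (u n x - f x) ^ 2 ∂m + Q m (u n - f)) atTop (𝓝 0) := by
  set U : ℕ → Lp ℝ 2 m := fun n => (hu n).memLp.toLp with hU
  have hUd : ∀ n k, ‖U n - U k‖ ^ 2 = ∫ x, (u n x - u k x) ^ 2 ∂m := by
    intro n k
    rw [hU]
    simp only
    rw [← MemLp.toLp_sub, Lp.norm_toLp]
    exact (sq_integral_eq ((hu n).memLp.sub (hu k).memLp)).symm
  have hcau : CauchySeq U := by
    rw [Metric.cauchySeq_iff]
    intro ε hε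
    obtain ⟨N, hN⟩ := hc (ε ^ 2) (by positivity)
    refine ⟨N, fun n hn k hk => ?_⟩
    rw [dist_eq_norm]
    have h1 := hN n hn k hk
    have h2 : ‖U n - U k‖ ^ 2 < ε ^ 2 := by
      rw [hUd]
      have := Q_nonneg (m := m) (u n - u k)
      linarith only [h1, this]
    exact lt_of_pow_lt_pow_left₀ 2 hε.le h2
  obtain ⟨F, hF⟩ := cauchySeq_tendsto_of_complete hcau
  have hFm : MemLp F 2 m := Lp.memLp F
  have hlim : Tendsto (fun n => eLpNorm (u n - ⇑F) 2 m) atTop (𝓝 0) := by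
    rw [Lp.tendsto_Lp_iff_tendsto_eLpNorm'] at hF
    refine hF.congr fun n => eLpNorm_congr_ae ?_
    filter_upwards [(hu n).memLp.coeFn_toLp] with x hx
    simp only [Pi.sub_apply, hU]
    rw [hx]
  -- the key estimate
  have key : ∀ ε > 0, ∃ N, ∀ n ≥ N, W12 m (u n - ⇑F) ∧ Q m (u n - ⇑F) ≤ ε := by
    intro ε hε
    obtain ⟨N, hN⟩ := hc ε hε
    refine ⟨N, fun n hn => ?_⟩
    refine Q_le_of_approx ((hu n).memLp.sub hFm) hε.le fun δ hδ => ?_
    have e1 := (hlim.eventually (ge_mem_nhds (pos_iff_ne_zero.2 hδ)))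
    obtain ⟨k, hk1, hk2⟩ := (e1.and (eventually_ge_atTop N)).exists
    refine ⟨u n - u k, (hu n).sub (hu k), ?_, ?_⟩
    · have e : u n - u k - (u n - ⇑F) = -(u k - ⇑F) := by abel
      rw [e, eLpNorm_neg]
      exact hk1
    · have h1 := hN n hn k hk2
      have h2 : 0 ≤ ∫ x, (u n x - u k x) ^ 2 ∂m := integral_nonneg fun x => sq_nonneg _
      linarith only [h1, h2]
  obtain ⟨N, hN⟩ := key 1 one_pos
  have hFW : W12 m ⇑F := by
    have h1 := (hu N).sub (hN N le_rfl).1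
    have e : u N - (u N - ⇑F) = ⇑F := by abel
    rwa [e] at h1
  refine ⟨F, hFW, ?_⟩
  have h1 := tendsto_sq_of_eLpNorm (fun n => (hu n).memLp) hFm hlim
  have h2 : Tendsto (fun n => Q m (u n - ⇑F)) atTop (𝓝 0) := by
    rw [Metric.tendsto_atTop]
    intro ε hε
    obtain ⟨N, hN⟩ := key (ε / 2) (by positivity)
    refine ⟨N, fun n hn => ?_⟩
    rw [Real.dist_eq, sub_zero, abs_of_nonneg (Q_nonneg _)]
    linarith only [hε, (hN n hn).2]
  simpa only [add_zero] using h1.add h2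

/-- density of bounded Lipschitz functions in energy -/
theorem dense_lip (hQ : Quad m) {f : M → ℝ} (hf : W12 m f) {ε : ℝ} (hε : 0 < ε) :
    ∃ u g : M → ℝ, Good m u g ∧ (∃ C, ∀ x, |u x| ≤ C) ∧
      ∫ x, (f x - u x) ^ 2 ∂m + Q m (f - u) < ε := by
  -- approximating sequence
  have hex : ∀ k : ℕ, ∃ p : (M → ℝ) × (M → ℝ), Good m p.1 p.2 ∧ (∃ C, ∀ x, |p.1 x| ≤ C) ∧
      eLpNorm (p.1 - f) 2 m ≤ ((k : ℝ≥0∞) + 1)⁻¹ ∧
      eLpNorm (p.2 - mslope m f) 2 m ≤ ((k : ℝ≥0∞) + 1)⁻¹ := by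
    intro k
    obtain ⟨u, g, h1, h2, h3, h4⟩ := hf.rSlope.exists_bdd (ε := ((k : ℝ≥0∞) + 1)⁻¹)
      (by simp [ENNReal.inv_eq_zero])
    exact ⟨(u, g), h1, h2, h3, h4⟩
  choose p hp1 hp2 hp3 hp4 using hex
  have hlim0 : Tendsto (fun k : ℕ => ((k : ℝ≥0∞) + 1)⁻¹) atTop (𝓝 0) := by
    have := ENNReal.tendsto_inv_nat_nhds_zero
    have h2 := this.comp (tendsto_add_atTop_nat 1)
    simpa only [Function.comp_def, Nat.cast_add, Nat.cast_one] using h2
  have l1 : Tendsto (fun k => eLpNorm ((p k).1 - f) 2 m) atTop (𝓝 0) :=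
    tendsto_of_tendsto_of_tendsto_of_le_of_le tendsto_const_nhds hlim0 (fun _ => zero_le) hp3
  have l2 : Tendsto (fun k => eLpNorm ((p k).2 - mslope m f) 2 m) atTop (𝓝 0) :=
    tendsto_of_tendsto_of_tendsto_of_le_of_le tendsto_const_nhds hlim0 (fun _ => zero_le) hp4
  have hW : ∀ k, W12 m (p k).1 := fun k => ⟨_, (hp1 k).rSlope⟩
  have n1 := tendsto_sq_of_eLpNorm (fun k => (hp1 k).2.1) hf.memLp l1
  have n2 := tendsto_norm_sq_of_eLpNorm (fun k => (hp1 k).2.2.1) hf.memLp_mslope l2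
  have hQle : ∀ k, Q m (p k).1 ≤ ∫ x, ((p k).2 x) ^ 2 ∂m := by
    intro k
    unfold Q
    refine integral_mono_ae (sq_integrable (hW k)) (hp1 k).2.2.1.integrable_sq ?_
    filter_upwards [(hp1 k).rSlope.mslope_le, (hW k).mslope_nonneg] with x hx hy
    (clear * - hy hx; gcongr)
  -- choose k with small L² error, small gradient excess, and small energy of the difference
  by_contra hcon
  push Not at hcon
  have h1 : ∀ᶠ k in atTop, ∫ x, ((p k).1 x - f x) ^ 2 ∂m < ε / 2 :=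
    n1.eventually (gt_mem_nhds (by positivity))
  have h2 : ∀ᶠ k in atTop, ∫ x, ((p k).2 x) ^ 2 ∂m < Q m f + ε / 8 :=
    n2.eventually (gt_mem_nhds (by unfold Q; linarith))
  have h3 : ∀ᶠ k in atTop, Q m ((p k).1 + f) ≤ 4 * Q m f - ε / 4 := by
    filter_upwards [h1, h2] with k hk1 hk2
    have h4 := hcon (p k).1 (p k).2 (hp1 k) (hp2 k)
    have h5 := hQ (p k).1 f (hW k) hf
    have h6 : Q m (f - (p k).1) = Q m ((p k).1 - f) := Q_sub_comm hf (hW k)
    have h7 : ∫ x, (f x - (p k).1 x) ^ 2 ∂m = ∫ x, ((p k).1 x - f x) ^ 2 ∂m := by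
      congr 1; ext x; ring
    rw [h6, h7] at h4
    have h8 := hQle k
    linarith only [hk1, hk2, h4, h5, h8]
  have e : (fun x => 2 * f x) = f + f := by ext x; simp; ring
  have hc0 : 0 ≤ 4 * Q m f - ε / 4 := by
    obtain ⟨k, hk⟩ := h3.exists
    exact (Q_nonneg _).trans hk
  have h4 := Q_le_of_approx (m := m) (hf.memLp.add hf.memLp) hc0 fun δ hδ => by
    have e1 := (l1.eventually (ge_mem_nhds (pos_iff_ne_zero.2 hδ)))
    obtain ⟨k, hk1, hk2⟩ := (e1.and h3).exists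
    refine ⟨(p k).1 + f, (hW k).add hf, ?_, hk2⟩
    have e2 : (p k).1 + f - (f + f) = (p k).1 - f := by abel
    rw [e2]
    exact hk1
  have h5 := Q_const_mul 2 hf
  rw [e] at h5
  rw [h5] at h4
  linarith only [hε, h4]

end Vale.Agent.P233.Met
end
end

section

section

open MeasureTheory Filter Topology
open scoped ENNReal NNReal

namespace Vale.Agent.P233

section
variable {M : Type*} [MetricSpace M] [MeasurableSpace M] [BorelSpace M] {m : Measure M}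

theorem sob_add_mem {f g : M →ₘ[m] ℝ} (hf : f ∈ (sob m).W) (hg : g ∈ (sob m).W) :
    f + g ∈ (sob m).W :=
  mem_sob_iff.2 (((mem_sob_iff.1 hf).add (mem_sob_iff.1 hg)).congr (AEEqFun.coeFn_add f g).symm)

theorem sob_smul_mem (c : ℝ) {f : M →ₘ[m] ℝ} (hf : f ∈ (sob m).W) : c • f ∈ (sob m).W :=
  mem_sob_iff.2 (((mem_sob_iff.1 hf).const_mul c).congr (AEEqFun.coeFn_smul c f).symm)

theorem sob_sub_mem {f g : M →ₘ[m] ℝ} (hf : f ∈ (sob m).W) (hg : g ∈ (sob m).W) :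
    f - g ∈ (sob m).W :=
  mem_sob_iff.2 (((mem_sob_iff.1 hf).sub (mem_sob_iff.1 hg)).congr (AEEqFun.coeFn_sub f g).symm)

/-- the carre du champ in terms of functions -/
theorem sob_Γ_ae {f g : M →ₘ[m] ℝ} (hf : f ∈ (sob m).W) (hg : g ∈ (sob m).W) :
    ⇑((sob m).Γ f g) =ᵐ[m] Met.gam m f g := by
  have e : (sob m).Γ f g = (4 : ℝ)⁻¹ • (slope (f + g) ^ 2 - slope (f - g) ^ 2) := rfl
  rw [e]
  filter_upwards [smul_ae (slope (f + g) ^ 2 - slope (f - g) ^ 2) (4 : ℝ)⁻¹,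
    sub_ae (slope (f + g) ^ 2) (slope (f - g) ^ 2), sq_ae (slope (f + g)), sq_ae (slope (f - g)),
    slope_ae (sob_add_mem hf hg), slope_ae (sob_sub_mem hf hg),
    Met.mslope_congr (AEEqFun.coeFn_add f g) (mem_sob_iff.1 (sob_add_mem hf hg)),
    Met.mslope_congr (AEEqFun.coeFn_sub f g) (mem_sob_iff.1 (sob_sub_mem hf hg))]
    with x h1 h2 h3 h4 h5 h6 h7 h8
  rw [h1, h2, h3, h4, h5, h6, h7, h8]
  unfold Met.gam
  ring

theorem sob_Γ_self_ae {f : M →ₘ[m] ℝ} (hf : f ∈ (sob m).W) :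
    ∀ᵐ x ∂m, (sob m).Γ f f x = Met.mslope m f x ^ 2 := by
  filter_upwards [sob_Γ_ae hf hf, Met.gam_self (mem_sob_iff.1 hf)] with x h1 h2
  rw [h1, h2]

theorem sob_nrm2 {f : M →ₘ[m] ℝ} (hf : f ∈ (sob m).W) :
    (sob m).nrm2 f = ∫ x, f x ^ 2 ∂m + Met.Q m f := by
  unfold Calc.nrm2 I Met.Q
  congr 1
  · exact integral_congr_ae (sq_ae f)
  · exact integral_congr_ae (sob_Γ_self_ae hf)

theorem sob_nrm2_sub {f : M →ₘ[m] ℝ} (hf : f ∈ (sob m).W) {u : M → ℝ} {v : M →ₘ[m] ℝ}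
    (hv : v ∈ (sob m).W) (huv : ⇑v =ᵐ[m] u) :
    (sob m).nrm2 (f - v) = ∫ x, (f x - u x) ^ 2 ∂m + Met.Q m (f - u) := by
  have h1 := sob_sub_mem hf hv
  rw [sob_nrm2 h1]
  have h2 : ⇑(f - v) =ᵐ[m] ⇑f - u := by
    filter_upwards [AEEqFun.coeFn_sub f v, huv] with x hx hy
    rw [hx]; simp [hy]
  congr 1
  · refine integral_congr_ae ?_
    filter_upwards [h2] with x hx
    rw [hx, Pi.sub_apply]
  · unfold Met.Q
    refine integral_congr_ae ?_
    filter_upwards [Met.mslope_congr h2 (mem_sob_iff.1 h1)] with x hx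
    rw [hx]

/-- class of a Sobolev function -/
theorem exists_class {u : M → ℝ} (hu : Met.W12 m u) :
    ∃ v ∈ (sob m).W, (⇑(v : M →ₘ[m] ℝ) : M → ℝ) =ᵐ[m] u := by
  have hae := AEEqFun.coeFn_mk u hu.memLp.1
  exact ⟨AEEqFun.mk u hu.memLp.1, mem_sob_iff.2 (hu.congr hae.symm), hae⟩

theorem slope_sq_integral {f : M →ₘ[m] ℝ} (hf : f ∈ (sob m).W) {u : M → ℝ} (hu : ⇑f =ᵐ[m] u) :
    ∫ x, (slope f ^ 2) x ∂m = Met.Q m u := by
  unfold Met.Q
  refine integral_congr_ae ?_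
  filter_upwards [sq_ae (slope f), slope_ae hf, Met.mslope_congr hu (mem_sob_iff.1 hf)]
    with x h1 h2 h3
  rw [h1, h2, h3]

theorem quad_of (hq : ∀ f ∈ (sob m).W, ∀ g ∈ (sob m).W,
      ∫ x, (slope (f + g) ^ 2) x ∂m + ∫ x, (slope (f - g) ^ 2) x ∂m
        = 2 * ∫ x, (slope f ^ 2) x ∂m + 2 * ∫ x, (slope g ^ 2) x ∂m) : Met.Quad m := by
  intro f g hf hg
  obtain ⟨F, hF, hFf⟩ := exists_class hf
  obtain ⟨G, hG, hGg⟩ := exists_class hg
  have h1 := hq F hF G hG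
  have e1 : ⇑(F + G) =ᵐ[m] f + g := by
    filter_upwards [AEEqFun.coeFn_add F G, hFf, hGg] with x h1 h2 h3
    rw [h1]; simp [h2, h3]
  have e2 : ⇑(F - G) =ᵐ[m] f - g := by
    filter_upwards [AEEqFun.coeFn_sub F G, hFf, hGg] with x h1 h2 h3
    rw [h1]; simp [h2, h3]
  rw [slope_sq_integral (sob_add_mem hF hG) e1, slope_sq_integral (sob_sub_mem hF hG) e2,
    slope_sq_integral hF hFf, slope_sq_integral hG hGg] at h1
  exact h1

end

variable {M : Type*} [MetricSpace M] [MeasurableSpace M] [BorelSpace M]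
  [SecondCountableTopology M] {m : Measure M}

/-- the Sobolev calculus satisfies the axioms -/
theorem isDir_sob (hfin : ∀ (x : M) (r : ℝ), m (Metric.ball x r) < ∞)
    (hq : ∀ f ∈ (sob m).W, ∀ g ∈ (sob m).W,
      ∫ x, (slope (f + g) ^ 2) x ∂m + ∫ x, (slope (f - g) ^ 2) x ∂m
        = 2 * ∫ x, (slope f ^ 2) x ∂m + 2 * ∫ x, (slope g ^ 2) x ∂m) :
    IsDir (sob m) where
  zero_mem := mem_sob_iff.2 (Met.W12.zero.congr AEEqFun.coeFn_zero.symm)
  add_mem f hf g hg := sob_add_mem hf hg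
  smul_mem c f hf := sob_smul_mem c hf
  memLp f hf := (mem_sob_iff.1 hf).memLp
  symm f hf g hg := by
    rw [eq_iff_ae]
    filter_upwards [sob_Γ_ae hf hg, sob_Γ_ae hg hf,
      Met.gam_symm (mem_sob_iff.1 hf) (mem_sob_iff.1 hg)] with x h1 h2 h3
    rw [h1, h2, h3]
  add_left f hf g hg h hh := by
    have hf' := mem_sob_iff.1 hf
    have hg' := mem_sob_iff.1 hg
    have hh' := mem_sob_iff.1 hh
    rw [eq_iff_ae]
    filter_upwards [sob_Γ_ae (sob_add_mem hf hg) hh, sob_Γ_ae hf hh, sob_Γ_ae hg hh,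
      add_ae ((sob m).Γ f h) ((sob m).Γ g h),
      Met.gam_congr (mem_sob_iff.1 (sob_add_mem hf hg)) hh' (AEEqFun.coeFn_add f g)
        Filter.EventuallyEq.rfl,
      Met.gam_add_left hfin (quad_of hq) hf' hg' hh'] with x h1 h2 h3 h4 h5 h6
    rw [h1, h4, h2, h3, h5, h6]
  smul_left c f hf g hg := by
    have hf' := mem_sob_iff.1 hf
    have hg' := mem_sob_iff.1 hg
    rw [eq_iff_ae]
    filter_upwards [sob_Γ_ae (sob_smul_mem c hf) hg, sob_Γ_ae hf hg,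
      smul_ae ((sob m).Γ f g) c,
      Met.gam_congr (mem_sob_iff.1 (sob_smul_mem c hf)) hg' (AEEqFun.coeFn_smul c f)
        Filter.EventuallyEq.rfl,
      Met.gam_const_mul hfin (quad_of hq) hf' hg' c] with x h1 h2 h3 h5 h6
    rw [h1, h3, h2, h5]
    exact h6
  nonneg f hf := by
    rw [nonneg_iff_ae]
    filter_upwards [sob_Γ_self_ae hf] with x h1
    rw [h1]; positivity
  mem1 f hf := by
    refine (memLp_congr_ae (sob_Γ_self_ae hf)).2 ?_
    rw [memLp_one_iff_integrable]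
    exact Met.sq_integrable (mem_sob_iff.1 hf)
  complete u hu hc := by
    obtain ⟨f, hf, hlim⟩ := Met.W12_complete (m := m) (fun n => ⇑(u n))
      (fun n => mem_sob_iff.1 (hu n)) (by
        intro ε hε
        obtain ⟨N, hN⟩ := hc ε hε
        refine ⟨N, fun n hn k hk => ?_⟩
        have h1 := hN n hn k hk
        rwa [sob_nrm2_sub (hu n) (hu k) Filter.EventuallyEq.rfl] at h1)
    obtain ⟨F, hF, hFf⟩ := exists_class hf
    refine ⟨F, hF, hlim.congr fun n => ?_⟩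
    exact (sob_nrm2_sub (hu n) hF hFf).symm
  chain f hf φ φ' hφ hφ' hd h0 hK := by
    have hf' := mem_sob_iff.1 hf
    obtain ⟨K, hK⟩ := hK
    have hder : deriv φ = φ' := funext fun t => (hd t).deriv
    have hC1 : ContDiff ℝ 1 φ := by
      rw [contDiff_one_iff_deriv]
      exact ⟨fun t => (hd t).differentiableAt, by rw [hder]; exact hφ'⟩
    have hL : ∀ t, |deriv φ t| ≤ (Real.toNNReal K : ℝ) := by
      intro t
      rw [hder]
      exact (hK t).trans (Real.le_coe_toNNReal K)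
    have hW := hf'.comp hC1 h0 hL
    have hae : (fun x => φ (f x)) =ᵐ[m] ⇑(AEEqFun.comp φ hφ f) :=
      (AEEqFun.coeFn_comp φ hφ f).symm
    have hmem : AEEqFun.comp φ hφ f ∈ (sob m).W := mem_sob_iff.2 (hW.congr hae)
    refine ⟨hmem, fun g hg => ?_⟩
    have hg' := mem_sob_iff.1 hg
    rw [eq_iff_ae]
    filter_upwards [sob_Γ_ae hmem hg, sob_Γ_ae hf hg,
      mul_ae (AEEqFun.comp φ' hφ' f) ((sob m).Γ f g), AEEqFun.coeFn_comp φ' hφ' f,
      Met.gam_congr hW hg' hae Filter.EventuallyEq.rfl,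
      Met.gam_comp hfin (quad_of hq) hf' hg' hC1 h0 hL] with x h1 h2 h3 h4 h5 h6
    rw [h1, h3, h4, h2, ← h5, h6, hder]
    rfl
  dense_L2 f hf ε hε := dense_L2_sob hfin f hf ε hε

/-- cut-off functions -/
theorem sob_cutoff (hfin : ∀ (x : M) (r : ℝ), m (Metric.ball x r) < ∞) :
    ∃ η : ℕ → M →ₘ[m] ℝ, (∀ k, η k ∈ (sob m).W ∧ 0 ≤ η k ∧ η k ≤ 1 ∧
      (sob m).Γ (η k) (η k) ≤ ((k : ℝ) + 1)⁻¹ • 1) ∧ (∀ k, η k ≤ η (k + 1)) ∧
      ∀ᵐ x ∂m, Tendsto (fun k => η k x) atTop (𝓝 1) := by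
  rcases isEmpty_or_nonempty M with hM | ⟨⟨x₀⟩⟩
  · have h0 : (0 : M →ₘ[m] ℝ) ∈ (sob m).W :=
      mem_sob_iff.2 (Met.W12.zero.congr AEEqFun.coeFn_zero.symm)
    refine ⟨fun _ => 0, fun k => ⟨h0, le_rfl, ?_, ?_⟩, fun k => le_rfl, ?_⟩
    · rw [le_iff_ae]; filter_upwards with x; exact (hM.false x).elim
    · rw [le_iff_ae]; filter_upwards with x; exact (hM.false x).elim
    · filter_upwards with x; exact (hM.false x).elim
  set w : ℕ → M → ℝ := fun k x => max 0 (min 1 (2 - dist x x₀ / ((k : ℝ) + 1))) with hw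
  have hk0 : ∀ k : ℕ, (0 : ℝ) < (k : ℝ) + 1 := fun k => by positivity
  have hlip : ∀ k : ℕ, LipschitzWith (Real.toNNReal ((k : ℝ) + 1)⁻¹) (w k) := by
    intro k
    have h1 : LipschitzWith (Real.toNNReal ((k : ℝ) + 1)⁻¹)
        (fun x : M => 2 - dist x x₀ / ((k : ℝ) + 1)) := by
      refine LipschitzWith.of_dist_le_mul fun x y => ?_
      rw [Real.dist_eq, Real.coe_toNNReal _ (inv_nonneg.2 (hk0 k).le)]
      have e : 2 - dist x x₀ / ((k : ℝ) + 1) - (2 - dist y x₀ / ((k : ℝ) + 1)) =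
          ((k : ℝ) + 1)⁻¹ * (dist y x₀ - dist x x₀) := by ring
      rw [e, abs_mul, abs_of_nonneg (inv_nonneg.2 (hk0 k).le)]
      refine mul_le_mul_of_nonneg_left ?_ (inv_nonneg.2 (hk0 k).le)
      rw [dist_comm x y]
      exact abs_dist_sub_le y x x₀
    exact (h1.const_min 1).const_max 0
  have hw0 : ∀ k x, 0 ≤ w k x := fun k x => le_max_left _ _
  have hw1 : ∀ k x, w k x ≤ 1 := fun k x => max_le zero_le_one (min_le_left _ _)
  have hsupp : ∀ (k : ℕ) (x : M), x ∉ Metric.ball x₀ (2 * ((k : ℝ) + 1)) → w k x = 0 := by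
    intro k x hx
    rw [Metric.mem_ball, not_lt] at hx
    have h1 : 2 ≤ dist x x₀ / ((k : ℝ) + 1) := by
      rw [le_div_iff₀ (hk0 k)]; exact hx
    exact max_eq_left ((min_le_right _ _).trans (by linarith only [h1]))
  have hgood : ∀ k, Met.Good m (w k) _ := fun k =>
    Met.good_of_bounded_support hfin (hlip k) (hsupp k)
  have hW : ∀ k, Met.W12 m (w k) := fun k => ⟨_, (hgood k).rSlope⟩
  choose η hη1 hη2 using fun k => exists_class (hW k)
  refine ⟨η, fun k => ⟨hη1 k, ?_, ?_, ?_⟩, fun k => ?_, ?_⟩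
  · rw [nonneg_iff_ae]
    filter_upwards [hη2 k] with x hx
    rw [hx]; exact hw0 k x
  · rw [le_iff_ae]
    filter_upwards [hη2 k, one_ae (M := M) (m := m)] with x hx hy
    rw [hx, hy]; exact hw1 k x
  · have h1 := slope_le_of_lipschitz hfin (hη1 k) (hη2 k) (hlip k)
    rw [Real.coe_toNNReal _ (inv_nonneg.2 (hk0 k).le)] at h1
    rw [le_iff_ae] at h1 ⊢
    filter_upwards [h1, sob_Γ_self_ae (hη1 k), slope_ae (hη1 k),
      smul_ae (1 : M →ₘ[m] ℝ) ((k : ℝ) + 1)⁻¹, one_ae (M := M) (m := m),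
      (mem_sob_iff.1 (hη1 k)).mslope_nonneg] with x a1 a2 a3 a4 a5 a6
    rw [a3, a4, a5, mul_one] at a1
    rw [a2, a4, a5, mul_one]
    have h2 : ((k : ℝ) + 1)⁻¹ ≤ 1 := inv_le_one_of_one_le₀ (by linarith only [])
    have h3 : (0 : ℝ) ≤ ((k : ℝ) + 1)⁻¹ := inv_nonneg.2 (hk0 k).le
    nlinarith only [a1, a6, h2]
  · rw [le_iff_ae]
    filter_upwards [hη2 k, hη2 (k + 1)] with x hx hy
    rw [hx, hy]
    simp only [hw]
    refine max_le_max le_rfl (min_le_min le_rfl ?_)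
    push_cast
    have h1 : dist x x₀ / ((k : ℝ) + 1 + 1) ≤ dist x x₀ / ((k : ℝ) + 1) :=
      div_le_div_of_nonneg_left dist_nonneg (hk0 k) (by linarith only [])
    linarith only [h1]
  · filter_upwards [ae_all_iff.2 hη2] with x hx
    obtain ⟨N, hN⟩ := exists_nat_ge (dist x x₀)
    refine tendsto_const_nhds.congr' ?_
    filter_upwards [eventually_ge_atTop N] with k hk
    rw [hx k]
    simp only [hw]
    have h1 : dist x x₀ / ((k : ℝ) + 1) ≤ 1 := by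
      rw [div_le_one (hk0 k)]
      have h2 : (N : ℝ) ≤ k := by exact_mod_cast hk
      linarith only [hN, h2]
    rw [min_eq_left (by linarith only [h1]), max_eq_right zero_le_one]

theorem isGamma_sob (hfin : ∀ (x : M) (r : ℝ), m (Metric.ball x r) < ∞)
    (hq : ∀ f ∈ (sob m).W, ∀ g ∈ (sob m).W,
      ∫ x, (slope (f + g) ^ 2) x ∂m + ∫ x, (slope (f - g) ^ 2) x ∂m
        = 2 * ∫ x, (slope f ^ 2) x ∂m + 2 * ∫ x, (slope g ^ 2) x ∂m)
    (hs : ∀ f ∈ (sob m).W, slope f ≤ 1 → ∃ u : M → ℝ, LipschitzWith 1 u ∧ f =ᵐ[m] u) :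
    IsGamma (sob m) where
  toIsDir := isDir_sob hfin hq
  dense_lip f hf ε hε := by
    obtain ⟨u, g, h1, ⟨C, hC⟩, h3⟩ := Met.dense_lip (quad_of hq) (mem_sob_iff.1 hf) hε
    obtain ⟨v, hv, hvu⟩ := exists_class (⟨_, h1.rSlope⟩ : Met.W12 m u)
    obtain ⟨K, hK⟩ := h1.1
    refine ⟨v, hv, ?_, ?_, ?_⟩
    · rw [mem_top_iff]
      refine ⟨C, ?_⟩
      filter_upwards [hvu] with x hx
      rw [hx]; exact hC x
    · rw [mem_top_iff]
      refine ⟨(K : ℝ) ^ 2, ?_⟩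
      have h4 := slope_le_of_lipschitz hfin hv hvu hK
      rw [le_iff_ae] at h4
      filter_upwards [h4, sob_Γ_self_ae hv, slope_ae hv,
        smul_ae (1 : M →ₘ[m] ℝ) (K : ℝ), one_ae (M := M) (m := m),
        (mem_sob_iff.1 hv).mslope_nonneg] with x a1 a2 a3 a4 a5 a6
      rw [a3, a4, a5, mul_one] at a1
      rw [a2, abs_of_nonneg (sq_nonneg _)]
      (clear * - a6 a1; gcongr)
    · rw [sob_nrm2_sub hf hv hvu]
      exact h3
  cutoff := sob_cutoff hfin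
  lip_iff f hf := by
    constructor
    · rintro ⟨u, ⟨K, hK⟩, ⟨C, hC⟩, hfu⟩
      refine ⟨?_, ?_⟩
      · rw [mem_top_iff]
        refine ⟨C, ?_⟩
        filter_upwards [hfu] with x hx
        rw [hx]; exact hC x
      · rw [mem_top_iff]
        refine ⟨(K : ℝ) ^ 2, ?_⟩
        have h4 := slope_le_of_lipschitz hfin hf hfu hK
        rw [le_iff_ae] at h4
        filter_upwards [h4, sob_Γ_self_ae hf, slope_ae hf,
          smul_ae (1 : M →ₘ[m] ℝ) (K : ℝ), one_ae (M := M) (m := m),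
          (mem_sob_iff.1 hf).mslope_nonneg] with x a1 a2 a3 a4 a5 a6
        rw [a3, a4, a5, mul_one] at a1
        rw [a2, abs_of_nonneg (sq_nonneg _)]
        (clear * - a6 a1; gcongr)
    · rintro ⟨h1, h2⟩
      obtain ⟨C, hC⟩ := mem_top_iff.1 h1
      obtain ⟨L, hL⟩ := mem_top_iff.1 h2
      -- scale so that the slope is at most one
      set c : ℝ := 1 + |L| with hc
      have hc1 : 1 ≤ c := by rw [hc]; linarith only [abs_nonneg L]
      have hc0 : 0 < c := by linarith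
      have hcf : c⁻¹ • f ∈ (sob m).W := sob_smul_mem _ hf
      have hsl : slope (c⁻¹ • f) ≤ 1 := by
        rw [le_iff_ae]
        filter_upwards [slope_ae hcf, one_ae (M := M) (m := m), hL, sob_Γ_self_ae hf,
          Met.mslope_const_mul c⁻¹ (mem_sob_iff.1 hf),
          Met.mslope_congr (AEEqFun.coeFn_smul c⁻¹ f) (mem_sob_iff.1 hcf),
          (mem_sob_iff.1 hf).mslope_nonneg] with x a1 a2 a3 a4 a5 a6 a7
        rw [a1, a2, a6]
        have a5' : Met.mslope m (c⁻¹ • ⇑f) x = |c⁻¹| * Met.mslope m f x := a5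
        rw [a5', abs_of_pos (inv_pos.2 hc0)]
        rw [a4, abs_of_nonneg (sq_nonneg _)] at a3
        rw [inv_mul_le_iff₀ hc0, mul_one]
        have h3 : Met.mslope m f x ^ 2 ≤ c ^ 2 := by
          calc Met.mslope m f x ^ 2 ≤ L := a3
            _ ≤ |L| := le_abs_self L
            _ ≤ c ^ 2 := by nlinarith only []
        exact (sq_le_sq₀ a7 hc0.le).1 h3
      obtain ⟨u, hu1, hu2⟩ := hs _ hcf hsl
      -- the truncated representative
      refine ⟨fun x => Met.trunc |C| (c * u x), ?_, ⟨|C|, fun x => Met.abs_trunc_le (abs_nonneg C) _⟩,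
        ?_⟩
      · have h3 : Met.IsLip (fun x => c * u x) := Met.IsLip.const_mul c ⟨1, hu1⟩
        exact h3.comp (Met.trunc_lip |C|)
      · filter_upwards [hu2, AEEqFun.coeFn_smul c⁻¹ f, hC] with x a1 a2 a3
        rw [← a1, a2]
        simp only [Pi.smul_apply, smul_eq_mul]
        rw [mul_inv_cancel_left₀ hc0.ne', Met.trunc_of_abs_le (a3.trans (le_abs_self C))]

omit [BorelSpace M] [SecondCountableTopology M] in
theorem sigmaFinite_of_ball (hfin : ∀ (x : M) (r : ℝ), m (Metric.ball x r) < ∞) :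
    SigmaFinite m := by
  rcases isEmpty_or_nonempty M with hM | ⟨⟨x₀⟩⟩
  · have : m = 0 := by
      ext s hs
      have : s = ∅ := Set.eq_empty_of_isEmpty s
      rw [this]; simp
    rw [this]; infer_instance
  · refine ⟨⟨⟨fun n => Metric.ball x₀ n, fun n => trivial, fun n => hfin x₀ n, ?_⟩⟩⟩
    exact Metric.iUnion_ball_nat x₀

end Vale.Agent.P233
end
end

section

section

open MeasureTheory Filter Topology
open scoped ENNReal NNReal InnerProductSpace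

universe u

namespace Vale.Agent.P233

theorem main_theorem {M : Type u} [MetricSpace M] [SecondCountableTopology M] [MeasurableSpace M]
    [BorelSpace M] (m : Measure M) (hfin : ∀ (x : M) (r : ℝ), m (Metric.ball x r) < ∞) (κ : ℝ)
    (h : IsRCD m κ 2) :
    (∃ (H : Type u) (_ : NormedAddCommGroup H) (_ : InnerProductSpace ℝ H) (_ : CompleteSpace H)
      (ι : List ((M →ₘ[m] ℝ) × (M →ₘ[m] ℝ)) → H), (sob m).IsL2TM ι) ∧ DistSecGE m κ := by
  have hC : IsGamma (sob m) := isGamma_sob hfin h.quadratic h.sobolev_to_lipschitz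
  have hB : (sob m).BE κ 2 := h.bochner
  have hsf : SigmaFinite m := sigmaFinite_of_ball hfin
  obtain ⟨D₁, D₂, hD⟩ := IsGamma.exists_frame hC
    (fun f hf g hg k hk => IsGamma.gram3 hC hB hf hg hk) hC.toIsDir.exists_dense_seq
  obtain ⟨p, q, hH⟩ := exists_hess hC hB hD
  have S : Setup (sob m) κ D₁ D₂ p q := ⟨hC, hB, hD, hH, hsf⟩
  refine ⟨S.exists_model, ?_⟩
  intro H _ _ _ ι hι X Y hX hY
  exact ⟨(S.cov_rep hι (S.testV_AV hX) (S.testV_AV hY)).1,
    (S.covT_rep hι hX (S.testV_AV hY)).1,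
    fun f hf h0 => S.main H ι hι X Y hX hY f hf h0⟩

end Vale.Agent.P233
end
end

section

section

open MeasureTheory
open scoped ENNReal

namespace Vale.Agent.P233

/-- balls have finite measure -/
theorem ball_lt_top_of_growth {M : Type*} [MetricSpace M] [MeasurableSpace M] {m : Measure M}
    (h : ∃ (x₀ : M) (c : ℝ), ∀ r > 0,
      m (Metric.ball x₀ r) ≤ ENNReal.ofReal (c * Real.exp (c * r ^ 2))) (x : M) (r : ℝ) :
    m (Metric.ball x r) < ∞ := by
  obtain ⟨x₀, c, hc⟩ := h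
  have h1 : Metric.ball x r ⊆ Metric.ball x₀ (|r| + dist x x₀ + 1) := by
    intro y hy
    rw [Metric.mem_ball] at hy ⊢
    linarith [dist_triangle y x x₀, le_abs_self r]
  exact (measure_mono h1).trans_lt ((hc _ (by positivity)).trans_lt ENNReal.ofReal_lt_top)

end Vale.Agent.P233
end
end

section

section

open MeasureTheory Filter Topology
open scoped ENNReal NNReal InnerProductSpace

universe u

set_option linter.unusedSectionVars false

namespace Vale.Agent.P233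

section A

variable {M : Type u} [MetricSpace M] [MeasurableSpace M] {m : Measure M}

theorem S_slope_eq (f : M → ℝ) : S.slope m f = Met.mslope m f := rfl

theorem S_W_iff {f : M → ℝ} : (S.sob m).W f ↔ Met.W12 m f := Iff.rfl

theorem S_Γ_eq (f g : M → ℝ) : (S.sob m).Γ f g = Met.gam m f g := rfl

/-- `f` is a representative of `F` -/
def R (f : M → ℝ) (F : M →ₘ[m] ℝ) : Prop := f =ᵐ[m] F

theorem R.coe (F : M →ₘ[m] ℝ) : R (m := m) F F := Filter.EventuallyEq.rfl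

theorem R.W_iff {f : M → ℝ} {F : M →ₘ[m] ℝ} (h : R f F) : (S.sob m).W f ↔ F ∈ (sob m).W := by
  rw [S_W_iff, mem_sob_iff]
  exact ⟨fun h1 => h1.congr h, fun h1 => h1.congr h.symm⟩

theorem S_W_exists {f : M → ℝ} (h : (S.sob m).W f) : ∃ F : M →ₘ[m] ℝ, R f F ∧ F ∈ (sob m).W := by
  have h1 : R f (AEEqFun.mk f (Met.W12.memLp h).1) := (AEEqFun.coeFn_mk f _).symm
  exact ⟨_, h1, h1.W_iff.1 h⟩

theorem S_L2_exists {f : M → ℝ} (h : S.L2 m f) : ∃ F : M →ₘ[m] ℝ, R f F :=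
  ⟨AEEqFun.mk f h.1, (AEEqFun.coeFn_mk f _).symm⟩

theorem R.B_iff {f : M → ℝ} {F : M →ₘ[m] ℝ} (h : R f F) : (S.sob m).B f ↔ F ∈ (sob m).B := by
  constructor
  · rintro ⟨u, h1, h2, h3⟩
    exact ⟨u, h1, h2, h.symm.trans h3⟩
  · rintro ⟨u, h1, h2, h3⟩
    exact ⟨u, h1, h2, h.trans h3⟩

theorem R.add {f g : M → ℝ} {F G : M →ₘ[m] ℝ} (h : R f F) (h' : R g G) :
    R (fun x => f x + g x) (F + G) := by
  filter_upwards [h, h', add_ae F G] with x h1 h2 h3
  rw [h1, h2, h3]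

theorem R.sub {f g : M → ℝ} {F G : M →ₘ[m] ℝ} (h : R f F) (h' : R g G) :
    R (fun x => f x - g x) (F - G) := by
  filter_upwards [h, h', sub_ae F G] with x h1 h2 h3
  rw [h1, h2, h3]

theorem R.mul {f g : M → ℝ} {F G : M →ₘ[m] ℝ} (h : R f F) (h' : R g G) :
    R (fun x => f x * g x) (F * G) := by
  filter_upwards [h, h', mul_ae F G] with x h1 h2 h3
  rw [h1, h2, h3]

theorem R.sq {f : M → ℝ} {F : M →ₘ[m] ℝ} (h : R f F) : R (fun x => f x ^ 2) (F ^ 2) := by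
  filter_upwards [h, sq_ae F] with x h1 h2
  rw [h1, h2]

theorem R.smul (c : ℝ) {f : M → ℝ} {F : M →ₘ[m] ℝ} (h : R f F) :
    R (fun x => c * f x) (c • F) := by
  filter_upwards [h, smul_ae F c] with x h1 h2
  rw [h1, h2]

theorem R.zero : R (m := m) (fun _ => 0) 0 := zero_ae.symm

theorem R.int {f : M → ℝ} {F : M →ₘ[m] ℝ} (h : R f F) : (S.sob m).int f = ∫ x, F x ∂m :=
  integral_congr_ae h

end A

section B

variable {M : Type u} [MetricSpace M] [MeasurableSpace M] [BorelSpace M]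
  [SecondCountableTopology M] {m : Measure M}

theorem R.Γ {f g : M → ℝ} {F G : M →ₘ[m] ℝ} (h : R f F) (h' : R g G) (hF : F ∈ (sob m).W)
    (hG : G ∈ (sob m).W) : R ((S.sob m).Γ f g) ((sob m).Γ F G) := by
  rw [S_Γ_eq]
  exact (Met.gam_congr (h.W_iff.2 hF) (h'.W_iff.2 hG) h h').trans (sob_Γ_ae hF hG).symm

theorem R.slope {f : M → ℝ} {F : M →ₘ[m] ℝ} (h : R f F) (hF : F ∈ (sob m).W) :
    R (S.slope m f) (slope F) := by
  rw [S_slope_eq]
  exact (Met.mslope_congr h (h.W_iff.2 hF)).trans (slope_ae hF).symm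

theorem R.isLap_iff {f k : M → ℝ} {F K : M →ₘ[m] ℝ} (h : R f F) (h' : R k K) :
    (S.sob m).IsLap f k ↔ (sob m).IsLap F K := by
  constructor
  · rintro ⟨h1, h2, h3⟩
    have hF := h.W_iff.1 h1
    refine ⟨hF, (memLp_congr_ae h').1 h2, fun G hG => ?_⟩
    have hg := R.coe G
    have h4 := h3 G (hg.W_iff.2 hG)
    rw [(h.Γ hg hF hG).int, (h'.mul hg).int] at h4
    exact h4
  · rintro ⟨h1, h2, h3⟩
    refine ⟨h.W_iff.2 h1, (memLp_congr_ae h').2 h2, fun g hg => ?_⟩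
    obtain ⟨G, hgG, hG⟩ := S_W_exists hg
    rw [(h.Γ hgG h1 hG).int, (h'.mul hgG).int]
    exact h3 G hG

theorem R.lap (hC : IsDir (sob m)) {f : M → ℝ} {F : M →ₘ[m] ℝ} (h : R f F)
    (hF : F ∈ (sob m).Test) : R ((S.sob m).lap f) ((sob m).lap F) := by
  obtain ⟨-, K, hK, -⟩ := hF
  have h1 : ∃ k, (S.sob m).IsLap f k := ⟨K, (h.isLap_iff (R.coe K)).2 hK⟩
  have h2 : (S.sob m).IsLap f ((S.sob m).lap f) := by
    unfold S.Calc.lap
    rw [dif_pos h1]
    exact h1.choose_spec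
  obtain ⟨L, hL⟩ := S_L2_exists h2.2.1
  have h3 := (h.isLap_iff hL).1 h2
  rw [hC.lap_eq h3]
  exact hL

theorem R.test_iff {f : M → ℝ} {F : M →ₘ[m] ℝ} (h : R f F) :
    (S.sob m).Test f ↔ F ∈ (sob m).Test := by
  constructor
  · rintro ⟨h1, k, h2, h3⟩
    obtain ⟨K, hkK, hK⟩ := S_W_exists h3
    exact ⟨h.B_iff.1 h1, K, (h.isLap_iff hkK).1 h2, hK⟩
  · rintro ⟨h1, K, h2, h3⟩
    exact ⟨h.B_iff.2 h1, K, (h.isLap_iff (R.coe K)).2 h2, (R.coe K).W_iff.2 h3⟩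

theorem S_test_exists {f : M → ℝ} (h : (S.sob m).Test f) :
    ∃ F : M →ₘ[m] ℝ, R f F ∧ F ∈ (sob m).Test := by
  obtain ⟨-, k, h2, h3⟩ := id h
  obtain ⟨F, hF, -⟩ := S_W_exists h2.1
  exact ⟨F, hF, hF.test_iff.1 h⟩

theorem BE_of_S {K N : ℝ} (h : (S.sob m).BE K N) : (sob m).BE K N := by
  intro F H Φ Ψ h1 h2 h3 h4 h5 h6
  obtain ⟨b, hb⟩ := mem_top_iff.1 h5
  obtain ⟨c, hc⟩ := mem_top_iff.1 h6
  have rF := R.coe F
  have rH := R.coe H
  have rΦ := R.coe Φ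
  have rΨ := R.coe Ψ
  have h7 := h F H Φ Ψ (max b c) ((rF.isLap_iff rH).2 h1) (rH.W_iff.2 h2)
    ((rΦ.isLap_iff rΨ).2 h3) (by
      filter_upwards [hb, hc, nonneg_iff_ae.1 h4] with x a1 a2 a3
      exact ⟨a3, (le_abs_self _).trans (a1.trans (le_max_left _ _)), a2.trans (le_max_right _ _)⟩)
  have e1 : R (fun x => Φ x * ((S.sob m).Γ F H x + K * (S.sob m).Γ F F x + H x ^ 2 / N))
      (Φ * ((sob m).Γ F H + K • (sob m).Γ F F + N⁻¹ • H ^ 2)) := by
    refine rΦ.mul (R.add (R.add (rF.Γ rH h1.1 h2) (R.smul K (rF.Γ rF h1.1 h1.1))) ?_)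
    filter_upwards [R.smul N⁻¹ rH.sq] with x hx
    rw [← hx]
    ring
  have e2 : R (fun x => (S.sob m).Γ F F x * Ψ x) ((sob m).Γ F F * Ψ) :=
    R.mul (rF.Γ rF h1.1 h1.1) rΨ
  rw [e1.int, e2.int] at h7
  refine h7.trans (le_of_eq ?_)
  rw [integral_congr_ae (smul_ae ((sob m).Γ F F * Ψ) (2 : ℝ)⁻¹), integral_const_mul]
  ring

theorem isRCD_of_S {K N : ℝ} (h : S.IsRCD m K N) : IsRCD m K N where
  quadratic := by
    intro F hF G hG
    have rF := R.coe F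
    have rG := R.coe G
    have h1 := h.quadratic F G (rF.W_iff.2 hF) (rG.W_iff.2 hG)
    have hs := sob_add_mem hF hG
    have hd := sob_sub_mem hF hG
    have a1 := ((rF.add rG).slope hs).sq
    have a2 := ((rF.sub rG).slope hd).sq
    have a3 := (rF.slope hF).sq
    have a4 := (rG.slope hG).sq
    have key : ∀ E : M →ₘ[m] ℝ, E ∈ (sob m).W → Integrable (slope E ^ 2 : M →ₘ[m] ℝ) m := by
      intro E hE
      exact int_of_mem (mem_sq (exists_minSlope' hE).1.2.1)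
    have e1 : ∫ x, S.slope m (fun y => F y + G y) x ^ 2 + S.slope m (fun y => F y - G y) x ^ 2 ∂m
        = ∫ x, (slope (F + G) ^ 2) x ∂m + ∫ x, (slope (F - G) ^ 2) x ∂m := by
      rw [← integral_add (key _ hs) (key _ hd)]
      refine integral_congr_ae ?_
      filter_upwards [a1, a2] with x b1 b2
      rw [b1, b2]
    have e2 : ∫ x, 2 * S.slope m F x ^ 2 + 2 * S.slope m G x ^ 2 ∂m
        = 2 * ∫ x, (slope F ^ 2) x ∂m + 2 * ∫ x, (slope G ^ 2) x ∂m := by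
      rw [← integral_const_mul, ← integral_const_mul,
        ← integral_add ((key _ hF).const_mul 2) ((key _ hG).const_mul 2)]
      refine integral_congr_ae ?_
      filter_upwards [a3, a4] with x b3 b4
      rw [b3, b4]
    rw [← e1, h1, e2]
  growth := h.growth
  sobolev_to_lipschitz := by
    intro F hF h1
    have rF := R.coe F
    refine h.sobolev_to_lipschitz F (rF.W_iff.2 hF) ?_
    filter_upwards [rF.slope hF, le_iff_ae.1 h1, one_ae (M := M) (m := m)] with x b1 b2 b3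
    rw [b1]
    rwa [b3] at b2
  bochner := BE_of_S h.bochner

end B

end Vale.Agent.P233
end
end

section

section

open MeasureTheory Filter Topology
open scoped ENNReal NNReal InnerProductSpace

universe u

set_option linter.unusedSectionVars false

namespace Vale.Agent.P233

variable {M : Type u} [MetricSpace M] [MeasurableSpace M] [BorelSpace M]
  [SecondCountableTopology M] {m : Measure M}

/-- pairs of representatives of test functions -/
def RT (p : (M → ℝ) × (M → ℝ)) (q : (M →ₘ[m] ℝ) × (M →ₘ[m] ℝ)) : Prop :=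
  R p.1 q.1 ∧ R p.2 q.2 ∧ q.1 ∈ (sob m).Test ∧ q.2 ∈ (sob m).Test

/-- lists of pairs of representatives of test functions -/
def RV (X : S.VF M) (X' : List ((M →ₘ[m] ℝ) × (M →ₘ[m] ℝ))) : Prop :=
  List.Forall₂ (RT (m := m)) X X'

/-- the list of the representatives -/
noncomputable def coeV (X' : List ((M →ₘ[m] ℝ) × (M →ₘ[m] ℝ))) : S.VF M :=
  X'.map fun (p : (M →ₘ[m] ℝ) × (M →ₘ[m] ℝ)) => ((p.1 : M → ℝ), (p.2 : M → ℝ))

open Classical in
/-- the class of a function -/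
noncomputable def cls (m : Measure M) (f : M → ℝ) : M →ₘ[m] ℝ :=
  if h : AEStronglyMeasurable f m then AEEqFun.mk f h else 0

theorem R_cls {f : M → ℝ} {F : M →ₘ[m] ℝ} (h : R f F) : cls m f = F := by
  have h1 : AEStronglyMeasurable f m := F.aestronglyMeasurable.congr h.symm
  unfold cls
  rw [dif_pos h1]
  exact AEEqFun.ext ((AEEqFun.coeFn_mk f h1).trans h)

/-- the list of the classes -/
noncomputable def clsV (m : Measure M) (X : S.VF M) : List ((M →ₘ[m] ℝ) × (M →ₘ[m] ℝ)) :=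
  X.map fun p => (cls m p.1, cls m p.2)

theorem RV_coeV {X' : List ((M →ₘ[m] ℝ) × (M →ₘ[m] ℝ))} (h : (sob m).IsTestV X') :
    RV (coeV X') X' := by
  unfold RV coeV
  induction X' with
  | nil => exact List.Forall₂.nil
  | cons p X' ih =>
    have hp := h p List.mem_cons_self
    exact List.Forall₂.cons ⟨R.coe _, R.coe _, hp.1, hp.2⟩
      (ih fun q hq => h q (List.mem_cons_of_mem _ hq))

theorem RV_clsV {X : S.VF M} (h : (S.sob m).TestV X) : RV X (clsV m X) := by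
  unfold RV clsV
  induction X with
  | nil => exact List.Forall₂.nil
  | cons p X ih =>
    have hp := h p List.mem_cons_self
    obtain ⟨F, hF, hF'⟩ := S_test_exists hp.1
    obtain ⟨G, hG, hG'⟩ := S_test_exists hp.2
    refine List.Forall₂.cons ⟨?_, ?_, ?_, ?_⟩ (ih fun q hq => h q (List.mem_cons_of_mem _ hq))
    · simp only [R_cls hF]; exact hF
    · simp only [R_cls hG]; exact hG
    · simp only [R_cls hF]; exact hF'
    · simp only [R_cls hG]; exact hG'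

theorem RV.testV {X : S.VF M} {X' : List ((M →ₘ[m] ℝ) × (M →ₘ[m] ℝ))} (h : RV X X') :
    (S.sob m).TestV X := by
  unfold RV at h
  induction h with
  | nil => intro p hp; simp at hp
  | cons h1 _ ih =>
    intro p hp
    rcases List.mem_cons.1 hp with rfl | hp
    · exact ⟨h1.1.test_iff.2 h1.2.2.1, h1.2.1.test_iff.2 h1.2.2.2⟩
    · exact ih p hp

theorem RV.isTestV {X : S.VF M} {X' : List ((M →ₘ[m] ℝ) × (M →ₘ[m] ℝ))} (h : RV X X') :
    (sob m).IsTestV X' := by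
  unfold RV at h
  induction h with
  | nil => intro p hp; simp at hp
  | cons h1 _ ih =>
    intro p hp
    rcases List.mem_cons.1 hp with rfl | hp
    · exact ⟨h1.2.2.1, h1.2.2.2⟩
    · exact ih p hp

theorem RV.sum {X : S.VF M} {X' : List ((M →ₘ[m] ℝ) × (M →ₘ[m] ℝ))} (h : RV X X')
    {φ : (M → ℝ) × (M → ℝ) → M → ℝ} {Φ : (M →ₘ[m] ℝ) × (M →ₘ[m] ℝ) → (M →ₘ[m] ℝ)}
    (hφ : ∀ p q, RT p q → R (φ p) (Φ q)) :
    R (fun x => (X.map fun p => φ p x).sum) (X'.map Φ).sum := by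
  unfold RV at h
  induction h with
  | nil => simpa using R.zero
  | cons h1 _ ih =>
    simp only [List.map_cons, List.sum_cons]
    exact R.add (hφ _ _ h1) ih

theorem RV.ip {X Y : S.VF M} {X' Y' : List ((M →ₘ[m] ℝ) × (M →ₘ[m] ℝ))} (hX : RV X X')
    (hY : RV Y Y') (hC : IsGamma (sob m)) : R ((S.sob m).ip X Y) ((sob m).ip X' Y') := by
  unfold S.Calc.ip Calc.ip
  refine hX.sum (φ := fun p x => (Y.map fun q => p.1 x * q.1 x * (S.sob m).Γ p.2 q.2 x).sum)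
    fun p p' hp => ?_
  refine hY.sum (φ := fun q x => p.1 x * q.1 x * (S.sob m).Γ p.2 q.2 x) fun q q' hq => ?_
  exact (hp.1.mul hq.1).mul (hp.2.1.Γ hq.2.1 (hC.test_A hp.2.2.2).1 (hC.test_A hq.2.2.2).1)

theorem RV.dv {X : S.VF M} {X' : List ((M →ₘ[m] ℝ) × (M →ₘ[m] ℝ))} (hX : RV X X')
    (hC : IsGamma (sob m)) : R ((S.sob m).dv X) ((sob m).dv X') := by
  unfold S.Calc.dv Calc.dv
  refine hX.sum (φ := fun p x => (S.sob m).Γ p.1 p.2 x + p.1 x * (S.sob m).lap p.2 x)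
    fun p p' hp => ?_
  exact R.add (hp.1.Γ hp.2.1 (hC.test_A hp.2.2.1).1 (hC.test_A hp.2.2.2).1)
    (hp.1.mul (hp.2.1.lap hC.toIsDir hp.2.2.2))

theorem R.hess {κ : ℝ} (hC : IsGamma (sob m)) (hB : (sob m).BE κ 2) {b g h : M → ℝ}
    {b' g' h' : M →ₘ[m] ℝ} (rb : R b b') (rg : R g g') (rh : R h h') (tb : b' ∈ (sob m).Test)
    (tg : g' ∈ (sob m).Test) (th : h' ∈ (sob m).Test) :
    R ((S.sob m).hess b g h) ((sob m).hess b' g' h') := by
  unfold S.Calc.hess Calc.hess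
  have wb := (hC.test_A tb).1
  have wg := (hC.test_A tg).1
  have wh := (hC.test_A th).1
  have e1 := rg.Γ (rb.Γ rh wb wh) wg (hC.Γ_mem hB tb th).1
  have e2 := rh.Γ (rb.Γ rg wb wg) wh (hC.Γ_mem hB tb tg).1
  have e3 := rb.Γ (rg.Γ rh wg wh) wb (hC.Γ_mem hB tg th).1
  filter_upwards [R.smul (2 : ℝ)⁻¹ (R.sub (R.add e1 e2) e3)] with x hx
  rw [← hx]
  ring

theorem RT.nab {κ : ℝ} (hC : IsGamma (sob m)) (hB : (sob m).BE κ 2)
    {p q r : (M → ℝ) × (M → ℝ)} {p' q' r' : (M →ₘ[m] ℝ) × (M →ₘ[m] ℝ)} (hp : RT p p')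
    (hq : RT q q') (hr : RT r r') :
    R (fun x => p.1 x * r.1 x * ((S.sob m).Γ p.2 q.1 x * (S.sob m).Γ q.2 r.2 x
      + q.1 x * (S.sob m).hess q.2 p.2 r.2 x))
    (p'.1 * r'.1 * ((sob m).Γ p'.2 q'.1 * (sob m).Γ q'.2 r'.2
      + q'.1 * (sob m).hess q'.2 p'.2 r'.2)) := by
  have p2 := (hC.test_A hp.2.2.2).1
  have q1 := (hC.test_A hq.2.2.1).1
  have q2 := (hC.test_A hq.2.2.2).1
  have r2 := (hC.test_A hr.2.2.2).1
  have a1 := R.Γ hp.2.1 hq.1 p2 q1
  have a2 := R.Γ hq.2.1 hr.2.1 q2 r2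
  have a3 := R.hess hC hB hq.2.1 hp.2.1 hr.2.1 hq.2.2.2 hp.2.2.2 hr.2.2.2
  have a4 := R.add (R.mul a1 a2) (R.mul hq.1 a3)
  exact R.mul (R.mul hp.1 hr.1) a4

theorem RV.nab1 {κ : ℝ} (hC : IsGamma (sob m)) (hB : (sob m).BE κ 2) {Z : S.VF M}
    {Z' : List ((M →ₘ[m] ℝ) × (M →ₘ[m] ℝ))} (hZ : RV Z Z') {p q : (M → ℝ) × (M → ℝ)}
    {p' q' : (M →ₘ[m] ℝ) × (M →ₘ[m] ℝ)} (hp : RT p p') (hq : RT q q') :
    R (fun x => (Z.map fun r => p.1 x * r.1 x * ((S.sob m).Γ p.2 q.1 x * (S.sob m).Γ q.2 r.2 x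
        + q.1 x * (S.sob m).hess q.2 p.2 r.2 x)).sum)
      (Z'.map fun r' => p'.1 * r'.1 * ((sob m).Γ p'.2 q'.1 * (sob m).Γ q'.2 r'.2
        + q'.1 * (sob m).hess q'.2 p'.2 r'.2)).sum :=
  RV.sum hZ fun _ _ hr => RT.nab hC hB hp hq hr

theorem RV.nab2 {κ : ℝ} (hC : IsGamma (sob m)) (hB : (sob m).BE κ 2) {Y Z : S.VF M}
    {Y' Z' : List ((M →ₘ[m] ℝ) × (M →ₘ[m] ℝ))} (hY : RV Y Y') (hZ : RV Z Z')
    {p : (M → ℝ) × (M → ℝ)} {p' : (M →ₘ[m] ℝ) × (M →ₘ[m] ℝ)} (hp : RT p p') :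
    R (fun x => (Y.map fun q => (Z.map fun r =>
        p.1 x * r.1 x * ((S.sob m).Γ p.2 q.1 x * (S.sob m).Γ q.2 r.2 x
          + q.1 x * (S.sob m).hess q.2 p.2 r.2 x)).sum).sum)
      (Y'.map fun q' => (Z'.map fun r' => p'.1 * r'.1 * ((sob m).Γ p'.2 q'.1 *
        (sob m).Γ q'.2 r'.2 + q'.1 * (sob m).hess q'.2 p'.2 r'.2)).sum).sum :=
  RV.sum hY fun _ _ hq => RV.nab1 hC hB hZ hp hq

theorem RV.nab {κ : ℝ} (hC : IsGamma (sob m)) (hB : (sob m).BE κ 2) {X Y Z : S.VF M}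
    {X' Y' Z' : List ((M →ₘ[m] ℝ) × (M →ₘ[m] ℝ))} (hX : RV X X') (hY : RV Y Y')
    (hZ : RV Z Z') : R ((S.sob m).nab X Y Z) ((sob m).nab X' Y' Z') :=
  RV.sum hX fun _ _ hp => RV.nab2 hC hB hY hZ hp

section hilb

variable {H : Type u} [NormedAddCommGroup H] [InnerProductSpace ℝ H]

theorem iota_eq (hC : IsGamma (sob m)) {ι : S.VF M → H} (hι : (S.sob m).IsL2TM ι) {X : S.VF M}
    {X' : List ((M →ₘ[m] ℝ) × (M →ₘ[m] ℝ))} (h : RV X X') : ι X = ι (coeV X') := by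
  have h' := RV_coeV h.isTestV
  have i1 := hι.2.1 X X h.testV h.testV
  have i2 := hι.2.1 X (coeV X') h.testV h'.testV
  have i3 := hι.2.1 (coeV X') (coeV X') h'.testV h'.testV
  rw [(h.ip h hC).int] at i1
  rw [(h.ip h' hC).int] at i2
  rw [(h'.ip h' hC).int] at i3
  rw [← sub_eq_zero, ← norm_eq_zero, ← sq_eq_zero_iff, ← real_inner_self_eq_norm_sq]
  rw [inner_sub_left, inner_sub_right, inner_sub_right, real_inner_comm (ι X) (ι (coeV X')),
    i1, i2, i3]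
  ring

theorem isL2TM_coe (hC : IsGamma (sob m)) {ι : S.VF M → H} (hι : (S.sob m).IsL2TM ι) :
    (sob m).IsL2TM (fun X' => ι (coeV X')) := by
  constructor
  · intro X' Y' hX hY
    have rX := RV_coeV hX
    have rY := RV_coeV hY
    rw [hι.2.1 _ _ rX.testV rY.testV, (rX.ip rY hC).int]
  · intro v
    rw [Metric.mem_closure_iff]
    intro ε hε
    obtain ⟨X, hX, hX'⟩ := hι.2.2 v ε hε
    have r := RV_clsV hX
    refine ⟨ι X, ⟨clsV m X, r.isTestV, (iota_eq hC hι r).symm⟩, ?_⟩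
    rw [dist_comm, dist_eq_norm]
    exact hX'

theorem eq_of_reps {ι : List ((M →ₘ[m] ℝ) × (M →ₘ[m] ℝ)) → H} (hι : (sob m).IsL2TM ι) {V V' : H}
    (h : ∀ X, (sob m).IsTestV X → ⟪V, ι X⟫_ℝ = ⟪V', ι X⟫_ℝ) : V = V' := by
  have h1 : ∀ w : H, ⟪V - V', w⟫_ℝ = 0 := by
    intro w
    have hcl : IsClosed {w : H | ⟪V - V', w⟫_ℝ = 0} :=
      isClosed_eq (by fun_prop) continuous_const
    have hsub : {v | ∃ X, (sob m).IsTestV X ∧ ι X = v} ⊆ {w : H | ⟪V - V', w⟫_ℝ = 0} := by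
      rintro _ ⟨X, hX, rfl⟩
      change ⟪V - V', ι X⟫_ℝ = 0
      rw [inner_sub_left]
      rw [h X hX, sub_self]
    exact closure_minimal hsub hcl (hι.2 w)
  rw [← sub_eq_zero]
  exact inner_self_eq_zero.1 (h1 (V - V'))

theorem reps_iff (hC : IsGamma (sob m)) {ι : S.VF M → H} (hι : (S.sob m).IsL2TM ι)
    {φ : S.VF M → ℝ} {φ' : List ((M →ₘ[m] ℝ) × (M →ₘ[m] ℝ)) → ℝ}
    (hφ : ∀ Z Z', RV Z Z' → φ Z = φ' Z') {V : H} :
    S.Calc.Reps (S.sob m) ι φ V ↔ ∀ Z', (sob m).IsTestV Z' → ⟪V, ι (coeV Z')⟫_ℝ = φ' Z' := by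
  constructor
  · intro h Z' hZ'
    have r := RV_coeV hZ'
    rw [h _ r.testV, hφ _ _ r]
  · intro h Z hZ
    have r := RV_clsV hZ
    rw [iota_eq hC hι r, h _ r.isTestV, hφ _ _ r]

theorem rep_cov {κ : ℝ} (hC : IsGamma (sob m)) (hB : (sob m).BE κ 2) {ι : S.VF M → H}
    (hι : (S.sob m).IsL2TM ι) {X Y : S.VF M}
    {X' Y' : List ((M →ₘ[m] ℝ) × (M →ₘ[m] ℝ))} (hX : RV X X') (hY : RV Y Y') :
    (∀ V, (S.sob m).Reps ι (fun Z => (S.sob m).int ((S.sob m).nab X Y Z)) V ↔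
      (sob m).IsCov (fun X' => ι (coeV X')) X' Y' V) ∧
    (S.sob m).cov ι X Y = (sob m).cov (fun X' => ι (coeV X')) X' Y' := by
  have key : ∀ V, (S.sob m).Reps ι (fun Z => (S.sob m).int ((S.sob m).nab X Y Z)) V ↔
      (sob m).IsCov (fun X' => ι (coeV X')) X' Y' V := fun V =>
    reps_iff hC hι (φ' := fun Z' => ∫ x, (sob m).nab X' Y' Z' x ∂m) fun Z Z' hZ =>
      (RV.nab hC hB hX hY hZ).int
  refine ⟨key, ?_⟩
  unfold S.Calc.cov S.Calc.rep Calc.cov
  by_cases h : ∃ V, (S.sob m).Reps ι (fun Z => (S.sob m).int ((S.sob m).nab X Y Z)) V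
  · have h' : ∃ V, (sob m).IsCov (fun X' => ι (coeV X')) X' Y' V :=
      ⟨h.choose, (key _).1 h.choose_spec⟩
    rw [dif_pos h, dif_pos h']
    refine eq_of_reps (isL2TM_coe hC hι) fun Z' hZ' => ?_
    rw [(key _).1 h.choose_spec Z' hZ', h'.choose_spec Z' hZ']
  · have h' : ¬ ∃ V, (sob m).IsCov (fun X' => ι (coeV X')) X' Y' V := by
      rintro ⟨V, hV⟩
      exact h ⟨V, (key V).2 hV⟩
    rw [dif_neg h, dif_neg h']

theorem rep_covT {κ : ℝ} (hC : IsGamma (sob m)) (hB : (sob m).BE κ 2) {ι : S.VF M → H}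
    (hι : (S.sob m).IsL2TM ι) {Y Z : S.VF M}
    {Y' Z' : List ((M →ₘ[m] ℝ) × (M →ₘ[m] ℝ))} (hY : RV Y Y') (hZ : RV Z Z') :
    (∀ V, (S.sob m).Reps ι (fun X => (S.sob m).int ((S.sob m).nab X Y Z)) V ↔
      (sob m).IsCovT (fun X' => ι (coeV X')) Y' Z' V) ∧
    S.Calc.rep (S.sob m) ι (fun X => (S.sob m).int ((S.sob m).nab X Y Z))
      = (sob m).covT (fun X' => ι (coeV X')) Y' Z' := by
  have key : ∀ V, (S.sob m).Reps ι (fun X => (S.sob m).int ((S.sob m).nab X Y Z)) V ↔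
      (sob m).IsCovT (fun X' => ι (coeV X')) Y' Z' V := fun V =>
    reps_iff hC hι (φ' := fun X' => ∫ x, (sob m).nab X' Y' Z' x ∂m) fun X X' hX =>
      (RV.nab hC hB hX hY hZ).int
  refine ⟨key, ?_⟩
  unfold S.Calc.rep Calc.covT
  by_cases h : ∃ V, (S.sob m).Reps ι (fun X => (S.sob m).int ((S.sob m).nab X Y Z)) V
  · have h' : ∃ V, (sob m).IsCovT (fun X' => ι (coeV X')) Y' Z' V :=
      ⟨h.choose, (key _).1 h.choose_spec⟩
    rw [dif_pos h, dif_pos h']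
    refine eq_of_reps (isL2TM_coe hC hι) fun X' hX' => ?_
    rw [(key _).1 h.choose_spec X' hX', h'.choose_spec X' hX']
  · have h' : ¬ ∃ V, (sob m).IsCovT (fun X' => ι (coeV X')) Y' Z' V := by
      rintro ⟨V, hV⟩
      exact h ⟨V, (key V).2 hV⟩
    rw [dif_neg h, dif_neg h']

theorem RV_mulV {κ : ℝ} (hC : IsGamma (sob m)) (hB : (sob m).BE κ 2) {X : S.VF M}
    {X' : List ((M →ₘ[m] ℝ) × (M →ₘ[m] ℝ))} (hX : RV X X') {f : M → ℝ} {F : M →ₘ[m] ℝ}
    (hf : R f F) (hF : F ∈ (sob m).Test) :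
    RV (X.map fun p => (fun x => f x * p.1 x, p.2)) (Calc.mulV F X') := by
  unfold RV Calc.mulV at *
  induction hX with
  | nil => exact List.Forall₂.nil
  | cons h1 _ ih =>
    simp only [List.map_cons]
    exact List.Forall₂.cons ⟨hf.mul h1.1, h1.2.1, hC.test_mul hB hF h1.2.2.1, h1.2.2.2⟩ ih

theorem curv_coe {κ : ℝ} (hC : IsGamma (sob m)) (hB : (sob m).BE κ 2) {ι : S.VF M → H}
    (hι : (S.sob m).IsL2TM ι) {X Y : S.VF M}
    {X' Y' : List ((M →ₘ[m] ℝ) × (M →ₘ[m] ℝ))} (hX : RV X X') (hY : RV Y Y') {f : M → ℝ}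
    {F : M →ₘ[m] ℝ} (hf : R f F) (hF : F ∈ (sob m).Test) :
    (S.sob m).curv ι X Y Y X f = (sob m).curv (fun X' => ι (coeV X')) X' Y' Y' X' F := by
  unfold S.Calc.curv S.Calc.curvAux Calc.curv
  have hV := RV_mulV hC hB hX hf hF
  rw [(rep_cov hC hB hι hX hV).2, (rep_cov hC hB hι hY hY).2, (rep_cov hC hB hι hY hV).2,
    (rep_cov hC hB hι hX hY).2, (rep_cov hC hB hι hY hX).2, (rep_covT hC hB hι hY hV).2]
  have e1 : (S.sob m).int (fun x => f x * (S.sob m).nab Y Y X x * (S.sob m).dv X x)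
      = ∫ x, (F * (sob m).nab Y' Y' X' * (sob m).dv X') x ∂m :=
    R.int ((hf.mul (RV.nab hC hB hY hY hX)).mul (hX.dv hC))
  have e2 : (S.sob m).int (fun x => f x * (S.sob m).nab X Y X x * (S.sob m).dv Y x)
      = ∫ x, (F * (sob m).nab X' Y' X' * (sob m).dv Y') x ∂m :=
    R.int ((hf.mul (RV.nab hC hB hX hY hX)).mul (hY.dv hC))
  rw [e1, e2]

end hilb

/-- The main theorem, in terms of functions. -/
theorem plain_main (m : Measure M) (κ : ℝ) (h : S.IsRCD m κ 2) :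
    (∃ (H : Type u) (_ : NormedAddCommGroup H) (_ : InnerProductSpace ℝ H) (ι : S.VF M → H),
      (S.sob m).IsL2TM ι) ∧ (S.sob m).DistSecGE κ := by
  have hR := isRCD_of_S h
  have hfin := ball_lt_top_of_growth hR.growth
  have hC : IsGamma (sob m) := isGamma_sob hfin hR.quadratic hR.sobolev_to_lipschitz
  have hB : (sob m).BE κ 2 := hR.bochner
  obtain ⟨⟨H, i1, i2, i3, ι, hι⟩, hD⟩ := main_theorem m hfin κ hR
  constructor
  · refine ⟨H, i1, i2, fun X => ι (clsV m X), i3, ?_, ?_⟩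
    · intro X Y hX hY
      have rX := RV_clsV hX
      have rY := RV_clsV hY
      rw [hι.1 _ _ rX.isTestV rY.isTestV, (rX.ip rY hC).int]
    · intro v ε hε
      obtain ⟨w, ⟨X', hX', rfl⟩, hw⟩ := Metric.mem_closure_iff.1 (hι.2 v) ε hε
      have r := RV_coeV hX'
      refine ⟨coeV X', r.testV, ?_⟩
      have e : clsV m (coeV X') = X' := by
        unfold clsV coeV
        rw [List.map_map]
        conv_rhs => rw [← List.map_id X']
        refine List.map_congr_left fun p _ => ?_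
        simp only [Function.comp, id, R_cls (R.coe p.1), R_cls (R.coe p.2)]
      change ‖ι (clsV m (coeV X')) - v‖ < ε
      rw [e, ← dist_eq_norm, dist_comm]
      exact hw
  · intro H _ _ ι hι X Y hX hY
    have := hι.1
    have rX := RV_clsV hX
    have rY := RV_clsV hY
    obtain ⟨⟨V, hV⟩, ⟨V', hV'⟩, h3⟩ := hD H (fun X' => ι (coeV X')) (isL2TM_coe hC hι)
      (clsV m X) (clsV m Y) rX.isTestV rY.isTestV
    refine ⟨⟨V, ((rep_cov hC hB hι rX rY).1 V).2 hV⟩, ⟨V', ((rep_covT hC hB hι rX rY).1 V').2 hV'⟩,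
      ?_⟩
    intro f hf h0
    obtain ⟨F, hF, hF'⟩ := S_test_exists hf
    have h4 := h3 F hF' (nonneg_iff_ae.2 (by
      filter_upwards [h0, hF] with x a1 a2
      rwa [← a2]))
    rw [curv_coe hC hB hι rX rY hF hF']
    refine le_trans (le_of_eq ?_) h4
    congr 1
    exact R.int (hF.mul (R.sub ((rX.ip rX hC).mul (rY.ip rY hC)) (rX.ip rY hC).sq))

end Vale.Agent.P233
end
end
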